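import Mathlib

namespace Vale.Agent.P249

open Finset MeasureTheory

section comb

variable {ι : Type*}

open scoped Classical in
lemma sum_card_lt (r : ι → ℝ) (A : Finset ι) :
    ∑ B ∈ A.powerset, (A.filter (fun w => ∀ a ∈ B, r w < r a)).card < 2 ^ A.card := by
  induction A using Finset.induction_on_min_value r with
  | empty => simp
  | insert a s has hmin ih =>
    rw [Finset.sum_powerset_insert has, Finset.card_insert_of_notMem has]
    have h2 : ∑ t ∈ s.powerset,
        ((insert a s).filter (fun w => ∀ b ∈ insert a t, r w < r b)).card = 0 := by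
      apply Finset.sum_eq_zero
      intro t ht
      rw [Finset.card_eq_zero, Finset.filter_eq_empty_iff]
      intro w hw hcon
      have h1 := hcon a (Finset.mem_insert_self a t)
      rcases Finset.mem_insert.1 hw with h | h
      · subst h; exact lt_irrefl _ h1
      · exact absurd (hmin w h) (not_le.2 h1)
    have h1 : ∑ t ∈ s.powerset,
        ((insert a s).filter (fun w => ∀ b ∈ t, r w < r b)).card ≤
        ∑ t ∈ s.powerset, (1 + (s.filter (fun w => ∀ b ∈ t, r w < r b)).card) := by
      apply Finset.sum_le_sum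
      intro t ht
      rw [Finset.filter_insert]
      split_ifs with hh
      · refine (Finset.card_insert_le _ _).trans ?_
        omega
      · omega
    rw [Finset.sum_add_distrib] at h1
    simp only [Finset.sum_const, Finset.card_powerset, smul_eq_mul, mul_one] at h1
    rw [h2, pow_succ]
    omega

open scoped Classical in
/-- Halving: there is a nonempty subset of at most half the size with few bunch pairs. -/
lemma halving [Fintype ι] (d : ι → ι → ℝ) (A : Finset ι) (hA : 2 ≤ A.card) :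
    ∃ B : Finset ι, B ⊆ A ∧ B.Nonempty ∧ 2 * B.card ≤ A.card ∧
      ∑ v : ι, (A.filter (fun w => ∀ a ∈ B, d w v < d a v)).card < 2 * Fintype.card ι := by
  set f : Finset ι → ℕ := fun B => ∑ v : ι, (A.filter (fun w => ∀ a ∈ B, d w v < d a v)).card
    with hf
  have hne : A.Nonempty := Finset.card_pos.1 (by omega)
  obtain ⟨a0, ha0⟩ := hne
  have hcard : 0 < Fintype.card ι := Fintype.card_pos_iff.2 ⟨a0⟩
  have hsum : ∑ B ∈ A.powerset, f B < Fintype.card ι * 2 ^ A.card := by
    have h1 : ∑ B ∈ A.powerset, f B = ∑ v : ι, ∑ B ∈ A.powerset,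
        (A.filter (fun w => ∀ a ∈ B, d w v < d a v)).card := by
      rw [hf]; exact Finset.sum_comm
    have h2 : ∑ v : ι, ∑ B ∈ A.powerset, (A.filter (fun w => ∀ a ∈ B, d w v < d a v)).card
        < ∑ v : ι, 2 ^ A.card :=
      Finset.sum_lt_sum_of_nonempty ⟨a0, Finset.mem_univ _⟩
        (fun v _ => by convert sum_card_lt (fun w => d w v) A; rfl)
    have h3 : ∑ v : ι, 2 ^ A.card = Fintype.card ι * 2 ^ A.card := by
      rw [Finset.sum_const, Finset.card_univ, smul_eq_mul]
    rw [h1, ← h3]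
    exact h2
  have hsum2 : ∑ B ∈ A.powerset, f (A \ B) = ∑ B ∈ A.powerset, f B := by
    apply Finset.sum_nbij' (fun B => A \ B) (fun B => A \ B)
    · intro B hB; simp
    · intro B hB; simp
    · intro B hB
      simp only [Finset.mem_powerset] at hB
      simp [Finset.inter_eq_right.2 hB]
    · intro B hB
      simp only [Finset.mem_powerset] at hB
      simp [Finset.inter_eq_right.2 hB]
    · intro B hB; rfl
  have hex : ∃ B ∈ A.powerset, f B + f (A \ B) < 2 * Fintype.card ι := by
    by_contra hcon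
    push Not at hcon
    have := Finset.sum_le_sum hcon
    rw [Finset.sum_add_distrib, hsum2] at this
    simp only [Finset.sum_const, Finset.card_powerset, smul_eq_mul] at this
    nlinarith
  obtain ⟨B, hB, hfB⟩ := hex
  rw [Finset.mem_powerset] at hB
  have hempty : f ∅ = Fintype.card ι * A.card := by
    simp [hf]
  have hBne : B.Nonempty := by
    rw [Finset.nonempty_iff_ne_empty]
    rintro rfl
    rw [hempty] at hfB
    nlinarith
  have hBne' : (A \ B).Nonempty := by
    rw [Finset.nonempty_iff_ne_empty]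
    intro h
    rw [h, hempty] at hfB
    nlinarith
  have hc : (A \ B).card + B.card = A.card := Finset.card_sdiff_add_card_eq_card hB
  rcases le_total B.card (A \ B).card with h | h
  · exact ⟨B, hB, hBne, by omega, lt_of_le_of_lt (Nat.le_add_right (f B) (f (A \ B))) hfB⟩
  · exact ⟨A \ B, Finset.sdiff_subset, hBne', by omega,
      lt_of_le_of_lt (Nat.le_add_left (f (A \ B)) (f B)) hfB⟩

open scoped Classical in
/-- A sparse spanner in the form of a Lipschitz certificate. -/
lemma spanner [Fintype ι] (d : ι → ι → ℝ) (hd0 : ∀ i j, 0 ≤ d i j) (hsymm : ∀ i j, d i j = d j i)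
    (htri : ∀ i j k, d i k ≤ d i j + d j k) (k : ℕ) :
    ∀ A : Finset ι, A.Nonempty → A.card ≤ 2 ^ k →
      ∃ E : Finset (ι × ι), E.card ≤ (3 * k + 1) * Fintype.card ι ∧
        ∀ (φ : ι → ℝ) (M : ℝ), 0 ≤ M → (∀ e ∈ E, |φ e.1 - φ e.2| ≤ M * d e.1 e.2) →
          ∀ u v w c, w ∈ A → d u w ≤ c → |φ u - φ w| ≤ M * c →
            |φ u - φ v| ≤ M * (2 * c + (2 * k + 1) * d u v) := by
  induction k with
  | zero =>
    intro A hA hAc
    obtain ⟨a, ha⟩ := hA
    have hA1 : ∀ w ∈ A, w = a := by
      intro w hw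
      exact Finset.card_le_one.1 (by simpa using hAc) w hw a ha
    refine ⟨Finset.univ.image (fun v => (v, a)), ?_, ?_⟩
    · refine Finset.card_image_le.trans ?_
      simp
    · intro φ M hM hE u v w c hw huw hφ
      have hwa := hA1 w hw
      subst hwa
      have h1 : |φ v - φ w| ≤ M * d v w := hE (v, w) (by simp)
      have h2 : |φ u - φ v| ≤ |φ u - φ w| + |φ v - φ w| := by
        have := abs_sub_le (φ u) (φ w) (φ v)
        rwa [abs_sub_comm (φ w) (φ v)] at this
      have h3 : d v w ≤ d u v + c := by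
        have := htri v u w
        rw [hsymm v u] at this
        linarith
      have h4 : M * d v w ≤ M * (d u v + c) := mul_le_mul_of_nonneg_left h3 hM
      simp only [Nat.cast_zero, mul_zero, zero_add, one_mul]
      nlinarith
  | succ k ih =>
    intro A hA hAc
    by_cases h1 : A.card ≤ 1
    · obtain ⟨E, hEc, hE⟩ := ih A hA (h1.trans Nat.one_le_two_pow)
      refine ⟨E, hEc.trans (Nat.mul_le_mul_right _ (by omega)), ?_⟩
      intro φ M hM hφE u v w c hw huw hφ
      refine (hE φ M hM hφE u v w c hw huw hφ).trans ?_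
      apply mul_le_mul_of_nonneg_left _ hM
      push_cast
      have := hd0 u v
      nlinarith
    · obtain ⟨B, hBA, hBne, hBc, hBf⟩ := halving d A (by omega)
      obtain ⟨E', hE'c, hE'⟩ := ih B hBne (by rw [pow_succ] at hAc; omega)
      have hnear : ∀ v, ∃ b ∈ B, ∀ a ∈ B, d b v ≤ d a v := by
        intro v
        exact Finset.exists_min_image B (fun b => d b v) hBne
      choose near hnearB hnear using hnear
      set F : Finset (ι × ι) :=
        (Finset.univ ×ˢ A).filter (fun q => ∀ a ∈ B, d q.2 q.1 < d a q.1) with hF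
      have hFc : F.card < 2 * Fintype.card ι := by
        refine lt_of_le_of_lt (le_of_eq ?_) hBf
        rw [hF, Finset.card_filter, Finset.sum_product]
        apply Finset.sum_congr rfl
        intro v _
        rw [Finset.card_filter]
      refine ⟨E' ∪ F ∪ Finset.univ.image (fun v => (v, near v)), ?_, ?_⟩
      · refine (Finset.card_union_le _ _).trans ?_
        have hi : (Finset.univ.image (fun v => (v, near v))).card ≤ Fintype.card ι :=
          Finset.card_image_le.trans (by simp)
        have hu := Finset.card_union_le E' F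
        have : (3 * (k + 1) + 1) * Fintype.card ι =
          (3 * k + 1) * Fintype.card ι + 2 * Fintype.card ι + Fintype.card ι := by ring
        omega
      · intro φ M hM hφE u v w c hw huw hφ
        have hd := hd0 u v
        have h3 : d v w ≤ d u v + c := by
          have := htri v u w
          rw [hsymm v u] at this
          linarith
        by_cases hcase : ∀ a ∈ B, d w v < d a v
        · have hmem : (v, w) ∈ E' ∪ F ∪ Finset.univ.image (fun v => (v, near v)) := by
            apply Finset.mem_union_left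
            apply Finset.mem_union_right
            rw [hF, Finset.mem_filter]
            exact ⟨by simp [hw], hcase⟩
          have h1 : |φ v - φ w| ≤ M * d v w := hφE (v, w) hmem
          have h2 : |φ u - φ v| ≤ |φ u - φ w| + |φ v - φ w| := by
            have := abs_sub_le (φ u) (φ w) (φ v)
            rwa [abs_sub_comm (φ w) (φ v)] at this
          have h4 : M * d v w ≤ M * (d u v + c) := mul_le_mul_of_nonneg_left h3 hM
          push_cast
          have h5 : 0 ≤ M * d u v := mul_nonneg hM hd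
          have h6 : 0 ≤ M * d u v * k := mul_nonneg h5 (Nat.cast_nonneg k)
          nlinarith
        · push Not at hcase
          obtain ⟨a, haB, hav⟩ := hcase
          have hnv : d v (near v) ≤ d u v + c := by
            have h5 := hnear v a haB
            rw [hsymm v (near v)]
            rw [hsymm w v] at hav
            linarith
          have hmem : (v, near v) ∈ E' ∪ F ∪ Finset.univ.image (fun v => (v, near v)) := by
            apply Finset.mem_union_right
            simp
          have h1 : |φ v - φ (near v)| ≤ M * (d u v + c) :=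
            (hφE (v, near v) hmem).trans (mul_le_mul_of_nonneg_left hnv hM)
          have h2 := hE' φ M hM (fun e he => hφE e (by
            apply Finset.mem_union_left
            apply Finset.mem_union_left
            exact he)) v u (near v) (d u v + c) (hnearB v) hnv h1
          rw [abs_sub_comm, hsymm v u] at h2
          refine h2.trans (le_of_eq ?_)
          push_cast
          ring

end comb

section samp

variable {κ : Type*} [Fintype κ] {Ω : Type*} [MeasurableSpace Ω] {μ : Measure Ω}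

/-- One sampling step. -/
lemma sample_one (h : κ → Ω → ℝ) (w : Ω → ℝ) (K T : ℝ) (hK : 0 < K)
    (hh : ∀ e, Integrable (h e) μ) (hh0 : ∀ e ω, 0 ≤ h e ω) (hh1 : ∀ e, ∫ ω, h e ω ∂μ = 1)
    (hw : Integrable w μ) (hw0 : ∀ ω, 0 ≤ w ω) (hwK : ∫ ω, w ω ∂μ = K)
    (hT : ∀ e ω, h e ω ≤ T * w ω) (b : κ → ℝ) :
    ∃ ω, 0 < w ω ∧ ∑ e, b e * (K * h e ω / w ω) ≤ ∑ e, b e := by
  by_contra hcon
  push Not at hcon
  set G : Ω → ℝ := fun ω => ∑ e, b e * h e ω - (∑ e, b e) / K * w ω with hG
  have hGint : Integrable G μ := by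
    apply Integrable.sub
    · exact integrable_finsetSum _ (fun e _ => (hh e).const_mul (b e))
    · exact hw.const_mul _
  have hGI : ∫ ω, G ω ∂μ = 0 := by
    rw [hG, integral_sub, integral_finsetSum, integral_const_mul, hwK]
    · simp_rw [integral_const_mul, hh1]
      field_simp
      ring
    · intro e _; exact (hh e).const_mul (b e)
    · exact integrable_finsetSum _ (fun e _ => (hh e).const_mul (b e))
    · exact hw.const_mul _
  have hGpos : ∀ ω, 0 < w ω → 0 < G ω := by
    intro ω hω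
    have h1 := hcon ω hω
    have h2 : ∑ e, b e * (K * h e ω / w ω) = (K / w ω) * ∑ e, b e * h e ω := by
      rw [Finset.mul_sum]
      apply Finset.sum_congr rfl
      intro e _
      ring
    rw [h2] at h1
    have h3 : (∑ e, b e) * (w ω / K) < ∑ e, b e * h e ω := by
      have := mul_lt_mul_of_pos_right h1 (div_pos hω hK)
      refine this.trans_le (le_of_eq ?_)
      field_simp
    rw [hG]
    have h4 : (∑ e, b e) / K * w ω = (∑ e, b e) * (w ω / K) := by ring
    simp only [h4]
    linarith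
  have hGnn : ∀ ω, 0 ≤ G ω := by
    intro ω
    rcases (hw0 ω).eq_or_lt with h0 | h0
    · have : ∀ e, h e ω = 0 := by
        intro e
        have h1 := hT e ω
        rw [← h0, mul_zero] at h1
        exact le_antisymm h1 (hh0 e ω)
      rw [hG]
      simp [this, ← h0]
    · exact (hGpos ω h0).le
  have hG0 : G =ᵐ[μ] 0 := (integral_eq_zero_iff_of_nonneg hGnn hGint).1 hGI
  have hw00 : w =ᵐ[μ] 0 := by
    filter_upwards [hG0] with ω hω
    by_contra hne
    have : 0 < w ω := lt_of_le_of_ne (hw0 ω) (Ne.symm hne)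
    have := hGpos ω this
    rw [hω] at this
    exact lt_irrefl _ this
  rw [integral_congr_ae hw00] at hwK
  simp at hwK
  linarith

lemma exp_le_chord {s B y : ℝ} (hB : 0 < B) (hy0 : 0 ≤ y) (hyB : y ≤ B) :
    Real.exp (s / B * y) ≤ 1 + (Real.exp s - 1) / B * y := by
  have hconv := convexOn_exp
  have ha : (0:ℝ) ≤ 1 - y / B := by
    have : y / B ≤ 1 := (div_le_one hB).2 hyB
    linarith
  have hb : (0:ℝ) ≤ y / B := by positivity
  have h := hconv.2 (Set.mem_univ (0:ℝ)) (Set.mem_univ s) ha hb (by ring)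
  simp only [smul_eq_mul, mul_zero, zero_add, Real.exp_zero, mul_one] at h
  have h1 : s / B * y = y / B * s := by ring
  rw [h1]
  refine h.trans (le_of_eq ?_)
  field_simp
  ring

/-- Sequential sampling with exponential potential. -/
lemma sample_many (h : κ → Ω → ℝ) (w : Ω → ℝ) (K T : ℝ) (hK : 0 < K) (hTpos : 0 < T)
    (hh : ∀ e, Integrable (h e) μ) (hh0 : ∀ e ω, 0 ≤ h e ω) (hh1 : ∀ e, ∫ ω, h e ω ∂μ = 1)
    (hw : Integrable w μ) (hw0 : ∀ ω, 0 ≤ w ω) (hwK : ∫ ω, w ω ∂μ = K)
    (hT : ∀ e ω, h e ω ≤ T * w ω) (hKT : 1 ≤ K * T) (s : ℝ) (hs : 0 < s) (m : ℕ) :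
    ∃ ω : Fin m → Ω, (∀ j, 0 < w (ω j)) ∧
      ∑ e, (Real.exp (s / (K * T) * ∑ j, K * h e (ω j) / w (ω j)) /
          (1 + (Real.exp s - 1) / (K * T)) ^ m
        + Real.exp (-s / (K * T) * ∑ j, K * h e (ω j) / w (ω j)) /
          (1 + (Real.exp (-s) - 1) / (K * T)) ^ m) ≤ 2 * Fintype.card κ := by
  set B := K * T with hB
  have hBpos : 0 < B := by positivity
  set a := 1 + (Real.exp s - 1) / B with ha
  set a' := 1 + (Real.exp (-s) - 1) / B with ha'
  have hapos : 0 < a := by
    have : 0 < Real.exp s - 1 := by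
      have := Real.add_one_lt_exp (ne_of_gt hs)
      linarith
    positivity
  have ha'pos : 0 < a' := by
    have h1 : 0 < Real.exp (-s) := Real.exp_pos _
    have h2 : -1 / B < (Real.exp (-s) - 1) / B := by
      apply div_lt_div_of_pos_right _ hBpos
      linarith
    have h3 : -1 ≤ -1 / B := by
      rw [le_div_iff₀ hBpos]; linarith
    rw [ha']
    linarith
  induction m with
  | zero =>
    refine ⟨fun j => j.elim0, fun j => j.elim0, ?_⟩
    simp
    apply le_of_eq
    ring
  | succ m ih =>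
    obtain ⟨ω, hω0, hω⟩ := ih
    set c : κ → ℝ := fun e => Real.exp (s / B * ∑ j, K * h e (ω j) / w (ω j)) / a ^ m with hc
    set c' : κ → ℝ := fun e => Real.exp (-s / B * ∑ j, K * h e (ω j) / w (ω j)) / a' ^ m with hc'
    have hcpos : ∀ e, 0 ≤ c e := fun e => by positivity
    have hc'pos : ∀ e, 0 ≤ c' e := fun e => by positivity
    obtain ⟨x, hx0, hx⟩ := sample_one h w K T hK hh hh0 hh1 hw hw0 hwK hT
      (fun e => c e * ((Real.exp s - 1) / B) / a + c' e * ((Real.exp (-s) - 1) / B) / a')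
    refine ⟨Fin.snoc ω x, ?_, ?_⟩
    · intro j
      refine Fin.lastCases ?_ (fun i => ?_) j
      · simpa using hx0
      · simpa using hω0 i
    · refine le_trans ?_ hω
      have hY0 : ∀ e, 0 ≤ K * h e x / w x := fun e => by
        have := hh0 e x
        positivity
      have hYB : ∀ e, K * h e x / w x ≤ B := by
        intro e
        rw [div_le_iff₀ hx0, hB, mul_assoc]
        exact mul_le_mul_of_nonneg_left (hT e x) hK.le
      have hstep : ∀ e, (Real.exp (s / B * ∑ j, K * h e (Fin.snoc (α := fun _ => Ω) ω x j) /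
            w (Fin.snoc (α := fun _ => Ω) ω x j)) / a ^ (m + 1)
          + Real.exp (-s / B * ∑ j, K * h e (Fin.snoc (α := fun _ => Ω) ω x j) /
            w (Fin.snoc (α := fun _ => Ω) ω x j)) / a' ^ (m + 1)) ≤
          (c e + c' e) + ((c e * ((Real.exp s - 1) / B) / a
            + c' e * ((Real.exp (-s) - 1) / B) / a') * (K * h e x / w x)
            - (c e * ((Real.exp s - 1) / B) / a + c' e * ((Real.exp (-s) - 1) / B) / a')) := by
        intro e
        rw [Fin.sum_univ_castSucc]
        simp only [Fin.snoc_castSucc, Fin.snoc_last]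
        rw [mul_add, mul_add, Real.exp_add, Real.exp_add]
        set y := K * h e x / w x with hy
        have e1 : Real.exp (s / B * y) ≤ 1 + (Real.exp s - 1) / B * y :=
          exp_le_chord hBpos (hY0 e) (hYB e)
        have e2 : Real.exp (-s / B * y) ≤ 1 + (Real.exp (-s) - 1) / B * y :=
          exp_le_chord hBpos (hY0 e) (hYB e)
        have f1 : Real.exp (s / B * ∑ j, K * h e (ω j) / w (ω j)) * Real.exp (s / B * y)
            / a ^ (m + 1) ≤ c e * (1 + (Real.exp s - 1) / B * y) / a := by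
          have : Real.exp (s / B * ∑ j, K * h e (ω j) / w (ω j)) * Real.exp (s / B * y)
            / a ^ (m + 1) = c e * Real.exp (s / B * y) / a := by
            rw [hc]; field_simp; ring
          rw [this]
          gcongr
        have f2 : Real.exp (-s / B * ∑ j, K * h e (ω j) / w (ω j)) * Real.exp (-s / B * y)
            / a' ^ (m + 1) ≤ c' e * (1 + (Real.exp (-s) - 1) / B * y) / a' := by
          have : Real.exp (-s / B * ∑ j, K * h e (ω j) / w (ω j)) * Real.exp (-s / B * y)
            / a' ^ (m + 1) = c' e * Real.exp (-s / B * y) / a' := by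
            rw [hc']; field_simp; ring
          rw [this]
          gcongr
        refine (add_le_add f1 f2).trans (le_of_eq ?_)
        have g1 : c e * (1 + (Real.exp s - 1) / B * y) / a =
            c e + (c e * ((Real.exp s - 1) / B) / a) * y - c e * ((Real.exp s - 1) / B) / a := by
          have : (Real.exp s - 1) / B = a - 1 := by rw [ha]; ring
          rw [this]
          field_simp
          ring
        have g2 : c' e * (1 + (Real.exp (-s) - 1) / B * y) / a' =
            c' e + (c' e * ((Real.exp (-s) - 1) / B) / a') * y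
              - c' e * ((Real.exp (-s) - 1) / B) / a' := by
          have : (Real.exp (-s) - 1) / B = a' - 1 := by rw [ha']; ring
          rw [this]
          field_simp
          ring
        rw [g1, g2]
        ring
      refine (Finset.sum_le_sum (fun e _ => hstep e)).trans ?_
      rw [Finset.sum_add_distrib, Finset.sum_sub_distrib]
      have : ∑ e, (c e + c' e) = ∑ e, (c e + c' e) := rfl
      linarith [hx]

end samp

lemma scalar_bounds (B s L Y τ : ℝ) (m : ℕ) (hBpos : 0 < B) (hB1 : 1 ≤ B) (hs : 0 < s)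
    (hBL : B * L / s ≤ τ * m)
    (h1 : Real.exp (s / B * Y) / (1 + (Real.exp s - 1) / B) ^ m
        + Real.exp (-s / B * Y) / (1 + (Real.exp (-s) - 1) / B) ^ m ≤ Real.exp L) :
    m * ((1 - Real.exp (-s)) / s - τ) ≤ Y ∧ Y ≤ m * ((Real.exp s - 1) / s + τ) := by
  have hpos1 : 0 < 1 + (Real.exp s - 1) / B := by
    have : 0 < Real.exp s - 1 := by
      have := Real.add_one_lt_exp (ne_of_gt hs)
      linarith
    positivity
  have hpos2 : 0 < 1 + (Real.exp (-s) - 1) / B := by
    have h1 : 0 < Real.exp (-s) := Real.exp_pos _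
    have h2 : -1 / B < (Real.exp (-s) - 1) / B := by
      apply div_lt_div_of_pos_right _ hBpos
      linarith
    have h3 : -1 ≤ -1 / B := by
      rw [le_div_iff₀ hBpos]; linarith
    linarith
  have hBs : 0 ≤ B / s := (div_pos hBpos hs).le
  have hp1 : 0 < (1 + (Real.exp s - 1) / B) ^ m := pow_pos hpos1 m
  have hp2 : 0 < (1 + (Real.exp (-s) - 1) / B) ^ m := pow_pos hpos2 m
  have q1 : 0 ≤ Real.exp (s / B * Y) / (1 + (Real.exp s - 1) / B) ^ m :=
    (div_pos (Real.exp_pos _) hp1).le
  have q2 : 0 ≤ Real.exp (-s / B * Y) / (1 + (Real.exp (-s) - 1) / B) ^ m :=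
    (div_pos (Real.exp_pos _) hp2).le
  constructor
  · have h2 : Real.exp (-s / B * Y) / (1 + (Real.exp (-s) - 1) / B) ^ m ≤ Real.exp L := by
      linarith
    rw [div_le_iff₀ hp2] at h2
    have h3 : (1 + (Real.exp (-s) - 1) / B) ^ m ≤ Real.exp (m * ((Real.exp (-s) - 1) / B)) := by
      rw [mul_comm, Real.exp_mul, Real.rpow_natCast]
      apply pow_le_pow_left₀ hpos2.le
      have := Real.add_one_le_exp ((Real.exp (-s) - 1) / B)
      linarith
    have h4 : Real.exp (-s / B * Y) ≤ Real.exp (L + m * ((Real.exp (-s) - 1) / B)) := by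
      rw [Real.exp_add]
      exact h2.trans (mul_le_mul_of_nonneg_left h3 (Real.exp_pos _).le)
    rw [Real.exp_le_exp] at h4
    have h5 : -Y = (-s / B * Y) * (B / s) := by field_simp
    have h6 : (-s / B * Y) * (B / s) ≤ (L + m * ((Real.exp (-s) - 1) / B)) * (B / s) :=
      mul_le_mul_of_nonneg_right h4 hBs
    have h7 : (L + m * ((Real.exp (-s) - 1) / B)) * (B / s) =
        B * L / s - m * ((1 - Real.exp (-s)) / s) := by field_simp; ring
    rw [← h5, h7] at h6
    nlinarith
  · have h2 : Real.exp (s / B * Y) / (1 + (Real.exp s - 1) / B) ^ m ≤ Real.exp L := by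
      linarith
    rw [div_le_iff₀ hp1] at h2
    have h3 : (1 + (Real.exp s - 1) / B) ^ m ≤ Real.exp (m * ((Real.exp s - 1) / B)) := by
      rw [mul_comm, Real.exp_mul, Real.rpow_natCast]
      apply pow_le_pow_left₀ hpos1.le
      have := Real.add_one_le_exp ((Real.exp s - 1) / B)
      linarith
    have h4 : Real.exp (s / B * Y) ≤ Real.exp (L + m * ((Real.exp s - 1) / B)) := by
      rw [Real.exp_add]
      exact h2.trans (mul_le_mul_of_nonneg_left h3 (Real.exp_pos _).le)
    rw [Real.exp_le_exp] at h4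
    have h5 : Y = (s / B * Y) * (B / s) := by field_simp
    have h6 : (s / B * Y) * (B / s) ≤ (L + m * ((Real.exp s - 1) / B)) * (B / s) :=
      mul_le_mul_of_nonneg_right h4 hBs
    have h7 : (L + m * ((Real.exp s - 1) / B)) * (B / s) =
        B * L / s + m * ((Real.exp s - 1) / s) := by field_simp
    rw [← h5, h7] at h6
    nlinarith

section assemble

variable {ι : Type*} [Fintype ι] {Ω : Type*} [MeasurableSpace Ω] {μ : Measure Ω}

/-- The deterministic core: `m` evaluation points preserving all distances. -/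
lemma core (r : ℝ) (hr : 1 ≤ r) (x : ι → Ω → ℝ) (d : ι → ι → ℝ)
    (hd0 : ∀ i j, 0 ≤ d i j) (hdpos : ∀ i j, i ≠ j → 0 < d i j) (hsymm : ∀ i j, d i j = d j i)
    (htri : ∀ i j k, d i k ≤ d i j + d j k)
    (hint : ∀ i j, Integrable (fun ω => |x i ω - x j ω| ^ r) μ)
    (hval : ∀ i j, ∫ ω, |x i ω - x j ω| ^ r ∂μ = d i j ^ r)
    (k : ℕ) (hk : Fintype.card ι ≤ 2 ^ k) (hcard : 2 ≤ Fintype.card ι)
    (s τ : ℝ) (hs : 0 < s) (m : ℕ)
    (hm : ((3 * k + 1) * Fintype.card ι : ℝ) * (2 * k + 1) ^ r *
      Real.log (2 * (Fintype.card ι : ℝ) ^ 2) / s ≤ τ * m) :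
    ∃ (ω : Fin m → Ω) (c : Fin m → ℝ), ∀ i j,
      m * ((1 - Real.exp (-s)) / s - τ) * d i j ^ r ≤
        ∑ l, |c l * x i (ω l) - c l * x j (ω l)| ^ r ∧
      ∑ l, |c l * x i (ω l) - c l * x j (ω l)| ^ r ≤
        m * ((Real.exp s - 1) / s + τ) * d i j ^ r := by
  classical
  have hr0 : 0 < r := by linarith
  have hne : Nonempty ι := Fintype.card_pos_iff.1 (by omega)
  obtain ⟨E, hEc, hE⟩ := spanner d hd0 hsymm htri k Finset.univ Finset.univ_nonempty
    (by simpa using hk)
  set E' : Finset (ι × ι) := E.filter (fun e => e.1 ≠ e.2) with hE'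
  set w : Ω → ℝ := fun ω => ∑ e ∈ E', |x e.1 ω - x e.2 ω| ^ r / d e.1 e.2 ^ r with hw
  set T : ℝ := (2 * k + 1) ^ r with hT
  have hTpos : 0 < T := by positivity
  have hT1 : 1 ≤ T := by
    rw [hT]
    apply Real.one_le_rpow _ hr0.le
    have : (0:ℝ) ≤ k := Nat.cast_nonneg k
    linarith
  have hw0 : ∀ ω, 0 ≤ w ω := by
    intro ω
    apply Finset.sum_nonneg
    intro e _
    have := hd0 e.1 e.2
    positivity
  have hwint : Integrable w μ := by
    apply integrable_finsetSum
    intro e _
    exact (hint e.1 e.2).div_const _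
  have hwK : ∫ ω, w ω ∂μ = (E'.card : ℝ) := by
    rw [hw, integral_finsetSum]
    · rw [Finset.cast_card]
      apply Finset.sum_congr rfl
      intro e he
      rw [integral_div, hval]
      have : 0 < d e.1 e.2 := hdpos _ _ (Finset.mem_filter.1 he).2
      have : 0 < d e.1 e.2 ^ r := by positivity
      field_simp
    · intro e _
      exact (hint e.1 e.2).div_const _
  -- the pointwise domination
  have hdom : ∀ ω u v, |x u ω - x v ω| ^ r ≤ T * w ω * d u v ^ r := by
    intro ω u v
    have h1 := hE (fun i => x i ω) ((w ω) ^ (1 / r)) (Real.rpow_nonneg (hw0 ω) _) ?_ u v u 0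
      (Finset.mem_univ _) ?_ ?_
    · have h2 : (w ω) ^ (1 / r) * (2 * 0 + (2 * k + 1) * d u v) =
          (w ω) ^ (1 / r) * ((2 * k + 1) * d u v) := by ring
      rw [h2] at h1
      have h3 : |x u ω - x v ω| ^ r ≤ ((w ω) ^ (1 / r) * ((2 * k + 1) * d u v)) ^ r :=
        Real.rpow_le_rpow (abs_nonneg _) h1 hr0.le
      refine h3.trans (le_of_eq ?_)
      have hk0 : (0:ℝ) ≤ 2 * k + 1 := by positivity
      rw [Real.mul_rpow (Real.rpow_nonneg (hw0 ω) _) (mul_nonneg hk0 (hd0 u v)),
        Real.mul_rpow hk0 (hd0 u v), ← Real.rpow_mul (hw0 ω), one_div_mul_cancel hr0.ne',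
        Real.rpow_one]
      ring
    · intro e he
      by_cases hee : e.1 = e.2
      · simp only [hee, sub_self, abs_zero]
        exact mul_nonneg (Real.rpow_nonneg (hw0 ω) _) (hd0 _ _)
      · have heE' : e ∈ E' := Finset.mem_filter.2 ⟨he, hee⟩
        have hdp := hdpos _ _ hee
        have h4 : |x e.1 ω - x e.2 ω| ^ r / d e.1 e.2 ^ r ≤ w ω := by
          apply Finset.single_le_sum (f := fun e : ι × ι => |x e.1 ω - x e.2 ω| ^ r / d e.1 e.2 ^ r)
            _ heE'
          intro e _
          have := hd0 e.1 e.2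
          positivity
        have h5 : |x e.1 ω - x e.2 ω| ^ r ≤ w ω * d e.1 e.2 ^ r :=
          (div_le_iff₀ (by positivity)).1 h4
        have h6 := Real.rpow_le_rpow (by positivity) h5 (one_div_nonneg.2 hr0.le)
        rw [← Real.rpow_mul (abs_nonneg _), mul_one_div_cancel hr0.ne', Real.rpow_one,
          Real.mul_rpow (hw0 ω) (by positivity), ← Real.rpow_mul hdp.le,
          mul_one_div_cancel hr0.ne', Real.rpow_one] at h6
        exact h6
    · have h7 := htri u u u
      have h8 : d u u = 0 := by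
        by_contra hne0
        have h9 := hval u u
        have h10 : (∫ ω, |x u ω - x u ω| ^ r ∂μ) = 0 := by
          simp [Real.zero_rpow hr0.ne']
        rw [h10] at h9
        have h11 : 0 < d u u := lt_of_le_of_ne (hd0 u u) (Ne.symm hne0)
        have : 0 < d u u ^ r := by positivity
        linarith
      exact h8.le
    · simp
  let κ := {q : ι × ι // q.1 ≠ q.2}
  set h : κ → Ω → ℝ := fun q ω => |x q.1.1 ω - x q.1.2 ω| ^ r / d q.1.1 q.1.2 ^ r with hh
  have hqpos : ∀ q : κ, 0 < d q.1.1 q.1.2 ^ r := fun q => by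
    have := hdpos _ _ q.2
    positivity
  have hhint : ∀ q, Integrable (h q) μ := fun q => (hint _ _).div_const _
  have hh0 : ∀ q ω, 0 ≤ h q ω := fun q ω => by
    have := hqpos q
    positivity
  have hh1 : ∀ q, ∫ ω, h q ω ∂μ = 1 := by
    intro q
    rw [hh]
    simp only
    rw [integral_div, hval]
    have := hqpos q
    field_simp
  have hhT : ∀ q ω, h q ω ≤ T * w ω := by
    intro q ω
    rw [hh]
    simp only
    rw [div_le_iff₀ (hqpos q)]
    exact hdom ω _ _
  -- a pair exists
  obtain ⟨i0, j0, hij0⟩ := Fintype.exists_pair_of_one_lt_card (α := ι) (by omega)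
  have hK1 : 1 ≤ E'.card := by
    by_contra hcon
    have h0 : E'.card = 0 := by omega
    have hE'0 : E' = ∅ := Finset.card_eq_zero.1 h0
    have hw00 : ∀ ω, w ω = 0 := by
      intro ω
      rw [hw]
      simp [hE'0]
    have h1 := hh1 ⟨(i0, j0), hij0⟩
    have h2 : ∀ ω, h ⟨(i0, j0), hij0⟩ ω = 0 := by
      intro ω
      have h3 := hhT ⟨(i0, j0), hij0⟩ ω
      rw [hw00 ω, mul_zero] at h3
      exact le_antisymm h3 (hh0 _ _)
    simp [h2] at h1
  have hKpos : (0:ℝ) < E'.card := by exact_mod_cast hK1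
  have hK1' : (1:ℝ) ≤ E'.card := by exact_mod_cast hK1
  have hKT : 1 ≤ (E'.card : ℝ) * T := by nlinarith
  obtain ⟨ω, hωpos, hω⟩ := sample_many h w (E'.card : ℝ) T hKpos hTpos hhint hh0 hh1 hwint hw0 hwK
    hhT hKT s hs m
  set B := (E'.card : ℝ) * T with hB
  have hBpos : 0 < B := by positivity
  set L := Real.log (2 * (Fintype.card ι : ℝ) ^ 2) with hL
  have hκcard : (Fintype.card κ : ℝ) ≤ (Fintype.card ι : ℝ) ^ 2 := by
    have h1 : Fintype.card κ ≤ Fintype.card (ι × ι) := Fintype.card_subtype_le _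
    rw [Fintype.card_prod] at h1
    have : (Fintype.card κ : ℝ) ≤ ((Fintype.card ι * Fintype.card ι : ℕ) : ℝ) := by
      exact_mod_cast h1
    rw [sq]
    simpa using this
  have hcardpos : (0:ℝ) < 2 * (Fintype.card ι : ℝ) ^ 2 := by
    have : (0:ℝ) < Fintype.card ι := by
      have : 0 < Fintype.card ι := by omega
      exact_mod_cast this
    positivity
  have hexpL : Real.exp L = 2 * (Fintype.card ι : ℝ) ^ 2 := Real.exp_log hcardpos
  -- bounding the error term
  have hLnn : 0 ≤ L := by
    rw [hL]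
    apply Real.log_nonneg
    have : (2:ℝ) ≤ Fintype.card ι := by exact_mod_cast hcard
    nlinarith
  have hBL : B * L / s ≤ τ * m := by
    refine le_trans ?_ hm
    apply div_le_div_of_nonneg_right _ hs.le
    apply mul_le_mul_of_nonneg_right _ hLnn
    rw [hB]
    apply mul_le_mul_of_nonneg_right _ hTpos.le
    have h1 : E'.card ≤ (3 * k + 1) * Fintype.card ι :=
      (Finset.card_filter_le _ _).trans hEc
    have h2 : (E'.card : ℝ) ≤ (((3 * k + 1) * Fintype.card ι : ℕ) : ℝ) := by exact_mod_cast h1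
    simpa using h2
  -- bounds on the sum for each pair
  set Y : κ → ℝ := fun q => ∑ j, (E'.card : ℝ) * h q (ω j) / w (ω j) with hY
  have hsingle : ∀ q : κ, Real.exp (s / B * Y q) / (1 + (Real.exp s - 1) / B) ^ m
        + Real.exp (-s / B * Y q) / (1 + (Real.exp (-s) - 1) / B) ^ m ≤ Real.exp L := by
    intro q
    rw [hexpL]
    have hpos1 : 0 < 1 + (Real.exp s - 1) / B := by
      have : 0 < Real.exp s - 1 := by
        have := Real.add_one_lt_exp (ne_of_gt hs)
        linarith
      positivity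
    have hpos2 : 0 < 1 + (Real.exp (-s) - 1) / B := by
      have h1 : 0 < Real.exp (-s) := Real.exp_pos _
      have h2 : -1 / B < (Real.exp (-s) - 1) / B := by
        apply div_lt_div_of_pos_right _ hBpos
        linarith
      have h3 : -1 ≤ -1 / B := by
        rw [le_div_iff₀ hBpos]; linarith
      linarith
    refine le_trans ?_ (hω.trans (by linarith))
    apply Finset.single_le_sum (f := fun q : κ => Real.exp (s / B * Y q) /
      (1 + (Real.exp s - 1) / B) ^ m
        + Real.exp (-s / B * Y q) / (1 + (Real.exp (-s) - 1) / B) ^ m) _ (Finset.mem_univ q)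
    intro q _
    positivity
  have hlu : ∀ q : κ, m * ((1 - Real.exp (-s)) / s - τ) ≤ Y q ∧
      Y q ≤ m * ((Real.exp s - 1) / s + τ) :=
    fun q => scalar_bounds B s L (Y q) τ m hBpos hKT hs hBL (hsingle q)
  -- the map
  refine ⟨ω, fun l => ((E'.card : ℝ) / w (ω l)) ^ (1 / r), ?_⟩
  have hsum : ∀ q : κ, ∑ l, |((E'.card : ℝ) / w (ω l)) ^ (1 / r) * x q.1.1 (ω l) -
      ((E'.card : ℝ) / w (ω l)) ^ (1 / r) * x q.1.2 (ω l)| ^ r = Y q * d q.1.1 q.1.2 ^ r := by
    intro q
    rw [hY]
    simp only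
    rw [Finset.sum_mul]
    apply Finset.sum_congr rfl
    intro l _
    have hwl := hωpos l
    have hKw : 0 ≤ (E'.card : ℝ) / w (ω l) := by positivity
    rw [← mul_sub, abs_mul, Real.mul_rpow (abs_nonneg _) (abs_nonneg _),
      abs_of_nonneg (Real.rpow_nonneg hKw _), ← Real.rpow_mul hKw, one_div_mul_cancel hr0.ne',
      Real.rpow_one, hh]
    simp only
    have := hqpos q
    field_simp
  intro i j
  by_cases hij : i = j
  · subst hij
    have h8 : d i i = 0 := by
      by_contra hne0
      have h9 := hval i i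
      have h10 : (∫ ω, |x i ω - x i ω| ^ r ∂μ) = 0 := by
        simp [Real.zero_rpow hr0.ne']
      rw [h10] at h9
      have h11 : 0 < d i i := lt_of_le_of_ne (hd0 i i) (Ne.symm hne0)
      have : 0 < d i i ^ r := by positivity
      linarith
    simp [h8, Real.zero_rpow hr0.ne']
  · have h1 := hsum ⟨(i, j), hij⟩
    have hdn : 0 ≤ d i j ^ r := Real.rpow_nonneg (hd0 i j) _
    simp only at h1
    rw [h1]
    exact ⟨mul_le_mul_of_nonneg_right (hlu ⟨(i, j), hij⟩).1 hdn,
      mul_le_mul_of_nonneg_right (hlu ⟨(i, j), hij⟩).2 hdn⟩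

end assemble

section final

open scoped ENNReal

universe u

lemma lp_integrable {Ω : Type*} [MeasurableSpace Ω] {μ : Measure Ω} {p : ℝ≥0∞} (hp1 : 1 ≤ p)
    (hp : p ≠ ∞) (x y : Lp ℝ p μ) : Integrable (fun ω => |x ω - y ω| ^ p.toReal) μ := by
  have h1 : MemLp (x - y : Lp ℝ p μ) p μ := Lp.memLp _
  have hp0 : p ≠ 0 := (lt_of_lt_of_le zero_lt_one hp1).ne'
  have h2 := h1.integrable_norm_rpow hp0 hp
  refine h2.congr ?_
  filter_upwards [Lp.coeFn_sub x y] with ω hω
  rw [hω, Pi.sub_apply, Real.norm_eq_abs]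

lemma lp_integral {Ω : Type*} [MeasurableSpace Ω] {μ : Measure Ω} {p : ℝ≥0∞} (hp1 : 1 ≤ p)
    (hp : p ≠ ∞) (x y : Lp ℝ p μ) :
    ∫ ω, |x ω - y ω| ^ p.toReal ∂μ = ‖x - y‖ ^ p.toReal := by
  have h1 : MemLp (x - y : Lp ℝ p μ) p μ := Lp.memLp _
  have hp0 : p ≠ 0 := (lt_of_lt_of_le zero_lt_one hp1).ne'
  have hr : 0 < p.toReal := ENNReal.toReal_pos hp0 hp
  have h2 : ∫ ω, |x ω - y ω| ^ p.toReal ∂μ = ∫ ω, ‖(x - y : Lp ℝ p μ) ω‖ ^ p.toReal ∂μ := by
    apply integral_congr_ae
    filter_upwards [Lp.coeFn_sub x y] with ω hω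
    rw [hω, Pi.sub_apply, Real.norm_eq_abs]
  have hnn : 0 ≤ ∫ ω, ‖(x - y : Lp ℝ p μ) ω‖ ^ p.toReal ∂μ :=
    integral_nonneg (fun ω => Real.rpow_nonneg (norm_nonneg _) _)
  rw [h2, Lp.norm_def, h1.eLpNorm_eq_integral_rpow_norm hp0 hp,
    ENNReal.toReal_ofReal (Real.rpow_nonneg hnn _), ← Real.rpow_mul hnn,
    inv_mul_cancel₀ hr.ne', Real.rpow_one]

/-- Near-linear dimension reduction in `L_p`, explicit form. -/
theorem exists_dim (p : ℝ≥0∞) [Fact (1 ≤ p)] (hp : p ≠ ∞) (D : ℝ) (hD : 1 < D) :
    ∃ C : ℝ, 0 < C ∧ ∀ n : ℕ, 2 ≤ n → ∃ m : ℕ, (m : ℝ) ≤ C * n * (Real.log n) ^ (p.toReal + 2) ∧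
      ∀ (Ω : Type u) [MeasurableSpace Ω] (μ : Measure Ω) (X : Finset (Lp ℝ p μ)), X.card = n →
        ∃ f : Lp ℝ p μ → PiLp p (fun _ : Fin m => ℝ), ∃ s : ℝ, 0 < s ∧ ∀ x ∈ X, ∀ y ∈ X,
          s * ‖x - y‖ ≤ ‖f x - f y‖ ∧ ‖f x - f y‖ ≤ D * s * ‖x - y‖ := by
  have hp1 : 1 ≤ p := Fact.out
  have hp0 : p ≠ 0 := (lt_of_lt_of_le zero_lt_one hp1).ne'
  set r : ℝ := p.toReal with hr
  have hr1 : 1 ≤ r := by
    rw [hr, ← ENNReal.toReal_one]
    exact ENNReal.toReal_mono hp hp1
  have hr0 : 0 < r := by linarith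
  have hD0 : 0 < D := by linarith
  set s : ℝ := r / 2 * Real.log D with hs
  have hspos : 0 < s := by
    have := Real.log_pos hD
    positivity
  have hexps : Real.exp s = D ^ (r / 2) := by
    rw [Real.rpow_def_of_pos hD0, hs, mul_comm]
  set A' : ℝ := (1 - Real.exp (-s)) / s with hA'
  have hA'pos : 0 < A' := by
    have : Real.exp (-s) < 1 := by
      rw [Real.exp_lt_one_iff]; linarith
    have : 0 < 1 - Real.exp (-s) := by linarith
    positivity
  have hA : (Real.exp s - 1) / s = D ^ (r / 2) * A' := by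
    rw [hA', ← hexps, mul_div_assoc', mul_sub, ← Real.exp_add]
    simp
  have hDr : 1 < D ^ r := Real.one_lt_rpow hD hr0
  have hDr2 : 1 < D ^ (r / 2) := Real.one_lt_rpow hD (by positivity)
  have hDlt : D ^ (r / 2) < D ^ r := Real.rpow_lt_rpow_of_exponent_lt hD (by linarith)
  set τ : ℝ := (D ^ r - D ^ (r / 2)) * A' / (1 + D ^ r) with hτ
  have hτpos : 0 < τ := by
    have : 0 < D ^ r - D ^ (r / 2) := by linarith
    positivity
  have hkey : (Real.exp s - 1) / s + τ = D ^ r * (A' - τ) := by
    rw [hA, hτ]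
    have : (1 + D ^ r) ≠ 0 := by positivity
    field_simp
    ring
  have hA'τ : 0 < A' - τ := by
    have h1 : 0 < (Real.exp s - 1) / s + τ := by
      rw [hA]; positivity
    rw [hkey] at h1
    have hDr0 : 0 < D ^ r := by linarith
    exact (mul_pos_iff_of_pos_left hDr0).1 h1
  have hlog2 : 0 < Real.log 2 := Real.log_pos (by norm_num)
  set C : ℝ := 21 * 5 ^ r / ((Real.log 2) ^ (r + 1) * s * τ) + 1 / (Real.log 2) ^ (r + 2) with hC
  have hCpos : 0 < C := by positivity
  refine ⟨C, hCpos, ?_⟩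
  intro n hn
  have hn2 : (2:ℝ) ≤ n := by exact_mod_cast hn
  have hn0 : (0:ℝ) < n := by linarith
  have hlogn : Real.log 2 ≤ Real.log n := Real.log_le_log (by norm_num) hn2
  have hlogn0 : 0 < Real.log n := lt_of_lt_of_le hlog2 hlogn
  set k : ℕ := Nat.clog 2 n with hk
  have hkn : n ≤ 2 ^ k := Nat.le_pow_clog (by norm_num) n
  set Q : ℝ := ((3 * k + 1) * n : ℝ) * (2 * k + 1) ^ r * Real.log (2 * (n : ℝ) ^ 2) / (s * τ)
    with hQ
  have hlogQ : 0 < Real.log (2 * (n : ℝ) ^ 2) := by
    apply Real.log_pos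
    nlinarith
  have hk0 : (0:ℝ) ≤ k := Nat.cast_nonneg k
  have hQpos : 0 < Q := by positivity
  set m : ℕ := ⌈Q⌉₊ with hm
  have hmQ : Q ≤ m := Nat.le_ceil Q
  have hmpos : (0:ℝ) < m := lt_of_lt_of_le hQpos hmQ
  refine ⟨m, ?_, ?_⟩
  rotate_left
  · intro Ω _ μ X hX
    have hcardX : Fintype.card (X : Set (Lp ℝ p μ)) = n := by simpa using hX
    obtain ⟨ω, c, hωc⟩ := core (μ := μ) r hr1 (fun (i : (X : Set (Lp ℝ p μ))) ω => (i : Lp ℝ p μ) ω)
      (fun i j => ‖(i : Lp ℝ p μ) - (j : Lp ℝ p μ)‖)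
      (fun i j => norm_nonneg _)
      (fun i j hij => norm_pos_iff.2 (sub_ne_zero.2 (fun h => hij (Subtype.ext h))))
      (fun i j => norm_sub_rev _ _)
      (fun i j k => norm_sub_le_norm_sub_add_norm_sub _ _ _)
      (fun i j => lp_integrable hp1 hp _ _)
      (fun i j => lp_integral hp1 hp _ _)
      k (by rw [hcardX]; exact hkn) (by rw [hcardX]; exact hn) s τ hspos m (by
        rw [hcardX]
        have h1 : Q * τ ≤ τ * m := by
          rw [mul_comm]
          exact mul_le_mul_of_nonneg_left hmQ hτpos.le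
        refine le_trans (le_of_eq ?_) h1
        rw [hQ]
        field_simp)
    refine ⟨fun z => WithLp.toLp p (fun l => c l * z (ω l)), (m * (A' - τ)) ^ (1 / r), ?_, ?_⟩
    · positivity
    · intro x hx y hy
      obtain ⟨h1, h2⟩ := hωc ⟨x, hx⟩ ⟨y, hy⟩
      simp only at h1 h2
      have hnorm : ‖(WithLp.toLp p (fun l => c l * x (ω l)) : PiLp p (fun _ : Fin m => ℝ)) -
          WithLp.toLp p (fun l => c l * y (ω l))‖ =
          (∑ l, |c l * x (ω l) - c l * y (ω l)| ^ r) ^ (1 / r) := by
        rw [PiLp.norm_eq_sum (by rw [← hr]; exact hr0)]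
        simp [Real.norm_eq_abs, ← hr]
      rw [hnorm]
      have hdn : 0 ≤ ‖x - y‖ ^ r := Real.rpow_nonneg (norm_nonneg _) _
      have hmA : 0 ≤ m * (A' - τ) := by positivity
      constructor
      · have h3 := Real.rpow_le_rpow (by positivity) h1 (one_div_nonneg.2 hr0.le)
        rw [Real.mul_rpow hmA hdn, ← Real.rpow_mul (norm_nonneg _), mul_one_div_cancel hr0.ne',
          Real.rpow_one] at h3
        exact h3
      · have hsumnn : 0 ≤ ∑ l, |c l * x (ω l) - c l * y (ω l)| ^ r :=
          Finset.sum_nonneg (fun l _ => Real.rpow_nonneg (abs_nonneg _) _)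
        have h3 := Real.rpow_le_rpow hsumnn h2 (one_div_nonneg.2 hr0.le)
        rw [hkey] at h3
        have h4 : (m * (D ^ r * (A' - τ)) * ‖x - y‖ ^ r) ^ (1 / r) =
            D * (m * (A' - τ)) ^ (1 / r) * ‖x - y‖ := by
          have h5 : m * (D ^ r * (A' - τ)) * ‖x - y‖ ^ r =
              D ^ r * ((m * (A' - τ)) * ‖x - y‖ ^ r) := by ring
          rw [h5, Real.mul_rpow (by positivity) (by positivity), Real.mul_rpow hmA hdn,
            ← Real.rpow_mul hD0.le, ← Real.rpow_mul (norm_nonneg _), mul_one_div_cancel hr0.ne',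
            Real.rpow_one, Real.rpow_one]
          ring
        rw [h4] at h3
        exact h3
  have hmQ1 : (m:ℝ) ≤ Q + 1 := (Nat.ceil_lt_add_one hQpos.le).le
  refine hmQ1.trans ?_
  -- bound on k
  set ℓ : ℝ := Real.log n / Real.log 2 with hℓ
  have hℓ1 : 1 ≤ ℓ := by
    rw [hℓ, le_div_iff₀ hlog2]
    linarith
  have hkℓ : (k:ℝ) ≤ 2 * ℓ := by
    have h1 : 2 ^ (k - 1) < n := Nat.pow_pred_clog_lt_self (by norm_num) (by omega)
    have h2 : ((2:ℝ) ^ (k - 1)) ≤ n := by exact_mod_cast h1.le
    have h3 := Real.log_le_log (by positivity) h2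
    rw [Real.log_pow] at h3
    have h4 : ((k - 1 : ℕ) : ℝ) ≤ ℓ := by
      rw [hℓ, le_div_iff₀ hlog2]
      exact h3
    have h5 : (k : ℝ) ≤ ((k - 1 : ℕ) : ℝ) + 1 := by
      have : k ≤ (k - 1) + 1 := by omega
      exact_mod_cast this
    linarith
  have h3k : 3 * (k:ℝ) + 1 ≤ 7 * ℓ := by linarith
  have h2k : 2 * (k:ℝ) + 1 ≤ 5 * ℓ := by linarith
  have hL3 : Real.log (2 * (n:ℝ) ^ 2) ≤ 3 * Real.log n := by
    rw [Real.log_mul (by norm_num) (by positivity), Real.log_pow]
    push_cast
    linarith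
  have hQle : Q ≤ 21 * 5 ^ r / ((Real.log 2) ^ (r + 1) * s * τ) * n * (Real.log n) ^ (r + 2) := by
    have h1 : Q ≤ (7 * ℓ * n) * (5 * ℓ) ^ r * (3 * Real.log n) / (s * τ) := by
      rw [hQ]
      gcongr
    refine h1.trans (le_of_eq ?_)
    have hℓ0 : 0 ≤ ℓ := by linarith
    rw [Real.mul_rpow (by norm_num) hℓ0, hℓ, Real.div_rpow hlogn0.le hlog2.le,
      Real.rpow_add hlog2, Real.rpow_add hlogn0, Real.rpow_one]
    have h6 : (Real.log n) ^ (2:ℝ) = Real.log n * Real.log n := by
      rw [Real.rpow_two, sq]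
    rw [h6]
    field_simp
    ring
  have h1le : 1 ≤ 1 / (Real.log 2) ^ (r + 2) * n * (Real.log n) ^ (r + 2) := by
    have h7 : (Real.log 2) ^ (r + 2) ≤ (Real.log n) ^ (r + 2) :=
      Real.rpow_le_rpow hlog2.le hlogn (by linarith)
    have h8 : 0 < (Real.log 2) ^ (r + 2) := by positivity
    have h9 : 1 / (Real.log 2) ^ (r + 2) * n * (Real.log n) ^ (r + 2) =
      n * ((Real.log n) ^ (r + 2) / (Real.log 2) ^ (r + 2)) := by ring
    rw [h9]
    have h10 : 1 ≤ (Real.log n) ^ (r + 2) / (Real.log 2) ^ (r + 2) := (one_le_div h8).2 h7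
    nlinarith
  calc Q + 1 ≤ 21 * 5 ^ r / ((Real.log 2) ^ (r + 1) * s * τ) * n * (Real.log n) ^ (r + 2)
        + 1 / (Real.log 2) ^ (r + 2) * n * (Real.log n) ^ (r + 2) := add_le_add hQle h1le
    _ = C * n * (Real.log n) ^ (r + 2) := by rw [hC]; ring

end final

end Vale.Agent.P249
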