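import Mathlib

/-!
# The `ℓ_r` seminorm of a real function on a finite type
-/

namespace Vale.Agent.P249.Sub

open Finset

/-- The `ℓ_r` norm of a real function on a finite type. -/
noncomputable def N {J : Type*} [Fintype J] (r : ℝ) (g : J → ℝ) : ℝ := (∑ j, |g j| ^ r) ^ (1 / r)

section

variable {J : Type*} [Fintype J] {r : ℝ}

lemma sum_nonneg_rpow (g : J → ℝ) : 0 ≤ ∑ j, |g j| ^ r :=
  Finset.sum_nonneg (fun _ _ => Real.rpow_nonneg (abs_nonneg _) _)

lemma N_nonneg (g : J → ℝ) : 0 ≤ N r g := Real.rpow_nonneg (sum_nonneg_rpow g) _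

lemma N_rpow (hr : 0 < r) (g : J → ℝ) : N r g ^ r = ∑ j, |g j| ^ r := by
  rw [N, ← Real.rpow_mul (sum_nonneg_rpow g), one_div_mul_cancel hr.ne', Real.rpow_one]

lemma N_le_of_sum_le (hr : 0 < r) {g : J → ℝ} {C : ℝ} (hC : 0 ≤ C) (h : ∑ j, |g j| ^ r ≤ C ^ r) :
    N r g ≤ C := by
  have h1 := Real.rpow_le_rpow (sum_nonneg_rpow g) h (one_div_nonneg.2 hr.le)
  rwa [← Real.rpow_mul hC, mul_one_div_cancel hr.ne', Real.rpow_one] at h1

lemma le_N_of_le_sum (hr : 0 < r) {g : J → ℝ} {C : ℝ} (hC : 0 ≤ C) (h : C ^ r ≤ ∑ j, |g j| ^ r) :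
    C ≤ N r g := by
  have h1 := Real.rpow_le_rpow (Real.rpow_nonneg hC _) h (one_div_nonneg.2 hr.le)
  rwa [← Real.rpow_mul hC, mul_one_div_cancel hr.ne', Real.rpow_one] at h1

lemma sum_le_of_N_le (hr : 0 < r) {g : J → ℝ} {C : ℝ} (h : N r g ≤ C) :
    ∑ j, |g j| ^ r ≤ C ^ r := by
  rw [← N_rpow hr]
  exact Real.rpow_le_rpow (N_nonneg g) h hr.le

lemma le_sum_of_le_N (hr : 0 < r) {g : J → ℝ} {C : ℝ} (hC : 0 ≤ C) (h : C ≤ N r g) :
    C ^ r ≤ ∑ j, |g j| ^ r := by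
  rw [← N_rpow hr]
  exact Real.rpow_le_rpow hC h hr.le

lemma N_mono (hr : 0 < r) {f g : J → ℝ} (h : ∀ j, |f j| ≤ |g j|) : N r f ≤ N r g := by
  apply Real.rpow_le_rpow (sum_nonneg_rpow f) _ (one_div_nonneg.2 hr.le)
  exact Finset.sum_le_sum (fun j _ => Real.rpow_le_rpow (abs_nonneg _) (h j) hr.le)

lemma N_congr {f g : J → ℝ} (h : ∀ j, |f j| = |g j|) : N r f = N r g := by
  simp only [N, h]

lemma N_add_le (hr : 1 ≤ r) (f g : J → ℝ) : N r (fun j => f j + g j) ≤ N r f + N r g :=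
  Real.Lp_add_le Finset.univ f g hr

lemma N_neg (g : J → ℝ) : N r (fun j => - g j) = N r g := N_congr (fun j => abs_neg _)

lemma N_sub_comm (f g : J → ℝ) : N r (fun j => f j - g j) = N r (fun j => g j - f j) :=
  N_congr (fun j => abs_sub_comm _ _)

lemma N_sub_le (hr : 1 ≤ r) (f g h : J → ℝ) :
    N r (fun j => f j - h j) ≤ N r (fun j => f j - g j) + N r (fun j => g j - h j) := by
  have := N_add_le hr (fun j => f j - g j) (fun j => g j - h j)
  refine le_trans (le_of_eq ?_) this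
  congr 1
  ext j
  ring

lemma N_smul (hr : 0 < r) (c : ℝ) (g : J → ℝ) : N r (fun j => c * g j) = |c| * N r g := by
  rw [N, N]
  have h1 : ∀ j, |c * g j| ^ r = |c| ^ r * |g j| ^ r := by
    intro j
    rw [abs_mul, Real.mul_rpow (abs_nonneg _) (abs_nonneg _)]
  simp_rw [h1]
  rw [← Finset.mul_sum, Real.mul_rpow (Real.rpow_nonneg (abs_nonneg _) _) (sum_nonneg_rpow g),
    ← Real.rpow_mul (abs_nonneg _), mul_one_div_cancel hr.ne', Real.rpow_one]

lemma N_zero (hr : 0 < r) : N r (fun _ : J => (0:ℝ)) = 0 := by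
  rw [N]
  simp [Real.zero_rpow hr.ne', Real.zero_rpow (inv_pos.2 hr).ne']

lemma N_sum_le (hr : 1 ≤ r) {κ : Type*} (s : Finset κ) (f : κ → J → ℝ) :
    N r (fun j => ∑ i ∈ s, f i j) ≤ ∑ i ∈ s, N r (f i) := by
  classical
  induction s using Finset.induction_on with
  | empty => simp [N_zero (J := J) (lt_of_lt_of_le one_pos hr)]
  | insert a s ha ih =>
    rw [Finset.sum_insert ha]
    refine le_trans (le_of_eq ?_) ((N_add_le hr (f a) (fun j => ∑ i ∈ s, f i j)).trans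
      (add_le_add le_rfl ih))
    congr 1
    ext j
    rw [Finset.sum_insert ha]

lemma abs_le_N (hr : 0 < r) (g : J → ℝ) (j : J) : |g j| ≤ N r g := by
  apply le_N_of_le_sum hr (abs_nonneg _)
  exact Finset.single_le_sum (f := fun j => |g j| ^ r)
    (fun _ _ => Real.rpow_nonneg (abs_nonneg _) _) (Finset.mem_univ j)

/-- Markov inequality for the number of large coordinates. -/
lemma card_large (hr : 0 < r) (g : J → ℝ) {θ B : ℝ} (hθ : 0 < θ) (hB : N r g ≤ B)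
    (S : Finset J) (hS : ∀ j ∈ S, θ ≤ |g j|) : (S.card : ℝ) ≤ (B / θ) ^ r := by
  have hB0 : 0 ≤ B := (N_nonneg g).trans hB
  have h1 : (S.card : ℝ) * θ ^ r ≤ B ^ r := by
    calc (S.card : ℝ) * θ ^ r = ∑ j ∈ S, θ ^ r := by rw [Finset.sum_const, nsmul_eq_mul]
      _ ≤ ∑ j ∈ S, |g j| ^ r := Finset.sum_le_sum
          (fun j hj => Real.rpow_le_rpow hθ.le (hS j hj) hr.le)
      _ ≤ ∑ j, |g j| ^ r := Finset.sum_le_sum_of_subset_of_nonneg (Finset.subset_univ _)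
          (fun _ _ _ => Real.rpow_nonneg (abs_nonneg _) _)
      _ ≤ B ^ r := sum_le_of_N_le hr hB
  rw [Real.div_rpow hB0 hθ.le, le_div_iff₀ (by positivity)]
  exact h1

lemma rpow_add_le {a b : ℝ} (hr : 0 ≤ r) (ha : 0 ≤ a) (hb : 0 ≤ b) :
    (a + b) ^ r ≤ 2 ^ r * (a ^ r + b ^ r) := by
  rcases le_total a b with h | h
  · calc (a + b) ^ r ≤ (2 * b) ^ r := Real.rpow_le_rpow (by positivity) (by linarith) hr
      _ = 2 ^ r * b ^ r := Real.mul_rpow (by norm_num) hb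
      _ ≤ _ := by
        have : 0 ≤ a ^ r := Real.rpow_nonneg ha _
        have : (0:ℝ) ≤ 2 ^ r := by positivity
        nlinarith
  · calc (a + b) ^ r ≤ (2 * a) ^ r := Real.rpow_le_rpow (by positivity) (by linarith) hr
      _ = 2 ^ r * a ^ r := Real.mul_rpow (by norm_num) ha
      _ ≤ _ := by
        have : 0 ≤ b ^ r := Real.rpow_nonneg hb _
        have : (0:ℝ) ≤ 2 ^ r := by positivity
        nlinarith

end

end Vale.Agent.P249.Sub
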