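import Mathlib
import Vale.Agent.P249.Norm
import Vale.Agent.P249.Core

/-!
# Signs and final sampling
-/

namespace Vale.Agent.P249.Sub

open Finset

/-- Sign of a Boolean. -/
noncomputable def bs (b : Bool) : ℝ := if b then 1 else -1

lemma abs_bs (b : Bool) : |bs b| = 1 := by cases b <;> simp [bs]

lemma bs_not (b : Bool) : bs (!b) = - bs b := by cases b <;> simp [bs]

lemma sign_lower {T : Type*} [Fintype T] [DecidableEq T] {r : ℝ} (hr : 1 ≤ r) (a : T → ℝ)
    (k0 : T) :
    (Fintype.card (T → Bool) : ℝ) * |a k0| ^ r ≤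
      ∑ ε : T → Bool, |∑ k, bs (ε k) * a k| ^ r := by
  have hr0 : 0 < r := by linarith
  set f : (T → Bool) → ℝ := fun ε => |∑ k, bs (ε k) * a k| ^ r with hf
  set φ : (T → Bool) → (T → Bool) := fun ε => Function.update ε k0 (!(ε k0)) with hφ
  have hinv : Function.Involutive φ := by
    intro ε
    ext k
    by_cases hk : k = k0
    · subst hk; simp [hφ]
    · simp [hφ, Function.update_of_ne hk]
  have hsum : ∑ ε, f (φ ε) = ∑ ε, f ε := by
    have := Equiv.sum_comp (hinv.toPerm φ) f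
    simpa using this
  have hpair : ∀ ε, 2 * |a k0| ^ r ≤ f ε + f (φ ε) := by
    intro ε
    set S1 := ∑ k, bs (ε k) * a k with hS1
    set S2 := ∑ k, bs (φ ε k) * a k with hS2
    have hdiff : S1 - S2 = 2 * (bs (ε k0) * a k0) := by
      rw [hS1, hS2, ← Finset.sum_sub_distrib]
      rw [Finset.sum_eq_single k0]
      · simp only [hφ, Function.update_self, bs_not]; ring
      · intro k _ hk
        simp only [hφ, Function.update_of_ne hk]; ring
      · intro h; exact absurd (Finset.mem_univ _) h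
    have h1 : 2 * |a k0| ≤ |S1| + |S2| := by
      have h2 : |S1 - S2| = 2 * |a k0| := by
        rw [hdiff, abs_mul, abs_mul, abs_bs]; norm_num
      rw [← h2]
      exact abs_sub _ _
    -- convexity
    have h3 := (convexOn_rpow hr).2 (Set.mem_Ici.2 (abs_nonneg S1)) (Set.mem_Ici.2 (abs_nonneg S2))
      (by norm_num : (0:ℝ) ≤ 1 / 2) (by norm_num : (0:ℝ) ≤ 1 / 2) (by norm_num)
    simp only [smul_eq_mul] at h3
    have h4 : |a k0| ^ r ≤ (1 / 2 * |S1| + 1 / 2 * |S2|) ^ r :=
      Real.rpow_le_rpow (abs_nonneg _) (by linarith) hr0.le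
    simp only [hf]
    rw [← hS1, ← hS2]
    linarith
  have h5 := Finset.sum_le_sum (fun ε (_ : ε ∈ (Finset.univ : Finset (T → Bool))) => hpair ε)
  rw [Finset.sum_add_distrib, hsum, Finset.sum_const, Finset.card_univ, nsmul_eq_mul] at h5
  linarith

section samp

variable {κ Ω : Type*} [Fintype κ]

/-- Sequential sampling with an exponential potential, abstract form. -/
lemma sample_many' (Y : κ → Ω → ℝ) (B : ℝ) (hB1 : 1 ≤ B)
    (hY0 : ∀ e ω, 0 ≤ Y e ω) (hYB : ∀ e ω, Y e ω ≤ B)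
    (hone : ∀ b : κ → ℝ, ∃ ω, ∑ e, b e * Y e ω ≤ ∑ e, b e) (s : ℝ) (hs : 0 < s) (m : ℕ) :
    ∃ ω : Fin m → Ω,
      ∑ e, (Real.exp (s / B * ∑ j, Y e (ω j)) / (1 + (Real.exp s - 1) / B) ^ m
        + Real.exp (-s / B * ∑ j, Y e (ω j)) / (1 + (Real.exp (-s) - 1) / B) ^ m) ≤
          2 * Fintype.card κ := by
  have hBpos : 0 < B := by linarith
  set a := 1 + (Real.exp s - 1) / B with ha
  set a' := 1 + (Real.exp (-s) - 1) / B with ha'
  have hapos : 0 < a := by
    have : 0 < Real.exp s - 1 := by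
      have := Real.add_one_lt_exp (ne_of_gt hs)
      linarith
    positivity
  have ha'pos : 0 < a' := by
    have h1 : 0 < Real.exp (-s) := Real.exp_pos _
    have h2 : -1 / B < (Real.exp (-s) - 1) / B := by
      apply div_lt_div_of_pos_right _ hBpos
      linarith
    have h3 : -1 ≤ -1 / B := by
      rw [le_div_iff₀ hBpos]; linarith
    rw [ha']
    linarith
  induction m with
  | zero =>
    refine ⟨fun j => j.elim0, ?_⟩
    simp
    apply le_of_eq
    ring
  | succ m ih =>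
    obtain ⟨ω, hω⟩ := ih
    set c : κ → ℝ := fun e => Real.exp (s / B * ∑ j, Y e (ω j)) / a ^ m with hc
    set c' : κ → ℝ := fun e => Real.exp (-s / B * ∑ j, Y e (ω j)) / a' ^ m with hc'
    have hcpos : ∀ e, 0 ≤ c e := fun e => by positivity
    have hc'pos : ∀ e, 0 ≤ c' e := fun e => by positivity
    obtain ⟨x, hx⟩ := hone
      (fun e => c e * ((Real.exp s - 1) / B) / a + c' e * ((Real.exp (-s) - 1) / B) / a')
    refine ⟨Fin.snoc ω x, ?_⟩
    refine le_trans ?_ hω
    have hstep : ∀ e, (Real.exp (s / B * ∑ j, Y e (Fin.snoc (α := fun _ => Ω) ω x j)) /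
          a ^ (m + 1)
        + Real.exp (-s / B * ∑ j, Y e (Fin.snoc (α := fun _ => Ω) ω x j)) / a' ^ (m + 1)) ≤
        (c e + c' e) + ((c e * ((Real.exp s - 1) / B) / a
          + c' e * ((Real.exp (-s) - 1) / B) / a') * (Y e x)
          - (c e * ((Real.exp s - 1) / B) / a + c' e * ((Real.exp (-s) - 1) / B) / a')) := by
      intro e
      rw [Fin.sum_univ_castSucc]
      simp only [Fin.snoc_castSucc, Fin.snoc_last]
      rw [mul_add, mul_add, Real.exp_add, Real.exp_add]
      set y := Y e x with hy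
      have e1 : Real.exp (s / B * y) ≤ 1 + (Real.exp s - 1) / B * y :=
        exp_le_chord hBpos (hY0 e x) (hYB e x)
      have e2 : Real.exp (-s / B * y) ≤ 1 + (Real.exp (-s) - 1) / B * y :=
        exp_le_chord hBpos (hY0 e x) (hYB e x)
      have f1 : Real.exp (s / B * ∑ j, Y e (ω j)) * Real.exp (s / B * y)
          / a ^ (m + 1) ≤ c e * (1 + (Real.exp s - 1) / B * y) / a := by
        have : Real.exp (s / B * ∑ j, Y e (ω j)) * Real.exp (s / B * y)
          / a ^ (m + 1) = c e * Real.exp (s / B * y) / a := by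
          rw [hc]; field_simp; ring
        rw [this]
        gcongr
      have f2 : Real.exp (-s / B * ∑ j, Y e (ω j)) * Real.exp (-s / B * y)
          / a' ^ (m + 1) ≤ c' e * (1 + (Real.exp (-s) - 1) / B * y) / a' := by
        have : Real.exp (-s / B * ∑ j, Y e (ω j)) * Real.exp (-s / B * y)
          / a' ^ (m + 1) = c' e * Real.exp (-s / B * y) / a' := by
          rw [hc']; field_simp; ring
        rw [this]
        gcongr
      refine (add_le_add f1 f2).trans (le_of_eq ?_)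
      have g1 : c e * (1 + (Real.exp s - 1) / B * y) / a =
          c e + (c e * ((Real.exp s - 1) / B) / a) * y - c e * ((Real.exp s - 1) / B) / a := by
        have : (Real.exp s - 1) / B = a - 1 := by rw [ha]; ring
        rw [this]
        field_simp
        ring
      have g2 : c' e * (1 + (Real.exp (-s) - 1) / B * y) / a' =
          c' e + (c' e * ((Real.exp (-s) - 1) / B) / a') * y
            - c' e * ((Real.exp (-s) - 1) / B) / a' := by
        have : (Real.exp (-s) - 1) / B = a' - 1 := by rw [ha']; ring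
        rw [this]
        field_simp
        ring
      rw [g1, g2]
      ring
    refine (Finset.sum_le_sum (fun e _ => hstep e)).trans ?_
    rw [Finset.sum_add_distrib, Finset.sum_sub_distrib]
    have : ∑ e, (c e + c' e) = ∑ e, (c e + c' e) := rfl
    linarith [hx]

/-- Numbers of samples: each sum is within a factor two of its mean. -/
lemma sample_two (Y : κ → Ω → ℝ) (B : ℝ) (hB1 : 1 ≤ B)
    (hY0 : ∀ e ω, 0 ≤ Y e ω) (hYB : ∀ e ω, Y e ω ≤ B)
    (hone : ∀ b : κ → ℝ, ∃ ω, ∑ e, b e * Y e ω ≤ ∑ e, b e) (m : ℕ) [Nonempty κ]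
    (hm : 10 * (B * Real.log (2 * Fintype.card κ)) ≤ m) :
    ∃ ω : Fin m → Ω, ∀ e, (m:ℝ) / 2 ≤ ∑ j, Y e (ω j) ∧ ∑ j, Y e (ω j) ≤ 2 * m := by
  obtain ⟨ω, hω⟩ := sample_many' Y B hB1 hY0 hYB hone 1 one_pos m
  refine ⟨ω, fun e => ?_⟩
  have hcard : (0:ℝ) < 2 * Fintype.card κ := by
    have : 0 < Fintype.card κ := Fintype.card_pos
    positivity
  have hBpos : 0 < B := by linarith
  have hexpL : Real.exp (Real.log (2 * Fintype.card κ)) = 2 * Fintype.card κ := Real.exp_log hcard
  have hpos1 : 0 < 1 + (Real.exp 1 - 1) / B := by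
    have : 0 < Real.exp 1 - 1 := by
      have := Real.add_one_lt_exp (one_ne_zero)
      linarith
    positivity
  have hpos2 : 0 < 1 + (Real.exp (-1) - 1) / B := by
    have h1 : 0 < Real.exp (-1) := Real.exp_pos _
    have h2 : -1 / B < (Real.exp (-1) - 1) / B := by
      apply div_lt_div_of_pos_right _ hBpos
      linarith
    have h3 : -1 ≤ -1 / B := by
      rw [le_div_iff₀ hBpos]; linarith
    linarith
  have hsingle : Real.exp (1 / B * ∑ j, Y e (ω j)) / (1 + (Real.exp 1 - 1) / B) ^ m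
      + Real.exp (-1 / B * ∑ j, Y e (ω j)) / (1 + (Real.exp (-1) - 1) / B) ^ m ≤
      Real.exp (Real.log (2 * Fintype.card κ)) := by
    rw [hexpL]
    refine le_trans ?_ hω
    apply Finset.single_le_sum (f := fun e => Real.exp (1 / B * ∑ j, Y e (ω j)) /
      (1 + (Real.exp 1 - 1) / B) ^ m + Real.exp (-1 / B * ∑ j, Y e (ω j)) /
      (1 + (Real.exp (-1) - 1) / B) ^ m) _ (Finset.mem_univ e)
    intro e _
    positivity
  have h := scalar_bounds B 1 (Real.log (2 * Fintype.card κ)) (∑ j, Y e (ω j)) (1 / 10) m hBpos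
    hB1 one_pos (by rw [div_one]; linarith) hsingle
  have he1 := Real.exp_one_gt_d9
  have he2 := Real.exp_one_lt_d9
  have he3 : Real.exp (-1) ≤ 0.4 := by
    rw [Real.exp_neg, ← one_div, div_le_iff₀ (Real.exp_pos _)]
    linarith
  have hm0 : (0:ℝ) ≤ m := Nat.cast_nonneg m
  constructor
  · refine le_trans ?_ h.1
    rw [div_one]
    nlinarith
  · refine h.2.trans ?_
    rw [div_one]
    nlinarith

end samp

/-- Final assembly: sampling from finitely many finite probability spaces. -/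
lemma assemble {ι I : Type*} [Fintype ι] [Fintype I] [Nonempty I] {Ω : I → Type*}
    [∀ i, Fintype (Ω i)] [∀ i, Nonempty (Ω i)] {r : ℝ} (hr : 1 ≤ r) (d : ι → ι → ℝ)
    (hd : ∀ x y, x ≠ y → 0 < d x y) (hι : 2 ≤ Fintype.card ι)
    (F : ∀ i, ι → Ω i → ℝ) {Q Cl Cu : ℝ} (hCl : 0 < Cl) (hQ : Cl ≤ Q) (hCu : 0 < Cu)
    (hsup : ∀ i x y ω, x ≠ y → |F i x ω - F i y ω| ≤ Q * d x y)
    (hup : ∀ i x y, x ≠ y → ∑ ω, |F i x ω - F i y ω| ^ r ≤
      (Fintype.card (Ω i) : ℝ) * (Cu * d x y) ^ r)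
    (hlow : ∀ x y, x ≠ y → ∃ i, (Fintype.card (Ω i) : ℝ) * (Cl * d x y) ^ r ≤
      ∑ ω, |F i x ω - F i y ω| ^ r)
    (m : ℕ) (hm : 10 * ((Fintype.card I : ℝ) * (Q / Cl) ^ r *
      Real.log (2 * (Fintype.card ι : ℝ) ^ 2)) ≤ m) (hm0 : 0 < m) :
    ∃ G : ι → Fin m → ℝ, ∃ s : ℝ, 0 < s ∧ ∀ x y, x ≠ y →
      s * d x y ≤ N r (fun l => G x l - G y l) ∧
      N r (fun l => G x l - G y l) ≤ (4 * Fintype.card I * Cu / Cl) * s * d x y := by
  classical
  have hr0 : 0 < r := by linarith
  have hQ0 : 0 < Q := by linarith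
  set c : ℝ := (Fintype.card I : ℝ) with hc
  have hc1 : 1 ≤ c := by
    rw [hc]
    have : 0 < Fintype.card I := Fintype.card_pos
    exact_mod_cast this
  have hc0 : 0 < c := by linarith
  have hwpos : ∀ i, (0:ℝ) < (Fintype.card (Ω i) : ℝ) := fun i => by
    have : 0 < Fintype.card (Ω i) := Fintype.card_pos
    exact_mod_cast this
  let κ := {e : ι × ι // e.1 ≠ e.2}
  set P : (Σ i, Ω i) → ℝ := fun ω => 1 / (c * (Fintype.card (Ω ω.1) : ℝ)) with hP
  have hP0 : ∀ ω, 0 < P ω := fun ω => by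
    have := hwpos ω.1
    rw [hP]; positivity
  set g : κ → (Σ i, Ω i) → ℝ := fun e ω => |F ω.1 e.1.1 ω.2 - F ω.1 e.1.2 ω.2| ^ r with hg
  have hg0 : ∀ e ω, 0 ≤ g e ω := fun e ω => Real.rpow_nonneg (abs_nonneg _) _
  set E : κ → ℝ := fun e => ∑ ω, P ω * g e ω with hE
  have hEeq : ∀ e, E e = ∑ i, 1 / (c * (Fintype.card (Ω i) : ℝ)) *
      ∑ ω, |F i e.1.1 ω - F i e.1.2 ω| ^ r := by
    intro e
    rw [hE]
    simp only
    rw [Fintype.sum_sigma]
    apply Finset.sum_congr rfl
    intro i _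
    rw [Finset.mul_sum]
  have hPsum : ∑ ω, P ω = 1 := by
    rw [Fintype.sum_sigma]
    have h1 : ∀ i, ∑ ω : Ω i, P ⟨i, ω⟩ = 1 / c := by
      intro i
      have hw := hwpos i
      have h2 : ∑ _ω : Ω i, (1 / (c * (Fintype.card (Ω i) : ℝ))) = 1 / c := by
        rw [Finset.sum_const, Finset.card_univ, nsmul_eq_mul]
        field_simp
      exact h2
    simp_rw [h1]
    rw [Finset.sum_const, Finset.card_univ, nsmul_eq_mul, ← hc]
    field_simp
  have hdpos : ∀ e : κ, 0 < d e.1.1 e.1.2 := fun e => hd _ _ e.2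
  have hElow : ∀ e, (Cl * d e.1.1 e.1.2) ^ r / c ≤ E e := by
    intro e
    obtain ⟨i, hi⟩ := hlow _ _ e.2
    rw [hEeq]
    have h1 : 1 / (c * (Fintype.card (Ω i) : ℝ)) * ∑ ω, |F i e.1.1 ω - F i e.1.2 ω| ^ r ≤
        ∑ i, 1 / (c * (Fintype.card (Ω i) : ℝ)) * ∑ ω, |F i e.1.1 ω - F i e.1.2 ω| ^ r := by
      apply Finset.single_le_sum (f := fun i => 1 / (c * (Fintype.card (Ω i) : ℝ)) *
        ∑ ω, |F i e.1.1 ω - F i e.1.2 ω| ^ r) _ (Finset.mem_univ i)
      intro i _
      have := hwpos i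
      positivity
    refine le_trans ?_ h1
    have hw := hwpos i
    calc (Cl * d e.1.1 e.1.2) ^ r / c = 1 / (c * (Fintype.card (Ω i) : ℝ)) *
          ((Fintype.card (Ω i) : ℝ) * (Cl * d e.1.1 e.1.2) ^ r) := by field_simp
      _ ≤ _ := mul_le_mul_of_nonneg_left hi (by positivity)
  have hEup : ∀ e, E e ≤ (Cu * d e.1.1 e.1.2) ^ r := by
    intro e
    rw [hEeq]
    calc _ ≤ ∑ i : I, 1 / c * (Cu * d e.1.1 e.1.2) ^ r := by
          apply Finset.sum_le_sum
          intro i _
          have hw := hwpos i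
          calc _ ≤ 1 / (c * (Fintype.card (Ω i) : ℝ)) *
                ((Fintype.card (Ω i) : ℝ) * (Cu * d e.1.1 e.1.2) ^ r) :=
                mul_le_mul_of_nonneg_left (hup i _ _ e.2) (by positivity)
            _ = _ := by field_simp
      _ = _ := by
          rw [Finset.sum_const, Finset.card_univ, nsmul_eq_mul, ← hc]
          field_simp
  have hEpos : ∀ e, 0 < E e := fun e => by
    have := hdpos e
    exact lt_of_lt_of_le (by positivity) (hElow e)
  set B := c * (Q / Cl) ^ r with hB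
  have hQC : 1 ≤ Q / Cl := (one_le_div hCl).2 hQ
  have hB1 : 1 ≤ B := by
    have : 1 ≤ (Q / Cl) ^ r := Real.one_le_rpow hQC hr0.le
    rw [hB]; nlinarith
  obtain ⟨a0, b0, hab⟩ := Fintype.exists_pair_of_one_lt_card (α := ι) (by omega)
  have : Nonempty κ := ⟨⟨(a0, b0), hab⟩⟩
  set Y : κ → (Σ i, Ω i) → ℝ := fun e ω => g e ω / E e with hY
  have hYB : ∀ e ω, Y e ω ≤ B := by
    intro e ω
    rw [hY]
    simp only
    rw [div_le_iff₀ (hEpos e)]
    have h1 : g e ω ≤ (Q * d e.1.1 e.1.2) ^ r :=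
      Real.rpow_le_rpow (abs_nonneg _) (hsup _ _ _ _ e.2) hr0.le
    refine h1.trans ?_
    have hdp := hdpos e
    calc (Q * d e.1.1 e.1.2) ^ r = B * ((Cl * d e.1.1 e.1.2) ^ r / c) := by
          rw [hB, Real.div_rpow hQ0.le hCl.le, Real.mul_rpow hQ0.le hdp.le,
            Real.mul_rpow hCl.le hdp.le]
          field_simp
      _ ≤ B * E e := mul_le_mul_of_nonneg_left (hElow e) (by linarith)
  have hone : ∀ b : κ → ℝ, ∃ ω, ∑ e, b e * Y e ω ≤ ∑ e, b e := by
    intro b
    by_contra hcon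
    push Not at hcon
    have hne : (Finset.univ : Finset (Σ i, Ω i)).Nonempty := by
      obtain ⟨i⟩ := ‹Nonempty I›
      obtain ⟨ω⟩ := ‹∀ i, Nonempty (Ω i)› i
      exact ⟨⟨i, ω⟩, Finset.mem_univ _⟩
    have h1 : ∑ ω, P ω * (∑ e, b e) < ∑ ω, P ω * ∑ e, b e * Y e ω :=
      Finset.sum_lt_sum_of_nonempty hne (fun ω _ => mul_lt_mul_of_pos_left (hcon ω) (hP0 ω))
    have h2 : ∑ ω, P ω * ∑ e, b e * Y e ω = ∑ e, b e := by
      simp_rw [Finset.mul_sum]
      rw [Finset.sum_comm]
      apply Finset.sum_congr rfl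
      intro e _
      have h3 : ∑ ω, P ω * (b e * Y e ω) = b e * (E e / E e) := by
        rw [hE]
        simp only
        rw [Finset.sum_div, Finset.mul_sum]
        apply Finset.sum_congr rfl
        intro ω _
        rw [hY]
        simp only
        ring
      rw [h3, div_self (hEpos e).ne', mul_one]
    rw [← Finset.sum_mul, hPsum, one_mul, h2] at h1
    exact lt_irrefl _ h1
  have hκcard : (Fintype.card κ : ℝ) ≤ (Fintype.card ι : ℝ) ^ 2 := by
    have h1 : Fintype.card κ ≤ Fintype.card (ι × ι) := Fintype.card_subtype_le _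
    rw [Fintype.card_prod] at h1
    have : (Fintype.card κ : ℝ) ≤ ((Fintype.card ι * Fintype.card ι : ℕ) : ℝ) := by
      exact_mod_cast h1
    rw [sq]
    simpa using this
  obtain ⟨ω, hω⟩ := sample_two Y B hB1 (fun e ω => div_nonneg (hg0 e ω) (hEpos e).le) hYB hone m (by
    refine le_trans ?_ hm
    have hκpos : (0:ℝ) < Fintype.card κ := by
      have : 0 < Fintype.card κ := Fintype.card_pos
      exact_mod_cast this
    have h1 : Real.log (2 * Fintype.card κ) ≤ Real.log (2 * (Fintype.card ι : ℝ) ^ 2) :=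
      Real.log_le_log (by positivity) (by linarith)
    have h2 : B * Real.log (2 * Fintype.card κ) ≤ B * Real.log (2 * (Fintype.card ι : ℝ) ^ 2) :=
      mul_le_mul_of_nonneg_left h1 (by linarith)
    linarith)
  have hmr : (0:ℝ) < m := by exact_mod_cast hm0
  refine ⟨fun x l => F (ω l).1 x (ω l).2, (m / (2 * c)) ^ (1 / r) * Cl, by positivity, ?_⟩
  intro x y hxy
  set e : κ := ⟨(x, y), hxy⟩ with he
  have hdp : 0 < d x y := hd x y hxy
  have hsum : ∑ l, |F (ω l).1 x (ω l).2 - F (ω l).1 y (ω l).2| ^ r = E e * ∑ l, Y e (ω l) := by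
    rw [Finset.mul_sum]
    apply Finset.sum_congr rfl
    intro l _
    rw [hY]
    simp only
    rw [mul_div_cancel₀ _ (hEpos e).ne']
  obtain ⟨h1, h2⟩ := hω e
  have hEl := hElow e
  have hEu := hEup e
  simp only [he] at hEl hEu
  constructor
  · apply le_N_of_le_sum hr0 (by positivity)
    rw [hsum, Real.mul_rpow (by positivity) hdp.le, Real.mul_rpow (by positivity) hCl.le,
      ← Real.rpow_mul (by positivity), one_div_mul_cancel hr0.ne', Real.rpow_one]
    calc m / (2 * c) * Cl ^ r * d x y ^ r = (Cl * d x y) ^ r / c * (m / 2) := by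
          rw [Real.mul_rpow hCl.le hdp.le]; field_simp
      _ ≤ E e * ∑ l, Y e (ω l) := mul_le_mul hEl h1 (by positivity) (hEpos e).le
  · apply N_le_of_sum_le hr0 (by positivity)
    rw [hsum]
    have h3 : E e * ∑ l, Y e (ω l) ≤ (Cu * d x y) ^ r * (2 * m) :=
      mul_le_mul hEu h2 (Finset.sum_nonneg (fun l _ => div_nonneg (hg0 _ _) (hEpos e).le))
        (by positivity)
    refine h3.trans ?_
    have e1 : (4 * c * Cu / Cl * ((m / (2 * c)) ^ (1 / r) * Cl) * d x y) =
        (4 * c) * (m / (2 * c)) ^ (1 / r) * (Cu * d x y) := by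
      field_simp
    have e5 : ((4 * c) * (m / (2 * c)) ^ (1 / r)) ^ r = (4 * c) ^ r * (m / (2 * c)) := by
      rw [Real.mul_rpow (by positivity) (by positivity), ← Real.rpow_mul (by positivity),
        one_div_mul_cancel hr0.ne', Real.rpow_one]
    have e6 : ((4 * c) * (m / (2 * c)) ^ (1 / r) * (Cu * d x y)) ^ r =
        ((4 * c) ^ r * (m / (2 * c))) * (Cu * d x y) ^ r := by
      rw [Real.mul_rpow (by positivity) (by positivity), e5]
    rw [e1, e6]
    have e2 : 4 * c ≤ (4 * c) ^ r := by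
      calc 4 * c = (4 * c) ^ (1:ℝ) := (Real.rpow_one _).symm
        _ ≤ (4 * c) ^ r := Real.rpow_le_rpow_of_exponent_le (by linarith) hr
    have e3 : 2 * (m:ℝ) = 4 * c * (m / (2 * c)) := by field_simp; ring
    have e4 : 0 ≤ (Cu * d x y) ^ r := by positivity
    calc (Cu * d x y) ^ r * (2 * m) = (4 * c * (m / (2 * c))) * (Cu * d x y) ^ r := by
          rw [← e3]; ring
      _ ≤ _ := by
          apply mul_le_mul_of_nonneg_right _ e4
          exact mul_le_mul_of_nonneg_right e2 (by positivity)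

end Vale.Agent.P249.Sub
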