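import Mathlib

/-!
# The exponential kernel of a finite metric space
-/

namespace Vale.Agent.P249.Sub

open Finset

/-- A finite pseudometric given as a function. -/
structure IsMet {ι : Type*} (d : ι → ι → ℝ) : Prop where
  nonneg : ∀ x y, 0 ≤ d x y
  self : ∀ x, d x x = 0
  symm : ∀ x y, d x y = d y x
  tri : ∀ x y z, d x z ≤ d x y + d y z

section

variable {ι : Type*} [Fintype ι] {d : ι → ι → ℝ}

/-- The partition function of the exponential kernel. -/
noncomputable def Z (d : ι → ι → ℝ) (ρ : ℝ) (x : ι) : ℝ := ∑ y, Real.exp (-(d x y / ρ))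

/-- The normalized exponential kernel. -/
noncomputable def sg (d : ι → ι → ℝ) (ρ : ℝ) (x y : ι) : ℝ := Real.exp (-(d x y / ρ)) / Z d ρ x

lemma one_le_Z (hd : IsMet d) (ρ : ℝ) (x : ι) : 1 ≤ Z d ρ x := by
  have h1 : Real.exp (-(d x x / ρ)) ≤ Z d ρ x :=
    Finset.single_le_sum (f := fun y => Real.exp (-(d x y / ρ)))
      (fun _ _ => (Real.exp_pos _).le) (Finset.mem_univ x)
  simpa [hd.self] using h1

lemma Z_pos (hd : IsMet d) (ρ : ℝ) (x : ι) : 0 < Z d ρ x :=
  lt_of_lt_of_le one_pos (one_le_Z hd ρ x)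

lemma Z_le_card (hd : IsMet d) {ρ : ℝ} (hρ : 0 < ρ) (x : ι) : Z d ρ x ≤ Fintype.card ι := by
  have h1 : Z d ρ x ≤ ∑ _y : ι, (1:ℝ) := by
    apply Finset.sum_le_sum
    intro y _
    rw [Real.exp_le_one_iff, neg_nonpos]
    exact div_nonneg (hd.nonneg x y) hρ.le
  simpa using h1

lemma Z_mono (hd : IsMet d) {ρ ρ' : ℝ} (hρ : 0 < ρ) (h : ρ ≤ ρ') (x : ι) :
    Z d ρ x ≤ Z d ρ' x := by
  apply Finset.sum_le_sum
  intro y _
  rw [Real.exp_le_exp, neg_le_neg_iff]
  exact div_le_div_of_nonneg_left (hd.nonneg x y) hρ h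

lemma Z_lip (hd : IsMet d) {ρ : ℝ} (hρ : 0 < ρ) (x y : ι) :
    Z d ρ y ≤ Real.exp (d x y / ρ) * Z d ρ x := by
  rw [Z, Z, Finset.mul_sum]
  apply Finset.sum_le_sum
  intro a _
  rw [← Real.exp_add, Real.exp_le_exp]
  have h1 : d x a ≤ d x y + d y a := hd.tri x y a
  have h2 : d x a / ρ ≤ d x y / ρ + d y a / ρ := by
    rw [← add_div]; exact div_le_div_of_nonneg_right h1 hρ.le
  linarith

lemma logZ_lip (hd : IsMet d) {ρ : ℝ} (hρ : 0 < ρ) (x y : ι) :
    |Real.log (Z d ρ x) - Real.log (Z d ρ y)| ≤ d x y / ρ := by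
  have key : ∀ x y, Real.log (Z d ρ y) ≤ d x y / ρ + Real.log (Z d ρ x) := by
    intro x y
    have h1 := Real.log_le_log (Z_pos hd ρ y) (Z_lip hd hρ x y)
    rwa [Real.log_mul (Real.exp_pos _).ne' (Z_pos hd ρ x).ne', Real.log_exp] at h1
  rw [abs_le]
  constructor
  · have := key x y; linarith
  · have := key y x; rw [hd.symm y x] at this; linarith

lemma sg_pos (hd : IsMet d) (ρ : ℝ) (x y : ι) : 0 < sg d ρ x y :=
  div_pos (Real.exp_pos _) (Z_pos hd ρ x)

lemma sum_sg (hd : IsMet d) (ρ : ℝ) (x : ι) : ∑ y, sg d ρ x y = 1 := by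
  simp only [sg]
  rw [← Finset.sum_div]
  exact div_self (Z_pos hd ρ x).ne'

lemma sg_ratio (hd : IsMet d) {ρ : ℝ} (hρ : 0 < ρ) (x y a : ι) :
    sg d ρ y a ≤ Real.exp (2 * (d x y / ρ)) * sg d ρ x a := by
  have hZx := Z_pos hd ρ x
  have hZy := Z_pos hd ρ y
  rw [sg, sg, div_le_iff₀ hZy]
  have h1 : Z d ρ x ≤ Real.exp (d y x / ρ) * Z d ρ y := Z_lip hd hρ y x
  rw [hd.symm y x] at h1
  have h2 : Real.exp (-(d y a / ρ)) ≤ Real.exp (d x y / ρ) * Real.exp (-(d x a / ρ)) := by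
    rw [← Real.exp_add, Real.exp_le_exp]
    have h3 : d x a / ρ ≤ d x y / ρ + d y a / ρ := by
      rw [← add_div]; exact div_le_div_of_nonneg_right (hd.tri x y a) hρ.le
    linarith
  have h4 : Real.exp (2 * (d x y / ρ)) = Real.exp (d x y / ρ) * Real.exp (d x y / ρ) := by
    rw [← Real.exp_add]; ring_nf
  rw [h4]
  have h5 : Real.exp (d x y / ρ) * Real.exp (d x y / ρ) *
      (Real.exp (-(d x a / ρ)) / Z d ρ x) * Z d ρ y =
      (Real.exp (d x y / ρ) * Real.exp (-(d x a / ρ))) *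
        ((Real.exp (d x y / ρ) * Z d ρ y) / Z d ρ x) := by ring
  rw [h5]
  have h6 : 1 ≤ (Real.exp (d x y / ρ) * Z d ρ y) / Z d ρ x := by
    rw [le_div_iff₀ hZx]; linarith
  have h7 : 0 ≤ Real.exp (d x y / ρ) * Real.exp (-(d x a / ρ)) := by positivity
  nlinarith

lemma abs_sg_sub (hd : IsMet d) {ρ : ℝ} (hρ : 0 < ρ) (x y a : ι) :
    |sg d ρ x a - sg d ρ y a| ≤ (Real.exp (2 * (d x y / ρ)) - 1) * sg d ρ x a := by
  set e := Real.exp (2 * (d x y / ρ)) with he
  have hnn : 0 ≤ d x y / ρ := div_nonneg (hd.nonneg x y) hρ.le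
  have he1 : 1 ≤ e := Real.one_le_exp (by positivity)
  have h1 : sg d ρ y a ≤ e * sg d ρ x a := sg_ratio hd hρ x y a
  have h2 : sg d ρ x a ≤ e * sg d ρ y a := by
    have := sg_ratio hd hρ y x a
    rwa [hd.symm y x] at this
  have hx := (sg_pos hd ρ x a).le
  have hy := (sg_pos hd ρ y a).le
  rw [abs_le]
  constructor
  · linarith
  · -- `sg x - sg y ≤ sg x (1 - 1/e) ≤ (e - 1) sg x`
    have h3 : sg d ρ x a - sg d ρ y a ≤ (e - 1) * sg d ρ y a := by linarith
    rcases le_total (sg d ρ y a) (sg d ρ x a) with h | h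
    · exact h3.trans (mul_le_mul_of_nonneg_left h (by linarith))
    · have : sg d ρ x a - sg d ρ y a ≤ 0 := by linarith
      exact this.trans (mul_nonneg (by linarith) hx)

lemma exp_two_sub_one_le {t : ℝ} (h0 : 0 ≤ t) (h1 : t ≤ 1) : Real.exp (2 * t) - 1 ≤ 7 * t := by
  have hconv := convexOn_exp
  have h := hconv.2 (Set.mem_univ (0:ℝ)) (Set.mem_univ (2:ℝ)) (sub_nonneg.2 h1) h0 (by ring)
  simp only [smul_eq_mul, mul_zero, zero_add, Real.exp_zero, mul_one] at h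
  have h2 : Real.exp 2 ≤ 8 := by
    have h3 := Real.exp_one_lt_d9
    have h4 : Real.exp 2 = Real.exp 1 * Real.exp 1 := by rw [← Real.exp_add]; norm_num
    rw [h4]
    have h5 := Real.exp_pos 1
    nlinarith
  rw [mul_comm 2 t]
  nlinarith

lemma abs_sg_sub' (hd : IsMet d) {ρ : ℝ} (hρ : 0 < ρ) {x y : ι} (hxy : d x y ≤ ρ) (a : ι) :
    |sg d ρ x a - sg d ρ y a| ≤ 7 * (d x y / ρ) * sg d ρ x a := by
  refine (abs_sg_sub hd hρ x y a).trans ?_
  apply mul_le_mul_of_nonneg_right _ (sg_pos hd ρ x a).le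
  exact exp_two_sub_one_le (div_nonneg (hd.nonneg x y) hρ.le) ((div_le_one hρ).2 hxy)

/-- Mean distance under the kernel, by Jensen. -/
lemma mean_dist (hd : IsMet d) {ρ : ℝ} (hρ : 0 < ρ) (x : ι) :
    ∑ a, sg d ρ x a * (d x a / ρ) ≤ 2 * (Real.log (Z d (2 * ρ) x) - Real.log (Z d ρ x)) := by
  have hJ := convexOn_exp.map_sum_le (t := Finset.univ) (w := fun a => sg d ρ x a)
    (p := fun a => d x a / ρ / 2) (fun a _ => (sg_pos hd ρ x a).le) (sum_sg hd ρ x)
    (fun _ _ => Set.mem_univ _)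
  simp only [smul_eq_mul] at hJ
  have h1 : ∑ a, sg d ρ x a * Real.exp (d x a / ρ / 2) = Z d (2 * ρ) x / Z d ρ x := by
    rw [Z, Finset.sum_div]
    apply Finset.sum_congr rfl
    intro a _
    rw [sg, div_mul_eq_mul_div, ← Real.exp_add]
    congr 2
    field_simp
    ring
  rw [h1] at hJ
  have hZ := Z_pos hd ρ x
  have hZ2 := Z_pos hd (2 * ρ) x
  have h2 := Real.log_le_log (Real.exp_pos _) hJ
  rw [Real.log_exp, Real.log_div hZ2.ne' hZ.ne'] at h2
  have h3 : ∑ a, sg d ρ x a * (d x a / ρ) = 2 * ∑ a, sg d ρ x a * (d x a / ρ / 2) := by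
    rw [Finset.mul_sum]
    apply Finset.sum_congr rfl
    intro a _
    ring
  rw [h3]
  linarith

lemma rpow_le_exp_half {r t : ℝ} (hr : 0 < r) (ht : 0 ≤ t) :
    t ^ r ≤ (2 * r) ^ r * Real.exp (t / 2) := by
  have h1 : t / (2 * r) ≤ Real.exp (t / (2 * r)) := by
    have := Real.add_one_le_exp (t / (2 * r)); linarith
  have h2 : t = (2 * r) * (t / (2 * r)) := by field_simp
  have h3 : 0 ≤ t / (2 * r) := by positivity
  calc t ^ r = ((2 * r) * (t / (2 * r))) ^ r := by rw [← h2]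
    _ = (2 * r) ^ r * (t / (2 * r)) ^ r := Real.mul_rpow (by positivity) h3
    _ ≤ (2 * r) ^ r * (Real.exp (t / (2 * r))) ^ r := by
        apply mul_le_mul_of_nonneg_left _ (by positivity)
        exact Real.rpow_le_rpow h3 h1 hr.le
    _ = (2 * r) ^ r * Real.exp (t / 2) := by
        rw [← Real.exp_mul]
        congr 2
        field_simp

/-- Moments of the distance under the kernel. -/
lemma moment_dist (hd : IsMet d) {ρ r : ℝ} (hρ : 0 < ρ) (hr : 0 < r) (x : ι) :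
    ∑ a, sg d ρ x a * (d x a / ρ) ^ r ≤
      (2 * r) ^ r * Real.exp (Real.log (Z d (2 * ρ) x) - Real.log (Z d ρ x)) := by
  have h1 : ∑ a, sg d ρ x a * Real.exp (d x a / ρ / 2) = Z d (2 * ρ) x / Z d ρ x := by
    rw [Z, Finset.sum_div]
    apply Finset.sum_congr rfl
    intro a _
    rw [sg, div_mul_eq_mul_div, ← Real.exp_add]
    congr 2
    field_simp
    ring
  have hZ := Z_pos hd ρ x
  have hZ2 := Z_pos hd (2 * ρ) x
  rw [Real.exp_sub, Real.exp_log hZ2, Real.exp_log hZ, ← h1, Finset.mul_sum]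
  apply Finset.sum_le_sum
  intro a _
  have h2 := rpow_le_exp_half hr (div_nonneg (hd.nonneg x a) hρ.le)
  have h3 := (sg_pos hd ρ x a).le
  calc sg d ρ x a * (d x a / ρ) ^ r ≤ sg d ρ x a * ((2 * r) ^ r * Real.exp (d x a / ρ / 2)) :=
        mul_le_mul_of_nonneg_left h2 h3
    _ = _ := by ring

/-- Mass of the far points under the kernel. -/
lemma far_mass (hd : IsMet d) {ρ : ℝ} (hρ : 0 < ρ) (h : ℕ) (x : ι) :
    ∑ a, (if ρ / 2 ^ h ≤ d x a then sg d ρ x a else 0) ≤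
      2 * (Real.log (Z d ρ x) - Real.log (Z d (ρ / 2 ^ (h + 1)) x)) := by
  set ρ' := ρ / 2 ^ (h + 1) with hρ'
  have hρ'0 : 0 < ρ' := by positivity
  have hZ := Z_pos hd ρ x
  have hZ' := Z_pos hd ρ' x
  have hZle : Z d ρ' x ≤ Z d ρ x := by
    apply Z_mono hd hρ'0
    rw [hρ']
    apply div_le_self hρ.le
    exact one_le_pow₀ (by norm_num)
  have h1 : ∑ a, (if ρ / 2 ^ h ≤ d x a then sg d ρ x a else 0) ≤
      2 * (Z d ρ x - Z d ρ' x) / Z d ρ x := by
    have e1 : 2 * (Z d ρ x - Z d ρ' x) / Z d ρ x =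
        ∑ a, 2 * (Real.exp (-(d x a / ρ)) - Real.exp (-(d x a / ρ'))) / Z d ρ x := by
      rw [← Finset.sum_div, ← Finset.mul_sum, Finset.sum_sub_distrib]
      rfl
    rw [e1]
    apply Finset.sum_le_sum
    intro a _
    have hda := hd.nonneg x a
    have hexp : Real.exp (-(d x a / ρ')) ≤ Real.exp (-(d x a / ρ)) := by
      rw [Real.exp_le_exp, neg_le_neg_iff]
      apply div_le_div_of_nonneg_left hda hρ'0
      rw [hρ']
      exact div_le_self hρ.le (one_le_pow₀ (by norm_num))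
    split_ifs with hcase
    · rw [sg]
      apply div_le_div_of_nonneg_right _ hZ.le
      -- u = d/ρ, u 2^h ≥ 1
      set u := d x a / ρ with hu
      have hu0 : 0 ≤ u := div_nonneg hda hρ.le
      have hu1 : 1 ≤ u * 2 ^ h := by
        rw [hu, div_mul_eq_mul_div, le_div_iff₀ hρ, one_mul]
        rwa [div_le_iff₀ (by positivity)] at hcase
      have hu' : d x a / ρ' = 2 * (u * 2 ^ h) := by
        rw [hρ', hu]; field_simp; ring
      have h2 : Real.exp (-(d x a / ρ')) ≤ Real.exp (-u) * Real.exp (-1) := by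
        rw [← Real.exp_add, Real.exp_le_exp, hu']
        have : u ≤ u * 2 ^ h := le_mul_of_one_le_right hu0 (one_le_pow₀ (by norm_num))
        linarith
      have h3 : Real.exp (-1) ≤ 1 / 2 := by
        rw [Real.exp_neg, ← one_div]
        apply one_div_le_one_div_of_le (by norm_num)
        have := Real.add_one_le_exp (1:ℝ)
        linarith
      have h4 := Real.exp_pos (-u)
      nlinarith
    · apply div_nonneg _ hZ.le
      linarith
  refine h1.trans ?_
  have h2 : 2 * (Z d ρ x - Z d ρ' x) / Z d ρ x = 2 * (1 - Z d ρ' x / Z d ρ x) := by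
    field_simp
  rw [h2]
  apply mul_le_mul_of_nonneg_left _ (by norm_num)
  rw [← Real.log_div hZ.ne' hZ'.ne']
  have h3 := Real.one_sub_inv_le_log_of_pos (div_pos hZ hZ')
  rwa [inv_div] at h3

end

/-! ### Telescoping along dyadic scales -/

lemma telescope_one (z : ℤ → ℝ) (hz : Monotone z) (hz0 : ∀ s, 0 ≤ z s) (T : Finset ℤ) :
    ∀ b : ℤ, (∀ s ∈ T, s < b) → ∑ s ∈ T, (z (s + 1) - z s) ≤ z b := by
  induction T using Finset.induction_on_max with
  | empty => intro b _; simpa using hz0 b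
  | insert a s hmax ih =>
    intro b hb
    have ha : a ∉ s := fun h => lt_irrefl _ (hmax a h)
    rw [Finset.sum_insert ha]
    have h1 := ih a hmax
    have h2 : a + 1 ≤ b := by
      have := hb a (Finset.mem_insert_self a s); omega
    have h3 := hz h2
    linarith

lemma telescope_le (z : ℤ → ℝ) (hz : Monotone z) (hz0 : ∀ s, 0 ≤ z s) {ℓ : ℝ}
    (hℓ : ∀ s, z s ≤ ℓ) (T : Finset ℤ) : ∑ s ∈ T, (z (s + 1) - z s) ≤ ℓ := by
  obtain ⟨b, hb⟩ : ∃ b : ℤ, ∀ s ∈ T, s < b := by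
    obtain ⟨M, hM⟩ := T.finite_toSet.bddAbove
    exact ⟨M + 1, fun s hs => by have := hM (Finset.mem_coe.2 hs); omega⟩
  exact (telescope_one z hz hz0 T b hb).trans (hℓ b)

/-- Windows of length `W`, simple increments. -/
lemma telescope_window (z : ℤ → ℝ) (hz : Monotone z) (hz0 : ∀ s, 0 ≤ z s) {ℓ : ℝ}
    (hℓ : ∀ s, z s ≤ ℓ) (W : ℕ) (T : Finset ℤ) :
    ∑ k ∈ T, ∑ j ∈ Finset.range W, (z (k * W + j + 1) - z (k * W + j)) ≤ ℓ := by
  have h1 : ∀ k : ℤ, ∑ j ∈ Finset.range W, (z (k * W + j + 1) - z (k * W + j)) =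
      z ((k + 1) * W) - z (k * W) := by
    intro k
    have := Finset.sum_range_sub (fun j : ℕ => z (k * W + j)) W
    simp only [Nat.cast_add, Nat.cast_one, Nat.cast_zero, add_zero, ← add_assoc] at this
    rw [this]
    congr 2
    ring
  simp_rw [h1]
  refine telescope_le (fun k => z (k * W)) ?_ (fun k => hz0 _) (fun k => hℓ _) T
  intro a b hab
  apply hz
  exact mul_le_mul_of_nonneg_right hab (by positivity)

/-- Windows of length `W`, increments of length `h`. -/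
lemma telescope_window' (z : ℤ → ℝ) (hz : Monotone z) (hz0 : ∀ s, 0 ≤ z s) {ℓ : ℝ}
    (hℓ : ∀ s, z s ≤ ℓ) (W h : ℕ) (T : Finset ℤ) :
    ∑ k ∈ T, ∑ j ∈ Finset.range W, (z (k * W + j) - z (k * W + j - h)) ≤ h * ℓ := by
  induction h with
  | zero => simp
  | succ h ih =>
    have h1 : ∑ k ∈ T, ∑ j ∈ Finset.range W, (z (k * W + j) - z (k * W + j - (h + 1 : ℕ))) =
        ∑ k ∈ T, ∑ j ∈ Finset.range W, (z (k * W + j) - z (k * W + j - h)) +
        ∑ k ∈ T, ∑ j ∈ Finset.range W, (z (k * W + j + 1 - (h + 1 : ℕ)) -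
          z (k * W + j - (h + 1 : ℕ))) := by
      rw [← Finset.sum_add_distrib]
      apply Finset.sum_congr rfl
      intro k _
      rw [← Finset.sum_add_distrib]
      apply Finset.sum_congr rfl
      intro j _
      have : (k * W + j + 1 - ((h + 1 : ℕ) : ℤ)) = k * W + j - h := by push_cast; ring
      rw [this]
      ring
    rw [h1]
    have h2 := telescope_window (fun s => z (s - (h + 1 : ℕ))) (fun a b hab => hz (by omega))
      (fun s => hz0 _) (fun s => hℓ _) W T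
    push_cast at h2 ih ⊢
    linarith

section

variable {ι : Type*} [Fintype ι] {d : ι → ι → ℝ}

/-- Logarithm of the partition function at the dyadic scale `2^s`. -/
noncomputable def lz (d : ι → ι → ℝ) (x : ι) (s : ℤ) : ℝ := Real.log (Z d ((2:ℝ) ^ s) x)

lemma lz_mono (hd : IsMet d) (x : ι) : Monotone (lz d x) := by
  intro a b hab
  apply Real.log_le_log (Z_pos hd _ x)
  exact Z_mono hd (by positivity) (zpow_le_zpow_right₀ (by norm_num) hab) x

lemma lz_nonneg (hd : IsMet d) (x : ι) (s : ℤ) : 0 ≤ lz d x s :=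
  Real.log_nonneg (one_le_Z hd _ x)

lemma lz_le (hd : IsMet d) (x : ι) (s : ℤ) : lz d x s ≤ Real.log (Fintype.card ι) :=
  Real.log_le_log (Z_pos hd _ x) (Z_le_card hd (by positivity) x)

lemma two_zpow_succ (s : ℤ) : (2:ℝ) ^ (s + 1) = 2 * 2 ^ s := by
  rw [zpow_add₀ (by norm_num), zpow_one]; ring

lemma mean_dist_lz (hd : IsMet d) (s : ℤ) (x : ι) :
    ∑ a, sg d ((2:ℝ) ^ s) x a * (d x a / 2 ^ s) ≤ 2 * (lz d x (s + 1) - lz d x s) := by
  have := mean_dist hd (ρ := (2:ℝ) ^ s) (by positivity) x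
  rwa [lz, lz, two_zpow_succ]

lemma moment_dist_lz (hd : IsMet d) {r : ℝ} (hr : 0 < r) (s : ℤ) (x : ι) :
    ∑ a, sg d ((2:ℝ) ^ s) x a * (d x a / 2 ^ s) ^ r ≤
      (2 * r) ^ r * Real.exp (lz d x (s + 1) - lz d x s) := by
  have := moment_dist hd (ρ := (2:ℝ) ^ s) (by positivity) hr x
  rwa [lz, lz, two_zpow_succ]

lemma far_mass_lz (hd : IsMet d) (s : ℤ) (h : ℕ) (x : ι) :
    ∑ a, (if (2:ℝ) ^ s / 2 ^ h ≤ d x a then sg d ((2:ℝ) ^ s) x a else 0) ≤
      2 * (lz d x s - lz d x (s - (h + 1 : ℕ))) := by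
  have := far_mass hd (ρ := (2:ℝ) ^ s) (by positivity) h x
  rw [lz, lz, zpow_sub₀ (by norm_num), zpow_natCast]
  exact this

lemma lz_lip (hd : IsMet d) (s : ℤ) (x y : ι) : |lz d x s - lz d y s| ≤ d x y / 2 ^ s :=
  logZ_lip hd (by positivity) x y

end

end Vale.Agent.P249.Sub
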