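import Mathlib
import Vale.Agent.P249.Norm
import Vale.Agent.P249.Kernel

/-!
# Localization at a single dyadic scale
-/

namespace Vale.Agent.P249.Sub

open Finset

section

variable {ι κ : Type*} [Fintype ι] [Fintype κ]

/-- The metric induced by the coordinates. -/
noncomputable def dist' (r : ℝ) (X : ι → κ → ℝ) (a b : ι) : ℝ := N r (fun i => X a i - X b i)

lemma isMet_dist' {r : ℝ} (hr : 1 ≤ r) (X : ι → κ → ℝ) : IsMet (dist' r X) where
  nonneg _ _ := N_nonneg _
  self x := by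
    have : (fun i => X x i - X x i) = fun _ : κ => (0:ℝ) := by ext i; simp
    rw [dist', this]
    exact N_zero (lt_of_lt_of_le one_pos hr)
  symm _ _ := N_sub_comm _ _
  tri _ _ _ := N_sub_le hr _ _ _

/-- Growth exponent at the scale `2^s`. -/
noncomputable def gr (d : ι → ι → ℝ) (s : ℤ) (x : ι) : ℝ := lz d x (s + 1) - lz d x s

lemma gr_nonneg {d : ι → ι → ℝ} (hd : IsMet d) (s : ℤ) (x : ι) : 0 ≤ gr d s x :=
  sub_nonneg.2 (lz_mono hd x (by omega))

lemma gr_lip {d : ι → ι → ℝ} (hd : IsMet d) (s : ℤ) (x y : ι) :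
    |gr d s x - gr d s y| ≤ 3 / 2 * (d x y / 2 ^ s) := by
  have h1 := lz_lip hd (s + 1) x y
  have h2 := lz_lip hd s x y
  have h3 : d x y / 2 ^ (s + 1) = 1 / 2 * (d x y / 2 ^ s) := by
    rw [two_zpow_succ]; field_simp
  rw [h3] at h1
  have h4 : gr d s x - gr d s y = (lz d x (s + 1) - lz d y (s + 1)) - (lz d x s - lz d y s) := by
    rw [gr, gr]; ring
  rw [h4]
  have h5 := abs_sub (lz d x (s + 1) - lz d y (s + 1)) (lz d x s - lz d y s)
  linarith

/-- Gate: one if the growth is at most `M`, zero if it is at least `2 M`. -/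
noncomputable def chi (d : ι → ι → ℝ) (M : ℝ) (s : ℤ) (x : ι) : ℝ :=
  max 0 (min 1 (2 - gr d s x / M))

lemma chi_nonneg (d : ι → ι → ℝ) (M : ℝ) (s : ℤ) (x : ι) : 0 ≤ chi d M s x := le_max_left _ _

lemma chi_le_one (d : ι → ι → ℝ) (M : ℝ) (s : ℤ) (x : ι) : chi d M s x ≤ 1 :=
  max_le zero_le_one (min_le_left _ _)

lemma chi_eq_one {d : ι → ι → ℝ} {M : ℝ} (hM : 0 < M) {s : ℤ} {x : ι} (h : gr d s x ≤ M) :
    chi d M s x = 1 := by
  have h1 : gr d s x / M ≤ 1 := (div_le_one hM).2 h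
  rw [chi, min_eq_left (by linarith), max_eq_right zero_le_one]

lemma chi_eq_zero {d : ι → ι → ℝ} {M : ℝ} (hM : 0 < M) {s : ℤ} {x : ι} (h : 2 * M ≤ gr d s x) :
    chi d M s x = 0 := by
  have h1 : 2 ≤ gr d s x / M := by rw [le_div_iff₀ hM]; exact h
  rw [chi]
  apply max_eq_left
  exact (min_le_right _ _).trans (by linarith)

lemma abs_max_sub_le (a b : ℝ) : |max 0 (min 1 a) - max 0 (min 1 b)| ≤ |a - b| := by
  have h1 : |max 0 (min 1 a) - max 0 (min 1 b)| ≤ |min 1 a - min 1 b| := by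
    have := abs_max_sub_max_le_abs (min 1 a) (min 1 b) 0
    rwa [max_comm 0 (min 1 a), max_comm 0 (min 1 b)]
  have h2 : |min 1 a - min 1 b| ≤ |a - b| := by
    have := abs_min_sub_min_le_max 1 a 1 b
    simpa using this
  exact h1.trans h2

lemma chi_lip {d : ι → ι → ℝ} (hd : IsMet d) {M : ℝ} (hM : 3 / 2 ≤ M) (s : ℤ) (x y : ι) :
    |chi d M s x - chi d M s y| ≤ d x y / 2 ^ s := by
  have hM0 : 0 < M := by linarith
  refine (abs_max_sub_le _ _).trans ?_
  have h1 : (2 - gr d s x / M) - (2 - gr d s y / M) = -((gr d s x - gr d s y) / M) := by ring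
  rw [h1, abs_neg, abs_div, abs_of_pos hM0, div_le_iff₀ hM0]
  refine (gr_lip hd s x y).trans ?_
  have h2 : 0 ≤ d x y / 2 ^ s := div_nonneg (hd.nonneg x y) (by positivity)
  nlinarith

/-- Localized weights. -/
noncomputable def kw (d : ι → ι → ℝ) (r M : ℝ) (s : ℤ) (x a : ι) : ℝ :=
  chi d M s x * (sg d ((2:ℝ) ^ s) x a) ^ (1 / r)

lemma kw_nonneg {d : ι → ι → ℝ} (hd : IsMet d) (r M : ℝ) (s : ℤ) (x a : ι) :
    0 ≤ kw d r M s x a :=
  mul_nonneg (chi_nonneg _ _ _ _) (Real.rpow_nonneg (sg_pos hd _ _ _).le _)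

lemma kw_rpow {d : ι → ι → ℝ} (hd : IsMet d) {r : ℝ} (hr : 0 < r) (M : ℝ) (s : ℤ) (x a : ι) :
    kw d r M s x a ^ r = chi d M s x ^ r * sg d ((2:ℝ) ^ s) x a := by
  have h := (sg_pos hd ((2:ℝ) ^ s) x a).le
  rw [kw, Real.mul_rpow (chi_nonneg _ _ _ _) (Real.rpow_nonneg h _), ← Real.rpow_mul h,
    one_div_mul_cancel hr.ne', Real.rpow_one]

lemma kw_rpow_le {d : ι → ι → ℝ} (hd : IsMet d) {r : ℝ} (hr : 0 < r) (M : ℝ) (s : ℤ) (x a : ι) :
    kw d r M s x a ^ r ≤ sg d ((2:ℝ) ^ s) x a := by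
  rw [kw_rpow hd hr]
  have h := (sg_pos hd ((2:ℝ) ^ s) x a).le
  have h1 : chi d M s x ^ r ≤ 1 := Real.rpow_le_one (chi_nonneg _ _ _ _) (chi_le_one _ _ _ _) hr.le
  nlinarith

lemma kw_lip {d : ι → ι → ℝ} (hd : IsMet d) {r M : ℝ} (hr : 1 ≤ r) (hM : 3 / 2 ≤ M) (s : ℤ)
    {x y : ι} (hxy : d x y ≤ 2 ^ s) (a : ι) :
    |kw d r M s x a - kw d r M s y a| ≤
      8 * (d x y / 2 ^ s) * (sg d ((2:ℝ) ^ s) y a) ^ (1 / r) := by
  have hρ : (0:ℝ) < 2 ^ s := by positivity
  set t := d x y / 2 ^ s with ht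
  have ht0 : 0 ≤ t := div_nonneg (hd.nonneg x y) hρ.le
  have ht1 : t ≤ 1 := (div_le_one hρ).2 hxy
  set u := (sg d ((2:ℝ) ^ s) x a) ^ (1 / r) with hu
  set v := (sg d ((2:ℝ) ^ s) y a) ^ (1 / r) with hv
  have hv0 : 0 ≤ v := Real.rpow_nonneg (sg_pos hd _ _ _).le _
  have hu0 : 0 ≤ u := Real.rpow_nonneg (sg_pos hd _ _ _).le _
  have hr0 : 0 < r := by linarith
  have h1r : 1 / r ≤ 1 := (div_le_one hr0).2 hr
  have hexp : ∀ x' y', d x' y' = d x y → (sg d ((2:ℝ) ^ s) y' a) ^ (1 / r) ≤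
      Real.exp (2 * t) * (sg d ((2:ℝ) ^ s) x' a) ^ (1 / r) := by
    intro x' y' hxy'
    have h1 := sg_ratio hd hρ x' y' a
    rw [hxy'] at h1
    have h2 := Real.rpow_le_rpow (sg_pos hd _ _ _).le h1 (one_div_nonneg.2 hr0.le)
    rw [Real.mul_rpow (Real.exp_pos _).le (sg_pos hd _ _ _).le] at h2
    refine h2.trans (mul_le_mul_of_nonneg_right ?_ (Real.rpow_nonneg (sg_pos hd _ _ _).le _))
    calc Real.exp (2 * (d x y / 2 ^ s)) ^ (1 / r) ≤ Real.exp (2 * (d x y / 2 ^ s)) ^ (1:ℝ) :=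
          Real.rpow_le_rpow_of_exponent_le (Real.one_le_exp (by positivity)) h1r
      _ = _ := Real.rpow_one _
  have hE : Real.exp (2 * t) - 1 ≤ 7 * t := exp_two_sub_one_le ht0 ht1
  have hE1 : 1 ≤ Real.exp (2 * t) := Real.one_le_exp (by positivity)
  have huv : u ≤ Real.exp (2 * t) * v := hexp y x (hd.symm y x)
  have hvu : v ≤ Real.exp (2 * t) * u := hexp x y rfl
  have hdiff : |u - v| ≤ 7 * t * v := by
    rw [abs_le]
    constructor
    · rcases le_total u v with h | h
      · have h3 : v - u ≤ (Real.exp (2 * t) - 1) * u := by linarith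
        have h4 : (Real.exp (2 * t) - 1) * u ≤ 7 * t * v := by
          apply mul_le_mul hE h hu0 (by positivity)
        linarith
      · have : 0 ≤ 7 * t * v := by positivity
        linarith
    · have h3 : u - v ≤ (Real.exp (2 * t) - 1) * v := by linarith
      have h4 : (Real.exp (2 * t) - 1) * v ≤ 7 * t * v := mul_le_mul_of_nonneg_right hE hv0
      linarith
  have hchi := chi_lip hd hM s x y
  have hc0 := chi_nonneg d M s x
  have hc1 := chi_le_one d M s x
  have hsplit : kw d r M s x a - kw d r M s y a =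
      (chi d M s x - chi d M s y) * v + chi d M s x * (u - v) := by
    rw [kw, kw]; ring
  rw [hsplit]
  refine (abs_add_le _ _).trans ?_
  rw [abs_mul, abs_mul, abs_of_nonneg hv0, abs_of_nonneg hc0]
  have h5 : |chi d M s x - chi d M s y| * v ≤ t * v := mul_le_mul_of_nonneg_right hchi hv0
  have h6 : chi d M s x * |u - v| ≤ 1 * (7 * t * v) :=
    mul_le_mul hc1 hdiff (abs_nonneg _) zero_le_one
  linarith

/-- The localized map at the scale `2^s`. -/
noncomputable def Phi (r M : ℝ) (X : ι → κ → ℝ) (s : ℤ) (x : ι) : ι × Option κ → ℝ :=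
  fun p => match p with
    | (a, some i) => kw (dist' r X) r M s x a * (X x i - X a i)
    | (a, none) => kw (dist' r X) r M s x a * ((4 * M + 1) * 2 ^ s)

lemma sum_opt (f : ι × Option κ → ℝ) :
    ∑ p, f p = ∑ a, (f (a, none) + ∑ i, f (a, some i)) := by
  rw [Fintype.sum_prod_type]
  apply Finset.sum_congr rfl
  intro a _
  rw [Fintype.sum_option]

/-- Bound for the localized map, in power form. -/
noncomputable def cB (r M : ℝ) : ℝ := (2 * r) ^ r * Real.exp (2 * M + 2) + (4 * M + 1) ^ r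

lemma cB_pos {r M : ℝ} (hr : 0 < r) (hM : 0 < M) : 0 < cB r M := by
  rw [cB]; positivity

lemma Phi_bound {r M : ℝ} (hr : 1 ≤ r) (hM : 3 / 2 ≤ M) (X : ι → κ → ℝ) (s : ℤ) (x : ι) :
    ∑ p, |Phi r M X s x p| ^ r ≤ cB r M * ((2:ℝ) ^ s) ^ r := by
  have hr0 : 0 < r := by linarith
  have hM0 : 0 < M := by linarith
  have hd := isMet_dist' hr X
  set d := dist' r X with hdd
  have hρ : (0:ℝ) < 2 ^ s := by positivity
  have hρr : (0:ℝ) < ((2:ℝ) ^ s) ^ r := by positivity
  rw [sum_opt]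
  have h1 : ∀ a, |Phi r M X s x (a, none)| ^ r + ∑ i, |Phi r M X s x (a, some i)| ^ r =
      kw d r M s x a ^ r * (((4 * M + 1) * 2 ^ s) ^ r + d x a ^ r) := by
    intro a
    have hk := kw_nonneg hd r M s x a
    have e1 : |Phi r M X s x (a, none)| ^ r = kw d r M s x a ^ r * ((4 * M + 1) * 2 ^ s) ^ r := by
      simp only [Phi]
      rw [← hdd, abs_mul, abs_of_nonneg hk, abs_of_nonneg (by positivity),
        Real.mul_rpow hk (by positivity)]
    have e2 : ∑ i, |Phi r M X s x (a, some i)| ^ r = kw d r M s x a ^ r * d x a ^ r := by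
      have e3 : d x a ^ r = ∑ i, |X x i - X a i| ^ r := N_rpow hr0 _
      rw [e3, Finset.mul_sum]
      apply Finset.sum_congr rfl
      intro i _
      simp only [Phi]
      rw [← hdd, abs_mul, abs_of_nonneg hk, Real.mul_rpow hk (abs_nonneg _)]
    rw [e1, e2]; ring
  simp_rw [h1]
  by_cases hg : 2 * M ≤ gr d s x
  · have h0 : ∀ a, kw d r M s x a = 0 := by
      intro a; rw [kw, chi_eq_zero hM0 hg, zero_mul]
    simp only [h0, Real.zero_rpow hr0.ne', zero_mul, Finset.sum_const_zero]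
    exact mul_nonneg (cB_pos hr0 hM0).le hρr.le
  · push Not at hg
    have h2 : ∀ a, kw d r M s x a ^ r * (((4 * M + 1) * 2 ^ s) ^ r + d x a ^ r) ≤
        sg d ((2:ℝ) ^ s) x a * (4 * M + 1) ^ r * ((2:ℝ) ^ s) ^ r +
          (sg d ((2:ℝ) ^ s) x a * (d x a / 2 ^ s) ^ r) * ((2:ℝ) ^ s) ^ r := by
      intro a
      have hk := kw_rpow_le hd hr0 M s x a
      have e1 : d x a ^ r = (d x a / 2 ^ s) ^ r * ((2:ℝ) ^ s) ^ r := by
        rw [← Real.mul_rpow (div_nonneg (hd.nonneg _ _) hρ.le) hρ.le]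
        congr 1
        field_simp
      have e2 : ((4 * M + 1) * (2:ℝ) ^ s) ^ r = (4 * M + 1) ^ r * ((2:ℝ) ^ s) ^ r :=
        Real.mul_rpow (by positivity) hρ.le
      rw [e1, e2]
      have h3 : 0 ≤ (4 * M + 1) ^ r * ((2:ℝ) ^ s) ^ r + (d x a / 2 ^ s) ^ r * ((2:ℝ) ^ s) ^ r := by
        have := div_nonneg (hd.nonneg x a) hρ.le
        positivity
      calc _ ≤ sg d ((2:ℝ) ^ s) x a * ((4 * M + 1) ^ r * ((2:ℝ) ^ s) ^ r +
            (d x a / 2 ^ s) ^ r * ((2:ℝ) ^ s) ^ r) := mul_le_mul_of_nonneg_right hk h3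
        _ = _ := by ring
    refine (Finset.sum_le_sum (fun a _ => h2 a)).trans ?_
    rw [Finset.sum_add_distrib, ← Finset.sum_mul, ← Finset.sum_mul, ← Finset.sum_mul,
      sum_sg hd, one_mul]
    have h4 := moment_dist_lz hd hr0 s x
    have h5 : Real.exp (lz d x (s + 1) - lz d x s) ≤ Real.exp (2 * M + 2) := by
      rw [Real.exp_le_exp]
      have : gr d s x = lz d x (s + 1) - lz d x s := rfl
      linarith
    have h6 : ∑ a, sg d ((2:ℝ) ^ s) x a * (d x a / 2 ^ s) ^ r ≤
        (2 * r) ^ r * Real.exp (2 * M + 2) :=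
      h4.trans (mul_le_mul_of_nonneg_left h5 (by positivity))
    rw [cB]
    nlinarith

/-- Lipschitz constant of the localized map, in power form. -/
noncomputable def cL (r M : ℝ) : ℝ :=
  2 ^ r * (1 + 8 ^ r * (2 * r) ^ r * Real.exp (2 * M + 2)) + 8 ^ r * (4 * M + 1) ^ r +
    2 * 2 ^ r * cB r M

lemma cL_pos {r M : ℝ} (hr : 0 < r) (hM : 0 < M) : 0 < cL r M := by
  have := cB_pos hr hM
  rw [cL]; positivity

lemma Phi_lip {r M : ℝ} (hr : 1 ≤ r) (hM : 3 / 2 ≤ M) (X : ι → κ → ℝ) (s : ℤ) (x y : ι) :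
    ∑ p, |Phi r M X s x p - Phi r M X s y p| ^ r ≤ cL r M * dist' r X x y ^ r := by
  have hr0 : 0 < r := by linarith
  have hM0 : 0 < M := by linarith
  have hd := isMet_dist' hr X
  set d := dist' r X with hdd
  have hρ : (0:ℝ) < 2 ^ s := by positivity
  have hρr : (0:ℝ) < ((2:ℝ) ^ s) ^ r := by positivity
  have hdn := hd.nonneg x y
  have hcB := cB_pos hr0 hM0
  have hdr : 0 ≤ d x y ^ r := Real.rpow_nonneg hdn _
  have hE : 0 < Real.exp (2 * M + 2) := Real.exp_pos _
  have h2r : (0:ℝ) < 2 ^ r := by positivity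
  rcases lt_or_ge ((2:ℝ) ^ s) (d x y) with hbig | hsmall
  · -- far apart
    have h1 : ∑ p, |Phi r M X s x p - Phi r M X s y p| ^ r ≤
        ∑ p, 2 ^ r * (|Phi r M X s x p| ^ r + |Phi r M X s y p| ^ r) := by
      apply Finset.sum_le_sum
      intro p _
      calc |Phi r M X s x p - Phi r M X s y p| ^ r
          ≤ (|Phi r M X s x p| + |Phi r M X s y p|) ^ r :=
            Real.rpow_le_rpow (abs_nonneg _) (abs_sub _ _) hr0.le
        _ ≤ _ := rpow_add_le hr0.le (abs_nonneg _) (abs_nonneg _)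
    rw [← Finset.mul_sum, Finset.sum_add_distrib] at h1
    have h2 := Phi_bound hr hM X s x
    have h3 := Phi_bound hr hM X s y
    have h4 : ((2:ℝ) ^ s) ^ r ≤ d x y ^ r := Real.rpow_le_rpow hρ.le hbig.le hr0.le
    have h5 : cB r M * ((2:ℝ) ^ s) ^ r ≤ cB r M * d x y ^ r := mul_le_mul_of_nonneg_left h4 hcB.le
    have h6 : 2 * 2 ^ r * cB r M ≤ cL r M := by
      rw [cL]
      have : (0:ℝ) ≤ 2 ^ r * (1 + 8 ^ r * (2 * r) ^ r * Real.exp (2 * M + 2)) := by positivity
      have : (0:ℝ) ≤ 8 ^ r * (4 * M + 1) ^ r := by positivity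
      linarith
    calc _ ≤ 2 ^ r * (∑ p, |Phi r M X s x p| ^ r + ∑ p, |Phi r M X s y p| ^ r) := h1
      _ ≤ 2 ^ r * (cB r M * d x y ^ r + cB r M * d x y ^ r) := by
          apply mul_le_mul_of_nonneg_left _ h2r.le
          linarith
      _ = (2 * 2 ^ r * cB r M) * d x y ^ r := by ring
      _ ≤ _ := mul_le_mul_of_nonneg_right h6 hdr
  · -- close
    set t := d x y / 2 ^ s with ht
    have ht0 : 0 ≤ t := div_nonneg hdn hρ.le
    have ht1 : t ≤ 1 := (div_le_one hρ).2 hsmall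
    by_cases hg : 2 * M ≤ gr d s x ∧ 2 * M ≤ gr d s y
    · have h0 : ∀ p, Phi r M X s x p - Phi r M X s y p = 0 := by
        rintro ⟨a, _ | i⟩
        · simp only [Phi]
          rw [← hdd, kw, kw, chi_eq_zero hM0 hg.1, chi_eq_zero hM0 hg.2]; ring
        · simp only [Phi]
          rw [← hdd, kw, kw, chi_eq_zero hM0 hg.1, chi_eq_zero hM0 hg.2]; ring
      simp only [h0, abs_zero, Real.zero_rpow hr0.ne', Finset.sum_const_zero]
      exact mul_nonneg (cL_pos hr0 hM0).le hdr
    · have hgl := gr_lip hd s x y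
      rw [← ht] at hgl
      have hgy : gr d s y ≤ 2 * M + 2 := by
        rw [abs_le] at hgl
        by_contra hcon
        push Not at hcon
        apply hg
        constructor <;> nlinarith [hgl.1, hgl.2]
      -- pointwise difference of the weights
      have hK : ∀ a, |kw d r M s x a - kw d r M s y a| ^ r ≤
          8 ^ r * t ^ r * sg d ((2:ℝ) ^ s) y a := by
        intro a
        have h1 := kw_lip hd hr hM s hsmall a
        rw [← ht] at h1
        have hs := (sg_pos hd ((2:ℝ) ^ s) y a).le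
        have h2 := Real.rpow_le_rpow (abs_nonneg _) h1 hr0.le
        rwa [Real.mul_rpow (by positivity) (Real.rpow_nonneg hs _),
          Real.mul_rpow (by norm_num) ht0, ← Real.rpow_mul hs, one_div_mul_cancel hr0.ne',
          Real.rpow_one] at h2
      rw [sum_opt]
      have h1 : ∀ a, |Phi r M X s x (a, none) - Phi r M X s y (a, none)| ^ r +
          ∑ i, |Phi r M X s x (a, some i) - Phi r M X s y (a, some i)| ^ r ≤
          8 ^ r * t ^ r * sg d ((2:ℝ) ^ s) y a * ((4 * M + 1) ^ r * ((2:ℝ) ^ s) ^ r) +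
          2 ^ r * (sg d ((2:ℝ) ^ s) x a * d x y ^ r +
            8 ^ r * t ^ r * (sg d ((2:ℝ) ^ s) y a * (d y a / 2 ^ s) ^ r) *
              ((2:ℝ) ^ s) ^ r) := by
        intro a
        set A := kw d r M s x a with hA
        set B := kw d r M s y a with hB
        have hA0 : 0 ≤ A := kw_nonneg hd _ _ _ _ _
        have e1 : |Phi r M X s x (a, none) - Phi r M X s y (a, none)| ^ r =
            |A - B| ^ r * ((4 * M + 1) ^ r * ((2:ℝ) ^ s) ^ r) := by
          simp only [Phi]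
          rw [← hdd, ← hA, ← hB, ← sub_mul, abs_mul, abs_of_nonneg (a := (4 * M + 1) * (2:ℝ) ^ s)
            (by positivity), Real.mul_rpow (abs_nonneg _) (by positivity),
            Real.mul_rpow (by positivity) hρ.le]
        have e2 : ∑ i, |Phi r M X s x (a, some i) - Phi r M X s y (a, some i)| ^ r ≤
            2 ^ r * (A ^ r * d x y ^ r + |A - B| ^ r * d y a ^ r) := by
          have e3 : d x y ^ r = ∑ i, |X x i - X y i| ^ r := N_rpow hr0 _
          have e4 : d y a ^ r = ∑ i, |X y i - X a i| ^ r := N_rpow hr0 _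
          rw [e3, e4, Finset.mul_sum, Finset.mul_sum, ← Finset.sum_add_distrib, Finset.mul_sum]
          apply Finset.sum_le_sum
          intro i _
          simp only [Phi]
          rw [← hdd, ← hA, ← hB]
          have e5 : A * (X x i - X a i) - B * (X y i - X a i) =
              A * (X x i - X y i) + (A - B) * (X y i - X a i) := by ring
          rw [e5]
          calc |A * (X x i - X y i) + (A - B) * (X y i - X a i)| ^ r
              ≤ (|A * (X x i - X y i)| + |(A - B) * (X y i - X a i)|) ^ r :=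
                Real.rpow_le_rpow (abs_nonneg _) (abs_add_le _ _) hr0.le
            _ ≤ 2 ^ r * (|A * (X x i - X y i)| ^ r + |(A - B) * (X y i - X a i)| ^ r) :=
                rpow_add_le hr0.le (abs_nonneg _) (abs_nonneg _)
            _ = _ := by
                rw [abs_mul, abs_mul, Real.mul_rpow (abs_nonneg _) (abs_nonneg _),
                  Real.mul_rpow (abs_nonneg _) (abs_nonneg _), abs_of_nonneg hA0]
        have hKa := hK a
        rw [← hA, ← hB] at hKa
        have hAr : A ^ r ≤ sg d ((2:ℝ) ^ s) x a := kw_rpow_le hd hr0 M s x a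
        have e6 : d y a ^ r = (d y a / 2 ^ s) ^ r * ((2:ℝ) ^ s) ^ r := by
          rw [← Real.mul_rpow (div_nonneg (hd.nonneg _ _) hρ.le) hρ.le]
          congr 1
          field_simp
        have hdya : 0 ≤ d y a ^ r := Real.rpow_nonneg (hd.nonneg _ _) _
        rw [e1]
        apply add_le_add
        · exact mul_le_mul_of_nonneg_right hKa (by positivity)
        · refine e2.trans (mul_le_mul_of_nonneg_left ?_ h2r.le)
          apply add_le_add
          · exact mul_le_mul_of_nonneg_right hAr hdr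
          · calc |A - B| ^ r * d y a ^ r ≤ (8 ^ r * t ^ r * sg d ((2:ℝ) ^ s) y a) * d y a ^ r :=
                  mul_le_mul_of_nonneg_right hKa hdya
              _ = _ := by rw [e6]; ring
      refine (Finset.sum_le_sum (fun a _ => h1 a)).trans ?_
      rw [Finset.sum_add_distrib, ← Finset.sum_mul, ← Finset.mul_sum, ← Finset.mul_sum,
        Finset.sum_add_distrib, ← Finset.sum_mul, ← Finset.sum_mul, ← Finset.mul_sum,
        sum_sg hd, sum_sg hd]
      have h4 := moment_dist_lz hd hr0 s y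
      have h5 : Real.exp (lz d y (s + 1) - lz d y s) ≤ Real.exp (2 * M + 2) := by
        rw [Real.exp_le_exp]; exact hgy
      have h6 : ∑ a, sg d ((2:ℝ) ^ s) y a * (d y a / 2 ^ s) ^ r ≤
          (2 * r) ^ r * Real.exp (2 * M + 2) :=
        h4.trans (mul_le_mul_of_nonneg_left h5 (by positivity))
      have h7 : t ^ r * ((2:ℝ) ^ s) ^ r = d x y ^ r := by
        rw [← Real.mul_rpow ht0 hρ.le, ht]
        congr 1
        field_simp
      have h8 : (8:ℝ) ^ r * t ^ r * (∑ a, sg d ((2:ℝ) ^ s) y a * (d y a / 2 ^ s) ^ r) *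
          ((2:ℝ) ^ s) ^ r ≤ 8 ^ r * ((2 * r) ^ r * Real.exp (2 * M + 2)) * d x y ^ r := by
        calc _ = 8 ^ r * (∑ a, sg d ((2:ℝ) ^ s) y a * (d y a / 2 ^ s) ^ r) *
              (t ^ r * ((2:ℝ) ^ s) ^ r) := by ring
          _ = 8 ^ r * (∑ a, sg d ((2:ℝ) ^ s) y a * (d y a / 2 ^ s) ^ r) * d x y ^ r := by rw [h7]
          _ ≤ _ := by
              apply mul_le_mul_of_nonneg_right _ hdr
              exact mul_le_mul_of_nonneg_left h6 (by positivity)
      have h9 : (8:ℝ) ^ r * t ^ r * 1 * ((4 * M + 1) ^ r * ((2:ℝ) ^ s) ^ r) =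
          8 ^ r * (4 * M + 1) ^ r * d x y ^ r := by
        rw [← h7]; ring
      rw [h9, one_mul]
      have h10 : 0 ≤ 2 * 2 ^ r * cB r M * d x y ^ r := by positivity
      rw [cL]
      nlinarith [mul_le_mul_of_nonneg_left h8 h2r.le]

/-- Lower bound at scales with moderate growth. -/
lemma Phi_lower {r M : ℝ} (hr : 1 ≤ r) (hM : 3 / 2 ≤ M) (X : ι → κ → ℝ) (s : ℤ) (x y : ι)
    (hxy : dist' r X x y ≤ 2 ^ s) (hg : gr (dist' r X) s x ≤ M) :
    dist' r X x y ^ r / (2 * 2 ^ r) ≤ ∑ p, |Phi r M X s x p - Phi r M X s y p| ^ r := by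
  classical
  have hr0 : 0 < r := by linarith
  have hM0 : 0 < M := by linarith
  have hd := isMet_dist' hr X
  set d := dist' r X with hdd
  have hρ : (0:ℝ) < 2 ^ s := by positivity
  have hdn := hd.nonneg x y
  have hdr : 0 ≤ d x y ^ r := Real.rpow_nonneg hdn _
  have h2r : (0:ℝ) < 2 ^ r := by positivity
  -- mass of the near points
  have hmass : 1 / 2 ≤ ∑ a, (if d y a ≤ (4 * M + 1) * 2 ^ s then sg d ((2:ℝ) ^ s) x a else 0) := by
    have h1 := mean_dist_lz hd s x
    have h2 : ∀ a, sg d ((2:ℝ) ^ s) x a - sg d ((2:ℝ) ^ s) x a * (d x a / 2 ^ s) / (4 * M) ≤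
        (if d y a ≤ (4 * M + 1) * 2 ^ s then sg d ((2:ℝ) ^ s) x a else 0) := by
      intro a
      have hs := (sg_pos hd ((2:ℝ) ^ s) x a).le
      have hda : 0 ≤ d x a / 2 ^ s := div_nonneg (hd.nonneg _ _) hρ.le
      split_ifs with hc
      · have : 0 ≤ sg d ((2:ℝ) ^ s) x a * (d x a / 2 ^ s) / (4 * M) := by positivity
        linarith
      · push Not at hc
        have h3 : 4 * M ≤ d x a / 2 ^ s := by
          rw [le_div_iff₀ hρ]
          have h4 : d y a ≤ d y x + d x a := hd.tri y x a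
          rw [hd.symm y x] at h4
          nlinarith
        have h5 : 1 ≤ d x a / 2 ^ s / (4 * M) := by
          rw [le_div_iff₀ (by positivity), one_mul]; exact h3
        have h6 : sg d ((2:ℝ) ^ s) x a * (d x a / 2 ^ s) / (4 * M) =
            sg d ((2:ℝ) ^ s) x a * (d x a / 2 ^ s / (4 * M)) := by ring
        rw [h6]
        nlinarith
    refine le_trans ?_ (Finset.sum_le_sum (fun a _ => h2 a))
    rw [Finset.sum_sub_distrib, sum_sg hd, ← Finset.sum_div]
    have h7 : (∑ a, sg d ((2:ℝ) ^ s) x a * (d x a / 2 ^ s)) / (4 * M) ≤ 2 * M / (4 * M) := by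
      apply div_le_div_of_nonneg_right _ (by positivity)
      refine h1.trans ?_
      have : gr d s x = lz d x (s + 1) - lz d x s := rfl
      linarith
    have h8 : 2 * M / (4 * M) = 1 / 2 := by field_simp; norm_num
    rw [h8] at h7
    linarith
  rw [sum_opt]
  have hkey : ∀ a, (if d y a ≤ (4 * M + 1) * 2 ^ s then sg d ((2:ℝ) ^ s) x a else 0) *
      (d x y ^ r / 2 ^ r) ≤ |Phi r M X s x (a, none) - Phi r M X s y (a, none)| ^ r +
          ∑ i, |Phi r M X s x (a, some i) - Phi r M X s y (a, some i)| ^ r := by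
    intro a
    have hnn : 0 ≤ |Phi r M X s x (a, none) - Phi r M X s y (a, none)| ^ r +
          ∑ i, |Phi r M X s x (a, some i) - Phi r M X s y (a, some i)| ^ r := by positivity
    split_ifs with hc
    swap
    · simpa using hnn
    set A := kw d r M s x a with hA
    set B := kw d r M s y a with hB
    have hA0 : 0 ≤ A := kw_nonneg hd _ _ _ _ _
    have hAr : A ^ r = sg d ((2:ℝ) ^ s) x a := by
      rw [hA, kw_rpow hd hr0, chi_eq_one hM0 hg, Real.one_rpow, one_mul]
    have e1 : |Phi r M X s x (a, none) - Phi r M X s y (a, none)| ^ r =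
        |A - B| ^ r * ((4 * M + 1) * (2:ℝ) ^ s) ^ r := by
      simp only [Phi]
      rw [← hdd, ← hA, ← hB, ← sub_mul, abs_mul, abs_of_nonneg (a := (4 * M + 1) * (2:ℝ) ^ s)
        (by positivity), Real.mul_rpow (abs_nonneg _) (by positivity)]
    have e2 : A ^ r * d x y ^ r ≤
        2 ^ r * (∑ i, |Phi r M X s x (a, some i) - Phi r M X s y (a, some i)| ^ r +
          |A - B| ^ r * d y a ^ r) := by
      have e3 : d x y ^ r = ∑ i, |X x i - X y i| ^ r := N_rpow hr0 _
      have e4 : d y a ^ r = ∑ i, |X y i - X a i| ^ r := N_rpow hr0 _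
      rw [e3, e4, Finset.mul_sum, Finset.mul_sum, ← Finset.sum_add_distrib, Finset.mul_sum]
      apply Finset.sum_le_sum
      intro i _
      simp only [Phi]
      rw [← hdd, ← hA, ← hB]
      have e5 : A * (X x i - X y i) = (A * (X x i - X a i) - B * (X y i - X a i)) +
          (-((A - B) * (X y i - X a i))) := by ring
      calc A ^ r * |X x i - X y i| ^ r = |A * (X x i - X y i)| ^ r := by
            rw [abs_mul, Real.mul_rpow (abs_nonneg _) (abs_nonneg _), abs_of_nonneg hA0]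
        _ ≤ (|A * (X x i - X a i) - B * (X y i - X a i)| + |(A - B) * (X y i - X a i)|) ^ r := by
            rw [e5]
            refine Real.rpow_le_rpow (abs_nonneg _) ((abs_add_le _ _).trans ?_) hr0.le
            rw [abs_neg]
        _ ≤ 2 ^ r * (|A * (X x i - X a i) - B * (X y i - X a i)| ^ r +
              |(A - B) * (X y i - X a i)| ^ r) :=
            rpow_add_le hr0.le (abs_nonneg _) (abs_nonneg _)
        _ = _ := by
            rw [abs_mul (A - B), Real.mul_rpow (abs_nonneg _) (abs_nonneg _)]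
    have e7 : |A - B| ^ r * d y a ^ r ≤ |A - B| ^ r * ((4 * M + 1) * (2:ℝ) ^ s) ^ r := by
      apply mul_le_mul_of_nonneg_left _ (by positivity)
      exact Real.rpow_le_rpow (hd.nonneg _ _) hc hr0.le
    rw [e1, ← hAr]
    have e8 : A ^ r * (d x y ^ r / 2 ^ r) = (A ^ r * d x y ^ r) / 2 ^ r := by ring
    rw [e8, div_le_iff₀ h2r]
    nlinarith
  refine le_trans ?_ (Finset.sum_le_sum (fun a _ => hkey a))
  rw [← Finset.sum_mul]
  have h9 : 0 ≤ d x y ^ r / 2 ^ r := by positivity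
  calc d x y ^ r / (2 * 2 ^ r) = 1 / 2 * (d x y ^ r / 2 ^ r) := by ring
    _ ≤ _ := mul_le_mul_of_nonneg_right hmass h9

end

end Vale.Agent.P249.Sub
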