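import Mathlib
import Vale.Agent.P249.Localize

/-!
# Averaging the localized maps over a window of scales
-/

namespace Vale.Agent.P249.Sub

open Finset

section

variable {ι κ : Type*} [Fintype ι] [Fintype κ]

/-- The localized map averaged over the window `[k W, (k + 1) W)` of scales. -/
noncomputable def PhiW (r M : ℝ) (X : ι → κ → ℝ) (W : ℕ) (k : ℤ) (x : ι) :
    Fin W × (ι × Option κ) → ℝ :=
  fun p => (W:ℝ) ^ (-(1 / r)) * Phi r M X (k * W + (p.1 : ℕ)) x p.2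

lemma W_rpow {W : ℕ} (hW : 0 < W) {r : ℝ} (hr : 0 < r) : ((W:ℝ) ^ (-(1 / r))) ^ r = 1 / W := by
  have hW' : (0:ℝ) < W := by exact_mod_cast hW
  rw [← Real.rpow_mul hW'.le]
  have : -(1 / r) * r = -1 := by field_simp
  rw [this, Real.rpow_neg_one, one_div]

lemma sum_window {W : ℕ} (hW : 0 < W) {r : ℝ} (hr : 0 < r) {Q : Type*} [Fintype Q]
    (F : Fin W → Q → ℝ) :
    ∑ p : Fin W × Q, |(W:ℝ) ^ (-(1 / r)) * F p.1 p.2| ^ r =
      1 / W * ∑ j : Fin W, ∑ q, |F j q| ^ r := by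
  rw [Fintype.sum_prod_type, Finset.mul_sum]
  apply Finset.sum_congr rfl
  intro j _
  rw [Finset.mul_sum]
  apply Finset.sum_congr rfl
  intro q _
  rw [abs_mul, Real.mul_rpow (abs_nonneg _) (abs_nonneg _),
    abs_of_nonneg (Real.rpow_nonneg (Nat.cast_nonneg W) _), W_rpow hW hr]

lemma zpow_window_le {W : ℕ} (k : ℤ) (j : Fin W) :
    (2:ℝ) ^ (k * W + ((j : ℕ) : ℤ)) ≤ 2 ^ ((k + 1) * W) := by
  apply zpow_le_zpow_right₀ (by norm_num)
  have := j.2
  have h : ((j : ℕ) : ℤ) ≤ (W : ℤ) := by exact_mod_cast this.le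
  linarith [add_mul k 1 (W:ℤ)]

lemma zpow_window_ge {W : ℕ} (k : ℤ) (j : Fin W) :
    (2:ℝ) ^ (k * W) ≤ 2 ^ (k * W + ((j : ℕ) : ℤ)) := by
  apply zpow_le_zpow_right₀ (by norm_num)
  have h : (0 : ℤ) ≤ ((j : ℕ) : ℤ) := by positivity
  linarith

lemma PhiW_bound {r M : ℝ} (hr : 1 ≤ r) (hM : 3 / 2 ≤ M) (X : ι → κ → ℝ) {W : ℕ} (hW : 0 < W)
    (k : ℤ) (x : ι) :
    N r (PhiW r M X W k x) ≤ cB r M ^ (1 / r) * 2 ^ ((k + 1) * (W : ℤ)) := by
  have hr0 : 0 < r := by linarith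
  have hM0 : 0 < M := by linarith
  have hcB := cB_pos hr0 hM0
  have hWr : (0:ℝ) < W := by exact_mod_cast hW
  have h2 : (0:ℝ) < 2 ^ ((k + 1) * (W : ℤ)) := by positivity
  apply N_le_of_sum_le hr0 (by positivity)
  rw [Real.mul_rpow (by positivity) h2.le, ← Real.rpow_mul hcB.le, one_div_mul_cancel hr0.ne',
    Real.rpow_one]
  have h1 := sum_window hW hr0 (fun (j : Fin W) q => Phi r M X (k * W + ((j : ℕ) : ℤ)) x q)
  simp only [PhiW]
  rw [h1, one_div, inv_mul_le_iff₀ hWr]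
  calc ∑ j : Fin W, ∑ q, |Phi r M X (k * W + ((j : ℕ) : ℤ)) x q| ^ r
      ≤ ∑ j : Fin W, cB r M * ((2:ℝ) ^ ((k + 1) * (W : ℤ))) ^ r := by
        apply Finset.sum_le_sum
        intro j _
        refine (Phi_bound hr hM X _ x).trans ?_
        apply mul_le_mul_of_nonneg_left _ hcB.le
        exact Real.rpow_le_rpow (by positivity) (zpow_window_le k j) hr0.le
    _ = _ := by rw [Finset.sum_const, Finset.card_univ, Fintype.card_fin, nsmul_eq_mul]

lemma PhiW_lip {r M : ℝ} (hr : 1 ≤ r) (hM : 3 / 2 ≤ M) (X : ι → κ → ℝ) {W : ℕ} (hW : 0 < W)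
    (k : ℤ) (x y : ι) :
    N r (fun p => PhiW r M X W k x p - PhiW r M X W k y p) ≤ cL r M ^ (1 / r) * dist' r X x y := by
  have hr0 : 0 < r := by linarith
  have hM0 : 0 < M := by linarith
  have hcL := cL_pos hr0 hM0
  have hWr : (0:ℝ) < W := by exact_mod_cast hW
  have hd := isMet_dist' hr X
  have hdn := hd.nonneg x y
  apply N_le_of_sum_le hr0 (by positivity)
  rw [Real.mul_rpow (by positivity) hdn, ← Real.rpow_mul hcL.le, one_div_mul_cancel hr0.ne',
    Real.rpow_one]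
  have h1 := sum_window hW hr0 (fun (j : Fin W) q => Phi r M X (k * W + ((j : ℕ) : ℤ)) x q -
    Phi r M X (k * W + ((j : ℕ) : ℤ)) y q)
  simp only [PhiW, ← mul_sub]
  rw [h1, one_div, inv_mul_le_iff₀ hWr]
  calc _ ≤ ∑ j : Fin W, cL r M * dist' r X x y ^ r := by
        apply Finset.sum_le_sum
        intro j _
        exact Phi_lip hr hM X _ x y
    _ = _ := by rw [Finset.sum_const, Finset.card_univ, Fintype.card_fin, nsmul_eq_mul]

lemma sum_gr_window {d : ι → ι → ℝ} (hd : IsMet d) (W : ℕ) (k : ℤ) (x : ι) :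
    ∑ j : Fin W, gr d (k * W + ((j : ℕ) : ℤ)) x ≤ Real.log (Fintype.card ι) := by
  have h1 := telescope_window (lz d x) (lz_mono hd x) (lz_nonneg hd x) (lz_le hd x) W {k}
  rw [Finset.sum_singleton] at h1
  rw [← Fin.sum_univ_eq_sum_range (fun j : ℕ => lz d x (k * W + j + 1) - lz d x (k * W + j))] at h1
  exact h1

lemma PhiW_lower {r M : ℝ} (hr : 1 ≤ r) (hM : 3 / 2 ≤ M) (X : ι → κ → ℝ) {W : ℕ} (hW : 0 < W)
    (hlog : 2 * Real.log (Fintype.card ι) ≤ M * W) (k : ℤ) (x y : ι)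
    (hxy : dist' r X x y ≤ 2 ^ (k * (W : ℤ))) :
    dist' r X x y / 8 ≤ N r (fun p => PhiW r M X W k x p - PhiW r M X W k y p) := by
  classical
  have hr0 : 0 < r := by linarith
  have hM0 : 0 < M := by linarith
  have hWr : (0:ℝ) < W := by exact_mod_cast hW
  have hd := isMet_dist' hr X
  set d := dist' r X with hdd
  have hdn := hd.nonneg x y
  have h2r : (0:ℝ) < 2 ^ r := by positivity
  apply le_N_of_le_sum hr0 (by positivity)
  have h1 := sum_window hW hr0 (fun (j : Fin W) q => Phi r M X (k * W + ((j : ℕ) : ℤ)) x q -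
    Phi r M X (k * W + ((j : ℕ) : ℤ)) y q)
  simp only [PhiW, ← mul_sub]
  rw [h1]
  -- the number of good scales
  have hcount : (W:ℝ) / 2 ≤
      ∑ j : Fin W, (if gr d (k * W + ((j : ℕ) : ℤ)) x ≤ M then (1:ℝ) else 0) := by
    have h2 : ∀ j : Fin W, 1 - gr d (k * W + ((j : ℕ) : ℤ)) x / M ≤
        (if gr d (k * W + ((j : ℕ) : ℤ)) x ≤ M then (1:ℝ) else 0) := by
      intro j
      have h3 := gr_nonneg hd (k * W + ((j : ℕ) : ℤ)) x
      split_ifs with hc
      · have : 0 ≤ gr d (k * W + ((j : ℕ) : ℤ)) x / M := by positivity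
        linarith
      · push Not at hc
        have : 1 ≤ gr d (k * W + ((j : ℕ) : ℤ)) x / M := by rw [le_div_iff₀ hM0]; linarith
        linarith
    refine le_trans ?_ (Finset.sum_le_sum (fun j _ => h2 j))
    rw [Finset.sum_sub_distrib, ← Finset.sum_div, Finset.sum_const, Finset.card_univ,
      Fintype.card_fin, nsmul_eq_mul, mul_one]
    have h4 := sum_gr_window hd W k x
    have h5 : (∑ j : Fin W, gr d (k * W + ((j : ℕ) : ℤ)) x) / M ≤ W / 2 := by
      rw [div_le_iff₀ hM0]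
      nlinarith
    linarith
  have hterm : ∀ j : Fin W, (if gr d (k * W + ((j : ℕ) : ℤ)) x ≤ M then (1:ℝ) else 0) *
      (d x y ^ r / (2 * 2 ^ r)) ≤ ∑ q, |Phi r M X (k * W + ((j : ℕ) : ℤ)) x q -
        Phi r M X (k * W + ((j : ℕ) : ℤ)) y q| ^ r := by
    intro j
    split_ifs with hc
    · rw [one_mul]
      exact Phi_lower hr hM X _ x y (hxy.trans (zpow_window_ge k j)) hc
    · rw [zero_mul]
      exact Finset.sum_nonneg (fun _ _ => Real.rpow_nonneg (abs_nonneg _) _)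
  have hdr : 0 ≤ d x y ^ r / (2 * 2 ^ r) := by positivity
  have h8 : (d x y / 8) ^ r ≤ 1 / W * (W / 2 * (d x y ^ r / (2 * 2 ^ r))) := by
    have e1 : 1 / (W:ℝ) * (W / 2 * (d x y ^ r / (2 * 2 ^ r))) = d x y ^ r / (4 * 2 ^ r) := by
      field_simp
      norm_num
      ring
    rw [e1, Real.div_rpow hdn (by norm_num)]
    apply div_le_div_of_nonneg_left (by positivity) (by positivity)
    have e2 : (8:ℝ) ^ r = 4 ^ r * 2 ^ r := by
      rw [← Real.mul_rpow (by norm_num) (by norm_num)]; norm_num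
    rw [e2]
    apply mul_le_mul_of_nonneg_right _ h2r.le
    calc (4:ℝ) = 4 ^ (1:ℝ) := (Real.rpow_one _).symm
      _ ≤ 4 ^ r := Real.rpow_le_rpow_of_exponent_le (by norm_num) hr
  refine h8.trans ?_
  apply mul_le_mul_of_nonneg_left _ (by positivity)
  calc _ ≤ (∑ j : Fin W, (if gr d (k * W + ((j : ℕ) : ℤ)) x ≤ M then (1:ℝ) else 0)) *
        (d x y ^ r / (2 * 2 ^ r)) := mul_le_mul_of_nonneg_right hcount hdr
    _ ≤ _ := by
        rw [Finset.sum_mul]
        exact Finset.sum_le_sum (fun j _ => hterm j)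

end

end Vale.Agent.P249.Sub
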