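import Mathlib
import Vale.Agent.P249.Window

/-!
# Smoothing with the exponential kernel, averaged over a window of scales
-/

namespace Vale.Agent.P249.Sub

open Finset

section

variable {ι J : Type*} [Fintype ι] [Fintype J] {d : ι → ι → ℝ}

/-- Smoothing at the scale `2^s`. -/
noncomputable def S1 (d : ι → ι → ℝ) (s : ℤ) (v : ι → ℝ) (x : ι) : ℝ :=
  ∑ a, sg d ((2:ℝ) ^ s) x a * v a

/-- Smoothing averaged over the window `[k W, (k + 1) W)` of scales. -/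
noncomputable def Sm (d : ι → ι → ℝ) (W : ℕ) (k : ℤ) (v : ι → ℝ) (x : ι) : ℝ :=
  1 / W * ∑ j : Fin W, S1 d (k * W + ((j : ℕ) : ℤ)) v x

lemma S1_sub_self (hd : IsMet d) (s : ℤ) (v : ι → ℝ) (x : ι) :
    S1 d s v x - v x = ∑ a, sg d ((2:ℝ) ^ s) x a * (v a - v x) := by
  simp only [mul_sub, Finset.sum_sub_distrib]
  rw [← Finset.sum_mul, sum_sg hd, one_mul, S1]

lemma S1_sub (hd : IsMet d) (s : ℤ) (v : ι → ℝ) (x y : ι) :
    S1 d s v x - S1 d s v y =
      ∑ a, (sg d ((2:ℝ) ^ s) x a - sg d ((2:ℝ) ^ s) y a) * (v a - v x) := by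
  simp only [mul_sub, sub_mul, Finset.sum_sub_distrib]
  rw [← Finset.sum_mul, ← Finset.sum_mul, sum_sg hd, sum_sg hd, S1, S1]
  ring

lemma N_S1_sub_self {r : ℝ} (hr : 1 ≤ r) (hd : IsMet d) (s : ℤ) (u : ι → J → ℝ) {L : ℝ}
    (hL : 0 ≤ L) (hu : ∀ a b, N r (fun j => u a j - u b j) ≤ L * d a b) (x : ι) :
    N r (fun j => S1 d s (fun a => u a j) x - u x j) ≤ L * 2 ^ s * (2 * gr d s x) := by
  have hr0 : 0 < r := by linarith
  simp only [S1_sub_self hd]
  refine (N_sum_le hr Finset.univ _).trans ?_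
  have h1 : ∀ a, N r (fun j => sg d ((2:ℝ) ^ s) x a * (u a j - u x j)) ≤
      L * 2 ^ s * (sg d ((2:ℝ) ^ s) x a * (d x a / 2 ^ s)) := by
    intro a
    rw [N_smul hr0, abs_of_pos (sg_pos hd _ _ _)]
    have h2 := hu a x
    rw [hd.symm a x] at h2
    have h3 := (sg_pos hd ((2:ℝ) ^ s) x a).le
    calc _ ≤ sg d ((2:ℝ) ^ s) x a * (L * d x a) := mul_le_mul_of_nonneg_left h2 h3
      _ = _ := by field_simp
  refine (Finset.sum_le_sum (fun a _ => h1 a)).trans ?_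
  rw [← Finset.mul_sum]
  exact mul_le_mul_of_nonneg_left (mean_dist_lz hd s x) (by positivity)

lemma N_S1_sub_small {r : ℝ} (hr : 1 ≤ r) (hd : IsMet d) (s : ℤ) (u : ι → J → ℝ) {L : ℝ}
    (hL : 0 ≤ L) (hu : ∀ a b, N r (fun j => u a j - u b j) ≤ L * d a b) (x y : ι)
    (hxy : d x y ≤ 2 ^ s) :
    N r (fun j => S1 d s (fun a => u a j) x - S1 d s (fun a => u a j) y) ≤
      L * d x y * (14 * gr d s x) := by
  have hr0 : 0 < r := by linarith
  have hρ : (0:ℝ) < 2 ^ s := by positivity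
  have hdn := hd.nonneg x y
  simp only [S1_sub hd]
  refine (N_sum_le hr Finset.univ _).trans ?_
  have h1 : ∀ a, N r (fun j => (sg d ((2:ℝ) ^ s) x a - sg d ((2:ℝ) ^ s) y a) * (u a j - u x j)) ≤
      7 * (L * d x y) * (sg d ((2:ℝ) ^ s) x a * (d x a / 2 ^ s)) := by
    intro a
    rw [N_smul hr0]
    have h2 := hu a x
    rw [hd.symm a x] at h2
    have h3 := abs_sg_sub' hd hρ hxy a
    have h4 := (sg_pos hd ((2:ℝ) ^ s) x a).le
    calc _ ≤ (7 * (d x y / 2 ^ s) * sg d ((2:ℝ) ^ s) x a) * (L * d x a) :=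
          mul_le_mul h3 h2 (N_nonneg _) (by positivity)
      _ = _ := by field_simp
  refine (Finset.sum_le_sum (fun a _ => h1 a)).trans ?_
  rw [← Finset.mul_sum]
  have h5 := mean_dist_lz hd s x
  have h6 : gr d s x = lz d x (s + 1) - lz d x s := rfl
  rw [← h6] at h5
  have h7 : 0 ≤ 7 * (L * d x y) := by positivity
  calc _ ≤ 7 * (L * d x y) * (2 * gr d s x) := mul_le_mul_of_nonneg_left h5 h7
    _ = _ := by ring

lemma N_S1_sub {r : ℝ} (hr : 1 ≤ r) (hd : IsMet d) (s : ℤ) (u : ι → J → ℝ) {L : ℝ}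
    (hL : 0 ≤ L) (hu : ∀ a b, N r (fun j => u a j - u b j) ≤ L * d a b) (x y : ι) :
    N r (fun j => S1 d s (fun a => u a j) x - S1 d s (fun a => u a j) y) ≤
      L * d x y * (1 + 14 * gr d s x + 2 * gr d s y) := by
  have hdn := hd.nonneg x y
  have hgx := gr_nonneg hd s x
  have hgy := gr_nonneg hd s y
  have hLd : 0 ≤ L * d x y := by positivity
  rcases le_or_gt (d x y) (2 ^ s) with h | h
  · refine (N_S1_sub_small hr hd s u hL hu x y h).trans ?_
    nlinarith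
  · have h1 := N_S1_sub_self hr hd s u hL hu x
    have h2 := N_S1_sub_self hr hd s u hL hu y
    have h3 := N_sub_le hr (fun j => S1 d s (fun a => u a j) x) (fun j => u x j)
      (fun j => S1 d s (fun a => u a j) y)
    have h4 := N_sub_le hr (fun j => u x j) (fun j => u y j)
      (fun j => S1 d s (fun a => u a j) y)
    have h5 := hu x y
    have h6 : N r (fun j => u y j - S1 d s (fun a => u a j) y) =
        N r (fun j => S1 d s (fun a => u a j) y - u y j) := N_sub_comm _ _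
    rw [h6] at h4
    have hρ : (0:ℝ) < 2 ^ s := by positivity
    have h7 : L * 2 ^ s * (2 * gr d s x) ≤ L * d x y * (2 * gr d s x) := by
      apply mul_le_mul_of_nonneg_right _ (by positivity)
      exact mul_le_mul_of_nonneg_left h.le hL
    have h8 : L * 2 ^ s * (2 * gr d s y) ≤ L * d x y * (2 * gr d s y) := by
      apply mul_le_mul_of_nonneg_right _ (by positivity)
      exact mul_le_mul_of_nonneg_left h.le hL
    have h9 : 0 ≤ L * d x y * gr d s x := by positivity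
    nlinarith

lemma N_avg_le {r : ℝ} (hr : 1 ≤ r) {W : ℕ} (f : Fin W → J → ℝ) :
    N r (fun j => 1 / (W:ℝ) * ∑ l, f l j) ≤ 1 / W * ∑ l, N r (f l) := by
  have hr0 : 0 < r := by linarith
  rw [N_smul hr0, abs_of_nonneg (by positivity)]
  exact mul_le_mul_of_nonneg_left (N_sum_le hr Finset.univ f) (by positivity)

lemma Sm_sub_self {W : ℕ} (hW : 0 < W) (k : ℤ) (v : ι → ℝ) (x : ι) :
    Sm d W k v x - v x = 1 / W * ∑ j : Fin W, (S1 d (k * W + ((j : ℕ) : ℤ)) v x - v x) := by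
  have hWr : (0:ℝ) < W := by exact_mod_cast hW
  rw [Finset.sum_sub_distrib, Finset.sum_const, Finset.card_univ, Fintype.card_fin, nsmul_eq_mul,
    Sm, mul_sub]
  congr 1
  field_simp

lemma Sm_sub {W : ℕ} (k : ℤ) (v : ι → ℝ) (x y : ι) :
    Sm d W k v x - Sm d W k v y =
      1 / W * ∑ j : Fin W, (S1 d (k * W + ((j : ℕ) : ℤ)) v x -
        S1 d (k * W + ((j : ℕ) : ℤ)) v y) := by
  rw [Finset.sum_sub_distrib, Sm, Sm, mul_sub]

lemma N_Sm_sub_self {r M : ℝ} (hr : 1 ≤ r) (hd : IsMet d) {W : ℕ} (hW : 0 < W)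
    (hlog : 2 * Real.log (Fintype.card ι) ≤ M * W) (k : ℤ) (u : ι → J → ℝ) {L : ℝ}
    (hL : 0 ≤ L) (hu : ∀ a b, N r (fun j => u a j - u b j) ≤ L * d a b) (x : ι) :
    N r (fun j => Sm d W k (fun a => u a j) x - u x j) ≤ L * 2 ^ ((k + 1) * (W:ℤ)) * M := by
  have hWr : (0:ℝ) < W := by exact_mod_cast hW
  simp only [Sm_sub_self hW]
  refine (N_avg_le hr _).trans ?_
  have h1 : ∀ j : Fin W, N r (fun i => S1 d (k * W + ((j : ℕ) : ℤ)) (fun a => u a i) x - u x i) ≤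
      L * 2 ^ ((k + 1) * (W:ℤ)) * (2 * gr d (k * W + ((j : ℕ) : ℤ)) x) := by
    intro j
    refine (N_S1_sub_self hr hd _ u hL hu x).trans ?_
    apply mul_le_mul_of_nonneg_right _ (by have := gr_nonneg hd (k * W + ((j : ℕ) : ℤ)) x; positivity)
    exact mul_le_mul_of_nonneg_left (zpow_window_le k j) hL
  have h2 := Finset.sum_le_sum (fun j (_ : j ∈ (Finset.univ : Finset (Fin W))) => h1 j)
  rw [← Finset.mul_sum, ← Finset.mul_sum] at h2
  have h3 := sum_gr_window hd W k x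
  have h4 : 0 ≤ L * (2:ℝ) ^ ((k + 1) * (W:ℤ)) := by positivity
  calc _ ≤ 1 / (W:ℝ) * (L * 2 ^ ((k + 1) * (W:ℤ)) *
        (2 * ∑ j : Fin W, gr d (k * W + ((j : ℕ) : ℤ)) x)) :=
        mul_le_mul_of_nonneg_left h2 (by positivity)
    _ ≤ 1 / (W:ℝ) * (L * 2 ^ ((k + 1) * (W:ℤ)) * (M * W)) := by
        apply mul_le_mul_of_nonneg_left _ (by positivity)
        apply mul_le_mul_of_nonneg_left _ h4
        linarith
    _ = _ := by field_simp

lemma N_Sm_sub_small {r : ℝ} (hr : 1 ≤ r) (hd : IsMet d) {W : ℕ} (k : ℤ)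
    (u : ι → J → ℝ) {L : ℝ}
    (hL : 0 ≤ L) (hu : ∀ a b, N r (fun j => u a j - u b j) ≤ L * d a b) (x y : ι)
    (hxy : d x y ≤ 2 ^ (k * (W:ℤ))) :
    N r (fun j => Sm d W k (fun a => u a j) x - Sm d W k (fun a => u a j) y) ≤
      14 * L * d x y * (1 / W * ∑ j : Fin W, gr d (k * W + ((j : ℕ) : ℤ)) x) := by
  simp only [Sm_sub]
  refine (N_avg_le hr _).trans ?_
  have h2 := Finset.sum_le_sum (fun j (_ : j ∈ (Finset.univ : Finset (Fin W))) =>
    N_S1_sub_small hr hd (k * W + ((j : ℕ) : ℤ)) u hL hu x y (hxy.trans (zpow_window_ge k j)))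
  rw [← Finset.mul_sum, ← Finset.mul_sum] at h2
  calc _ ≤ 1 / (W:ℝ) * (L * d x y * (14 * ∑ j : Fin W, gr d (k * W + ((j : ℕ) : ℤ)) x)) :=
        mul_le_mul_of_nonneg_left h2 (by positivity)
    _ = _ := by ring

lemma N_Sm_sub {r M : ℝ} (hr : 1 ≤ r) (hd : IsMet d) {W : ℕ} (hW : 0 < W)
    (hlog : 2 * Real.log (Fintype.card ι) ≤ M * W) (k : ℤ) (u : ι → J → ℝ) {L : ℝ}
    (hL : 0 ≤ L) (hu : ∀ a b, N r (fun j => u a j - u b j) ≤ L * d a b) (x y : ι) :
    N r (fun j => Sm d W k (fun a => u a j) x - Sm d W k (fun a => u a j) y) ≤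
      L * (1 + 8 * M) * d x y := by
  have hWr : (0:ℝ) < W := by exact_mod_cast hW
  have hdn := hd.nonneg x y
  simp only [Sm_sub]
  refine (N_avg_le hr _).trans ?_
  have h2 := Finset.sum_le_sum (fun j (_ : j ∈ (Finset.univ : Finset (Fin W))) =>
    N_S1_sub hr hd (k * W + ((j : ℕ) : ℤ)) u hL hu x y)
  rw [← Finset.mul_sum, Finset.sum_add_distrib, Finset.sum_add_distrib, ← Finset.mul_sum,
    ← Finset.mul_sum, Finset.sum_const, Finset.card_univ, Fintype.card_fin, nsmul_eq_mul,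
    mul_one] at h2
  have h3 := sum_gr_window hd W k x
  have h4 := sum_gr_window hd W k y
  have h5 : 0 ≤ L * d x y := by positivity
  calc _ ≤ 1 / (W:ℝ) * (L * d x y * (W + 14 * ∑ j : Fin W, gr d (k * W + ((j : ℕ) : ℤ)) x +
        2 * ∑ j : Fin W, gr d (k * W + ((j : ℕ) : ℤ)) y)) :=
        mul_le_mul_of_nonneg_left h2 (by positivity)
    _ ≤ 1 / (W:ℝ) * (L * d x y * (W + 8 * (M * W))) := by
        apply mul_le_mul_of_nonneg_left _ (by positivity)
        apply mul_le_mul_of_nonneg_left _ h5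
        linarith
    _ = _ := by field_simp

lemma N_Sm_le {r : ℝ} (hr : 1 ≤ r) (hd : IsMet d) {W : ℕ} (hW : 0 < W) (k : ℤ)
    (u : ι → J → ℝ) {B : ℝ} (hu : ∀ a, N r (u a) ≤ B) (x : ι) :
    N r (fun j => Sm d W k (fun a => u a j) x) ≤ B := by
  have hr0 : 0 < r := by linarith
  have hWr : (0:ℝ) < W := by exact_mod_cast hW
  simp only [Sm]
  refine (N_avg_le hr (fun (l : Fin W) j => S1 d (k * W + ((l : ℕ) : ℤ)) (fun a => u a j) x)).trans ?_
  have h1 : ∀ l : Fin W, N r (fun j => S1 d (k * W + ((l : ℕ) : ℤ)) (fun a => u a j) x) ≤ B := by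
    intro l
    simp only [S1]
    refine (N_sum_le hr Finset.univ _).trans ?_
    calc _ ≤ ∑ a, sg d ((2:ℝ) ^ (k * W + ((l : ℕ) : ℤ))) x a * B := by
          apply Finset.sum_le_sum
          intro a _
          rw [N_smul hr0, abs_of_pos (sg_pos hd _ _ _)]
          exact mul_le_mul_of_nonneg_left (hu a) (sg_pos hd _ _ _).le
      _ = B := by rw [← Finset.sum_mul, sum_sg hd, one_mul]
  calc _ ≤ 1 / (W:ℝ) * ∑ l : Fin W, B :=
        mul_le_mul_of_nonneg_left (Finset.sum_le_sum (fun l _ => h1 l)) (by positivity)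
    _ = B := by
        rw [Finset.sum_const, Finset.card_univ, Fintype.card_fin, nsmul_eq_mul]
        field_simp

lemma abs_Sm_le (hd : IsMet d) {W : ℕ} (hW : 0 < W) (k : ℤ)
    (v : ι → ℝ) {A : ℝ} (hv : ∀ a, |v a| ≤ A) (x : ι) : |Sm d W k v x| ≤ A := by
  have h := N_Sm_le (J := Unit) (r := 1) le_rfl hd hW k (fun a _ => v a) (B := A)
    (fun a => by simpa [N] using hv a) x
  simpa [N] using h

/-- The scalar slope estimate. -/
lemma abs_Sm_sub_small (hd : IsMet d) {W : ℕ} (k : ℤ) (v : ι → ℝ) (c : ι → ι → ℝ)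
    (hv : ∀ a b, |v a - v b| ≤ c b a) (x y : ι) (hxy : d x y ≤ 2 ^ (k * (W:ℤ))) :
    |Sm d W k v x - Sm d W k v y| ≤
      7 * d x y * (1 / W * ∑ j : Fin W, ∑ a, sg d ((2:ℝ) ^ (k * W + ((j : ℕ) : ℤ))) x a *
        (c x a / 2 ^ (k * W + ((j : ℕ) : ℤ)))) := by
  have hdn := hd.nonneg x y
  rw [Sm_sub, abs_mul, abs_of_nonneg (by positivity)]
  have h1 : ∀ j : Fin W, |S1 d (k * W + ((j : ℕ) : ℤ)) v x - S1 d (k * W + ((j : ℕ) : ℤ)) v y| ≤
      7 * d x y * ∑ a, sg d ((2:ℝ) ^ (k * W + ((j : ℕ) : ℤ))) x a *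
        (c x a / 2 ^ (k * W + ((j : ℕ) : ℤ))) := by
    intro j
    set s := k * (W:ℤ) + ((j : ℕ) : ℤ) with hs
    have hρ : (0:ℝ) < 2 ^ s := by positivity
    have hxy' : d x y ≤ 2 ^ s := hxy.trans (zpow_window_ge k j)
    rw [S1_sub hd, Finset.mul_sum]
    refine (Finset.abs_sum_le_sum_abs _ _).trans (Finset.sum_le_sum ?_)
    intro a _
    rw [abs_mul]
    have h3 := abs_sg_sub' hd hρ hxy' a
    have h4 := (sg_pos hd ((2:ℝ) ^ s) x a).le
    calc _ ≤ (7 * (d x y / 2 ^ s) * sg d ((2:ℝ) ^ s) x a) * c x a :=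
          mul_le_mul h3 (hv a x) (abs_nonneg _) (by positivity)
      _ = _ := by field_simp
  have h5 := (Finset.abs_sum_le_sum_abs (fun j : Fin W => S1 d (k * W + ((j : ℕ) : ℤ)) v x -
    S1 d (k * W + ((j : ℕ) : ℤ)) v y) Finset.univ).trans (Finset.sum_le_sum (fun j _ => h1 j))
  rw [← Finset.mul_sum] at h5
  calc _ ≤ 1 / (W:ℝ) * (7 * d x y * ∑ j : Fin W, ∑ a,
        sg d ((2:ℝ) ^ (k * W + ((j : ℕ) : ℤ))) x a *
        (c x a / 2 ^ (k * W + ((j : ℕ) : ℤ)))) :=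
        mul_le_mul_of_nonneg_left h5 (by positivity)
    _ = _ := by ring

end

end Vale.Agent.P249.Sub
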