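import Mathlib
import Vale.Agent.P249.Smooth

/-!
# Height levels: clamping, thresholding and the features of one window
-/

namespace Vale.Agent.P249.Sub

open Finset

/-- Clamp to `[-τ, τ]`. -/
noncomputable def clamp (τ t : ℝ) : ℝ := max (-τ) (min τ t)

/-- Soft threshold. -/
noncomputable def soft (θ t : ℝ) : ℝ := t - clamp θ t

lemma abs_clamp_le {τ : ℝ} (hτ : 0 ≤ τ) (t : ℝ) : |clamp τ t| ≤ τ := by
  rw [clamp, abs_le]
  exact ⟨le_max_left _ _, max_le (by linarith) (min_le_left _ _)⟩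

lemma abs_clamp_le_abs {τ : ℝ} (hτ : 0 ≤ τ) (t : ℝ) : |clamp τ t| ≤ |t| := by
  rw [clamp]
  rcases le_total t 0 with h | h
  · rw [min_eq_right (by linarith), abs_of_nonpos (max_le (by linarith) h), abs_of_nonpos h]
    have := le_max_right (-τ) t
    linarith
  · have h1 : 0 ≤ min τ t := le_min hτ h
    rw [max_eq_right (by linarith), abs_of_nonneg h1, abs_of_nonneg h]
    exact min_le_right _ _

lemma clamp_lip (τ s t : ℝ) : |clamp τ s - clamp τ t| ≤ |s - t| := by
  have h1 := abs_max_sub_max_le_max (-τ) (min τ s) (-τ) (min τ t)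
  have h2 := abs_min_sub_min_le_max τ s τ t
  simp only [sub_self, abs_zero] at h1 h2
  rw [max_eq_right (abs_nonneg (min τ s - min τ t))] at h1
  rw [max_eq_right (abs_nonneg (s - t))] at h2
  exact h1.trans h2

lemma clamp_sub_le {τ : ℝ} (hτ : 0 ≤ τ) (s t : ℝ) : |clamp τ s - clamp τ t| ≤ 2 * τ := by
  have h1 := abs_clamp_le hτ s
  have h2 := abs_clamp_le hτ t
  have h3 := abs_sub (clamp τ s) (clamp τ t)
  linarith

lemma clamp_of_abs_le {τ t : ℝ} (h : |t| ≤ τ) : clamp τ t = t := by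
  rw [abs_le] at h
  rw [clamp, min_eq_right h.2, max_eq_right h.1]

lemma clamp_clamp {θ τ : ℝ} (hθ : 0 ≤ θ) (h : θ ≤ τ) (t : ℝ) :
    clamp θ (clamp τ t) = clamp θ t := by
  rw [clamp, clamp, clamp]
  rcases le_total t (-τ) with h1 | h1
  · rw [min_eq_right (a := τ) (b := t) (by linarith), max_eq_left h1,
      min_eq_right (a := θ) (b := -τ) (by linarith), min_eq_right (a := θ) (b := t) (by linarith),
      max_eq_left (by linarith), max_eq_left (by linarith)]
  · rcases le_total τ t with h2 | h2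
    · rw [min_eq_left h2, max_eq_right (a := -τ) (b := τ) (by linarith), min_eq_left h,
        min_eq_left (h.trans h2)]
    · rw [min_eq_right h2, max_eq_right h1]

lemma clamp_zero (t : ℝ) : clamp 0 t = 0 := by
  rw [clamp, neg_zero]
  exact max_eq_left (min_le_left _ _)

lemma soft_zero (t : ℝ) : soft 0 t = t := by rw [soft, clamp_zero, sub_zero]

lemma soft_lip (θ s t : ℝ) : |soft θ s - soft θ t| ≤ |s - t| := by
  -- both the clamp and the soft threshold are monotone with slopes summing to one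
  have key : ∀ s t : ℝ, s ≤ t → |soft θ s - soft θ t| ≤ |s - t| := by
    intro s t hst
    have h1 : clamp θ s ≤ clamp θ t := by
      rw [clamp, clamp]
      exact max_le_max le_rfl (min_le_min le_rfl hst)
    have h2 := clamp_lip θ s t
    rw [abs_of_nonpos (by linarith : clamp θ s - clamp θ t ≤ 0),
      abs_of_nonpos (by linarith : s - t ≤ 0)] at h2
    rw [soft, soft, abs_of_nonpos (by linarith : s - t ≤ 0), abs_le]
    constructor <;> linarith
  rcases le_total s t with h | h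
  · exact key s t h
  · rw [abs_sub_comm, abs_sub_comm s t]
    exact key t s h

lemma soft_eq_zero {θ t : ℝ} (h : |t| ≤ θ) : soft θ t = 0 := by
  rw [soft, clamp_of_abs_le h, sub_self]

lemma abs_soft_le {θ : ℝ} (hθ : 0 ≤ θ) (t : ℝ) : |soft θ t| ≤ |t| := by
  have h := soft_lip θ t 0
  have h0 : soft θ 0 = 0 := soft_eq_zero (by simpa using hθ)
  simpa [h0] using h

/-- Threshold attached to the level `i` of `L + 1` levels. -/
noncomputable def th (τ : ℕ → ℝ) (L i : ℕ) : ℝ := if i < L then τ (i + 1) else 0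

lemma sum_levels (τ : ℕ → ℝ) (hτ0 : ∀ i, 0 ≤ τ i) (hτ : Antitone τ) (L : ℕ) (t : ℝ) :
    ∑ i ∈ Finset.range (L + 1), soft (th τ L i) (clamp (τ i) t) = clamp (τ 0) t := by
  rw [Finset.sum_range_succ]
  have h1 : ∀ i ∈ Finset.range L, soft (th τ L i) (clamp (τ i) t) =
      clamp (τ i) t - clamp (τ (i + 1)) t := by
    intro i hi
    rw [th, if_pos (Finset.mem_range.1 hi), soft, clamp_clamp (hτ0 _) (hτ (Nat.le_succ i))]
  rw [Finset.sum_congr rfl h1, Finset.sum_range_sub', th, if_neg (lt_irrefl L), soft_zero]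
  ring

section

variable {J : Type*} [Fintype J]

/-- Some level carries a proportional part of the difference. -/
lemma exists_level {r : ℝ} (hr : 1 ≤ r) (τ : ℕ → ℝ) (hτ0 : ∀ i, 0 ≤ τ i) (hτ : Antitone τ)
    (L : ℕ) (g g' : J → ℝ) (hg : ∀ j, |g j| ≤ τ 0) (hg' : ∀ j, |g' j| ≤ τ 0) :
    ∃ i ≤ L, N r (fun j => g j - g' j) / (L + 1) ≤
      N r (fun j => soft (th τ L i) (clamp (τ i) (g j)) - soft (th τ L i) (clamp (τ i) (g' j))) := by
  by_contra hcon
  push Not at hcon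
  have h1 : N r (fun j => g j - g' j) ≤ ∑ i ∈ Finset.range (L + 1),
      N r (fun j => soft (th τ L i) (clamp (τ i) (g j)) -
        soft (th τ L i) (clamp (τ i) (g' j))) := by
    refine le_trans (le_of_eq ?_) (N_sum_le hr _ _)
    congr 1
    ext j
    rw [Finset.sum_sub_distrib, sum_levels τ hτ0 hτ, sum_levels τ hτ0 hτ,
      clamp_of_abs_le (hg j), clamp_of_abs_le (hg' j)]
  have h2 : ∑ i ∈ Finset.range (L + 1),
      N r (fun j => soft (th τ L i) (clamp (τ i) (g j)) -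
        soft (th τ L i) (clamp (τ i) (g' j))) <
      ∑ i ∈ Finset.range (L + 1), N r (fun j => g j - g' j) / (L + 1) := by
    apply Finset.sum_lt_sum_of_nonempty ⟨0, by simp⟩
    intro i hi
    exact hcon i (by have := Finset.mem_range.1 hi; omega)
  rw [Finset.sum_const, Finset.card_range, nsmul_eq_mul] at h2
  have h3 : ((L + 1 : ℕ) : ℝ) * (N r (fun j => g j - g' j) / (L + 1)) =
      N r (fun j => g j - g' j) := by
    push_cast
    field_simp
  rw [h3] at h2
  linarith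

end

section

variable {ι κ : Type*} [Fintype ι] [Fintype κ]

/-- The feature of the window `k` with clamp `τ` and threshold `θ`. -/
noncomputable def U (r M : ℝ) (X : ι → κ → ℝ) (W : ℕ) (k : ℤ) (τ θ : ℝ) (x : ι) :
    Fin W × (ι × Option κ) → ℝ :=
  fun p => soft θ (Sm (dist' r X) W k (fun a => clamp τ (PhiW r M X W (k + 3) a p)) x)

/-- Norm constants. -/
noncomputable def bB (r M : ℝ) : ℝ := cB r M ^ (1 / r)

/-- Lipschitz constant. -/
noncomputable def bL (r M : ℝ) : ℝ := cL r M ^ (1 / r)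

lemma bB_pos {r M : ℝ} (hr : 0 < r) (hM : 0 < M) : 0 < bB r M :=
  Real.rpow_pos_of_pos (cB_pos hr hM) _

lemma bL_pos {r M : ℝ} (hr : 0 < r) (hM : 0 < M) : 0 < bL r M :=
  Real.rpow_pos_of_pos (cL_pos hr hM) _

variable {r M : ℝ} (hr : 1 ≤ r) (hM : 3 / 2 ≤ M) (X : ι → κ → ℝ) {W : ℕ} (hW : 0 < W)

include hr hM hW in
lemma PhiW_bound' (k : ℤ) (x : ι) :
    N r (PhiW r M X W (k + 3) x) ≤ bB r M * 2 ^ ((k + 4) * (W : ℤ)) := by
  have := PhiW_bound hr hM X hW (k + 3) x
  have h1 : k + 3 + 1 = k + 4 := by ring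
  rwa [h1] at this

include hr hM hW in
lemma clampPhi_lip (k : ℤ) (τ : ℝ) (a b : ι) :
    N r (fun p => clamp τ (PhiW r M X W (k + 3) a p) - clamp τ (PhiW r M X W (k + 3) b p)) ≤
      bL r M * dist' r X a b :=
  (N_mono (by linarith) (fun _ => clamp_lip _ _ _)).trans (PhiW_lip hr hM X hW (k + 3) a b)

include hr hM hW in
lemma U_bound (k : ℤ) {τ θ : ℝ} (hτ : 0 ≤ τ) (hθ : 0 ≤ θ) (x : ι) :
    N r (U r M X W k τ θ x) ≤ bB r M * 2 ^ ((k + 4) * (W : ℤ)) := by
  have hr0 : 0 < r := by linarith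
  refine (N_mono hr0 (fun p => abs_soft_le hθ _)).trans ?_
  apply N_Sm_le hr (isMet_dist' hr X) hW k (fun a p => clamp τ (PhiW r M X W (k + 3) a p))
  intro a
  exact (N_mono hr0 (fun p => abs_clamp_le_abs hτ _)).trans (PhiW_bound' hr hM X hW k a)

include hr hM hW in
lemma U_card (k : ℤ) {τ θ : ℝ} (hτ : 0 ≤ τ) (hθ : 0 < θ) (x : ι)
    (S : Finset (Fin W × (ι × Option κ))) (hS : ∀ p ∈ S, U r M X W k τ θ x p ≠ 0) :
    (S.card : ℝ) ≤ (bB r M * 2 ^ ((k + 4) * (W : ℤ)) / θ) ^ r := by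
  have hr0 : 0 < r := by linarith
  apply card_large hr0 (fun p => Sm (dist' r X) W k
    (fun a => clamp τ (PhiW r M X W (k + 3) a p)) x) hθ
  · apply N_Sm_le hr (isMet_dist' hr X) hW k (fun a p => clamp τ (PhiW r M X W (k + 3) a p))
    intro a
    exact (N_mono hr0 (fun p => abs_clamp_le_abs hτ _)).trans (PhiW_bound' hr hM X hW k a)
  · intro p hp
    by_contra hcon
    push Not at hcon
    exact hS p hp (soft_eq_zero hcon.le)

include hr hW in
lemma U_abs (k : ℤ) {τ θ : ℝ} (hτ : 0 ≤ τ) (hθ : 0 ≤ θ) (x : ι)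
    (p : Fin W × (ι × Option κ)) : |U r M X W k τ θ x p| ≤ τ :=
  (abs_soft_le hθ _).trans (abs_Sm_le (isMet_dist' hr X) hW k _ (fun _ => abs_clamp_le hτ _) x)

include hr hM hW in
lemma U_lip (hlog : 2 * Real.log (Fintype.card ι) ≤ M * W) (k : ℤ) (τ θ : ℝ) (x y : ι) :
    N r (fun p => U r M X W k τ θ x p - U r M X W k τ θ y p) ≤
      bL r M * (1 + 8 * M) * dist' r X x y := by
  have hr0 : 0 < r := by linarith
  have hM0 : 0 < M := by linarith
  refine (N_mono hr0 (fun p => soft_lip _ _ _)).trans ?_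
  exact N_Sm_sub hr (isMet_dist' hr X) hW hlog k
    (fun a p => clamp τ (PhiW r M X W (k + 3) a p)) (bL_pos hr0 hM0).le
    (clampPhi_lip hr hM X hW k τ) x y

include hr hM hW in
lemma U_small (k : ℤ) (τ θ : ℝ) (x y : ι) (hxy : dist' r X x y ≤ 2 ^ (k * (W : ℤ))) :
    N r (fun p => U r M X W k τ θ x p - U r M X W k τ θ y p) ≤
      14 * bL r M * dist' r X x y *
        (1 / W * ∑ j : Fin W, gr (dist' r X) (k * W + ((j : ℕ) : ℤ)) x) := by
  have hr0 : 0 < r := by linarith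
  have hM0 : 0 < M := by linarith
  refine (N_mono hr0 (fun p => soft_lip _ _ _)).trans ?_
  exact N_Sm_sub_small hr (isMet_dist' hr X) k
    (fun a p => clamp τ (PhiW r M X W (k + 3) a p)) (bL_pos hr0 hM0).le
    (clampPhi_lip hr hM X hW k τ) x y hxy

include hr hM hW in
lemma U_slope (k : ℤ) {τ : ℝ} (hτ : 0 ≤ τ) (θ : ℝ) (x y : ι)
    (hxy : dist' r X x y ≤ 2 ^ (k * (W : ℤ))) (p : Fin W × (ι × Option κ)) :
    |U r M X W k τ θ x p - U r M X W k τ θ y p| ≤
      7 * dist' r X x y * (1 / W * ∑ j : Fin W, ∑ a,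
        sg (dist' r X) ((2:ℝ) ^ (k * W + ((j : ℕ) : ℤ))) x a *
        (min (2 * τ) (bL r M * dist' r X x a) / 2 ^ (k * W + ((j : ℕ) : ℤ)))) := by
  have hr0 : 0 < r := by linarith
  refine (soft_lip _ _ _).trans ?_
  apply abs_Sm_sub_small (isMet_dist' hr X) k _
    (fun x a => min (2 * τ) (bL r M * dist' r X x a)) _ x y hxy
  intro a b
  apply le_min (clamp_sub_le hτ _ _)
  rw [(isMet_dist' hr X).symm b a]
  exact (abs_le_N hr0 (fun p => clamp τ (PhiW r M X W (k + 3) a p) -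
    clamp τ (PhiW r M X W (k + 3) b p)) p).trans (clampPhi_lip hr hM X hW k τ a b)

include hr hM hW in
/-- Pairs in the range of the window are captured by some level. -/
lemma U_capture (hlog : 2 * Real.log (Fintype.card ι) ≤ M * W) (k : ℤ) (τ : ℕ → ℝ)
    (hτ0 : ∀ i, 0 ≤ τ i) (hτ : Antitone τ) (hτB : bB r M * 2 ^ ((k + 4) * (W : ℤ)) ≤ τ 0) (L : ℕ)
    (hbig : 32 * (L + 1) * bL r M * M ≤ 2 ^ W) (x y : ι)
    (h1 : 2 ^ ((k + 2) * (W : ℤ)) ≤ dist' r X x y)
    (h2 : dist' r X x y ≤ 2 ^ ((k + 3) * (W : ℤ))) :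
    ∃ i ≤ L, dist' r X x y / (16 * (L + 1)) ≤
      N r (fun p => U r M X W k (τ i) (th τ L i) x p - U r M X W k (τ i) (th τ L i) y p) := by
  have hr0 : 0 < r := by linarith
  have hM0 : 0 < M := by linarith
  have hbL := bL_pos hr0 hM0
  have hd := isMet_dist' hr X
  have hsup : ∀ a p, |PhiW r M X W (k + 3) a p| ≤ τ 0 := fun a p =>
    (abs_le_N hr0 _ p).trans ((PhiW_bound' hr hM X hW k a).trans hτB)
  obtain ⟨i, hi, hN⟩ := exists_level hr τ hτ0 hτ L (PhiW r M X W (k + 3) x)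
    (PhiW r M X W (k + 3) y) (hsup x) (hsup y)
  refine ⟨i, hi, ?_⟩
  have hlow := PhiW_lower hr hM X hW hlog (k + 3) x y h2
  set c : ι → Fin W × (ι × Option κ) → ℝ :=
    fun a p => clamp (τ i) (PhiW r M X W (k + 3) a p) with hc
  set θ := th τ L i with hθ
  have herr : ∀ a, N r (fun p => soft θ (c a p) - U r M X W k (τ i) θ a p) ≤
      bL r M * 2 ^ ((k + 1) * (W:ℤ)) * M := by
    intro a
    rw [N_sub_comm]
    refine (N_mono hr0 (fun p => soft_lip _ _ _)).trans ?_
    exact N_Sm_sub_self hr hd hW hlog k c hbL.le (clampPhi_lip hr hM X hW k (τ i)) a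
  have h3 : N r (fun p => soft θ (c x p) - soft θ (c y p)) ≤
      N r (fun p => soft θ (c x p) - U r M X W k (τ i) θ x p) +
      (N r (fun p => U r M X W k (τ i) θ x p - U r M X W k (τ i) θ y p) +
        N r (fun p => U r M X W k (τ i) θ y p - soft θ (c y p))) :=
    (N_sub_le hr _ _ _).trans (add_le_add le_rfl (N_sub_le hr _ _ _))
  rw [N_sub_comm (fun p => U r M X W k (τ i) θ y p)] at h3
  have e1 := herr x
  have e2 := herr y
  have h4 : bL r M * 2 ^ ((k + 1) * (W:ℤ)) * M ≤ dist' r X x y / (32 * (L + 1)) := by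
    rw [le_div_iff₀ (by positivity)]
    have h5 : (2:ℝ) ^ ((k + 2) * (W : ℤ)) = 2 ^ ((k + 1) * (W:ℤ)) * 2 ^ W := by
      rw [← zpow_natCast, ← zpow_add₀ (by norm_num)]
      congr 1
      ring
    have h6 : (0:ℝ) < 2 ^ ((k + 1) * (W:ℤ)) := by positivity
    calc bL r M * 2 ^ ((k + 1) * (W:ℤ)) * M * (32 * (L + 1)) =
          2 ^ ((k + 1) * (W:ℤ)) * (32 * (L + 1) * bL r M * M) := by ring
      _ ≤ 2 ^ ((k + 1) * (W:ℤ)) * 2 ^ W := mul_le_mul_of_nonneg_left hbig h6.le
      _ = 2 ^ ((k + 2) * (W : ℤ)) := h5.symm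
      _ ≤ _ := h1
  have h7 : dist' r X x y / 8 / (L + 1) ≤ N r (fun p => soft θ (c x p) - soft θ (c y p)) :=
    (div_le_div_of_nonneg_right hlow (by positivity)).trans hN
  have h8 : dist' r X x y / 8 / (L + 1) = 4 * (dist' r X x y / (32 * (L + 1))) := by
    field_simp; ring
  have h9 : dist' r X x y / (16 * (L + 1)) = 2 * (dist' r X x y / (32 * (L + 1))) := by
    field_simp; ring
  rw [h9]
  rw [h8] at h7
  linarith

end

end Vale.Agent.P249.Sub
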