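import Mathlib
import Vale.Agent.P249.Norm

/-!
# Random sampling of coordinates of sparse vectors
-/

namespace Vale.Agent.P249.Sub

open Finset

section

variable {J : Type*} [Fintype J]

lemma sum_pi_prod {t : ℕ} (f : Fin t → J → ℝ) :
    ∑ j : Fin t → J, ∏ l, f l (j l) = ∏ l, ∑ a, f l a := by
  classical
  have := Finset.prod_univ_sum (fun _ : Fin t => (Finset.univ : Finset J)) f
  rw [this, Fintype.piFinset_univ]

lemma sum_pi_single {t : ℕ} (l0 : Fin t) (g h : J → ℝ) :
    ∑ j : Fin t → J, g (j l0) * ∏ l ∈ Finset.univ.erase l0, h (j l) =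
      (∑ a, g a) * (∑ a, h a) ^ (t - 1) := by
  classical
  have h1 := sum_pi_prod (fun (l : Fin t) a => if l = l0 then g a else h a)
  have h2 : ∀ j : Fin t → J, ∏ l, (if l = l0 then g (j l) else h (j l)) =
      g (j l0) * ∏ l ∈ Finset.univ.erase l0, h (j l) := by
    intro j
    rw [← Finset.mul_prod_erase _ _ (Finset.mem_univ l0), if_pos rfl]
    congr 1
    apply Finset.prod_congr rfl
    intro l hl
    rw [if_neg (Finset.ne_of_mem_erase hl)]
  have h3 : ∏ l : Fin t, ∑ a, (if l = l0 then g a else h a) =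
      (∑ a, g a) * (∑ a, h a) ^ (t - 1) := by
    rw [← Finset.mul_prod_erase _ _ (Finset.mem_univ l0)]
    simp only [if_true]
    congr 1
    have : ∀ l ∈ Finset.univ.erase l0, ∑ a, (if l = l0 then g a else h a) = ∑ a, h a := by
      intro l hl
      simp only [if_neg (Finset.ne_of_mem_erase hl)]
    rw [Finset.prod_congr rfl this, Finset.prod_const, Finset.card_erase_of_mem (Finset.mem_univ _),
      Finset.card_univ, Fintype.card_fin]
  rw [h3] at h1
  rw [← h1]
  exact Finset.sum_congr rfl (fun j _ => (h2 j).symm)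

lemma sum_pi_one {t : ℕ} (l0 : Fin t) (g : J → ℝ) :
    ∑ j : Fin t → J, g (j l0) = (∑ a, g a) * (Fintype.card J : ℝ) ^ (t - 1) := by
  have := sum_pi_single l0 g (fun _ => 1)
  simpa using this

end

section

variable {ι J : Type*} [Fintype ι] [Fintype J] {t : ℕ}

/-- All points see at most `q` nonzero sampled coordinates. -/
def Good (U : ι → J → ℝ) (q : ℕ) (j : Fin t → J) : Prop :=
  ∀ x, {l | U x (j l) ≠ 0}.ncard ≤ q

open scoped Classical in
/-- The scalar feature obtained by sampling coordinates. -/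
noncomputable def V (U : ι → J → ℝ) (q : ℕ) (β : ℝ) (x : ι) (j : Fin t → J) : ℝ :=
  if Good U q j then β * ∑ l, U x (j l) else 0

lemma ncard_diff_le {U : ι → J → ℝ} {q : ℕ} {j : Fin t → J} (hj : Good U q j) (x y : ι) :
    {l | U x (j l) - U y (j l) ≠ 0}.ncard ≤ 2 * q := by
  have h1 : {l | U x (j l) - U y (j l) ≠ 0} ⊆ {l | U x (j l) ≠ 0} ∪ {l | U y (j l) ≠ 0} := by
    intro l hl
    simp only [Set.mem_ofPred_eq, Set.mem_union] at hl ⊢
    by_contra hcon
    push Not at hcon
    apply hl
    rw [hcon.1, hcon.2, sub_zero]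
  have h2 := (Set.ncard_le_ncard h1 (Set.toFinite _)).trans (Set.ncard_union_le _ _)
  have := hj x
  have := hj y
  omega

lemma abs_sum_le_ncard {m : ℕ} {c : ℝ} (hc : 0 ≤ c) (D : Fin t → ℝ) (hD : ∀ l, |D l| ≤ c)
    (hm : {l | D l ≠ 0}.ncard ≤ m) : |∑ l, D l| ≤ m * c := by
  classical
  have h1 : ∑ l, D l = ∑ l ∈ Finset.univ.filter (fun l => D l ≠ 0), D l := by
    rw [Finset.sum_filter_ne_zero]
  rw [h1]
  refine (Finset.abs_sum_le_sum_abs _ _).trans ?_
  have h2 : (Finset.univ.filter (fun l => D l ≠ 0)).card ≤ m := by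
    rw [Set.ncard_eq_toFinset_card'] at hm
    convert hm using 2
    ext l; simp
  calc ∑ l ∈ Finset.univ.filter (fun l => D l ≠ 0), |D l|
      ≤ ∑ l ∈ Finset.univ.filter (fun l => D l ≠ 0), c := Finset.sum_le_sum (fun l _ => hD l)
    _ = (Finset.univ.filter (fun l => D l ≠ 0)).card * c := by
        rw [Finset.sum_const, nsmul_eq_mul]
    _ ≤ m * c := mul_le_mul_of_nonneg_right (by exact_mod_cast h2) hc

lemma V_sub_abs (U : ι → J → ℝ) (q : ℕ) {β c : ℝ} (hβ : 0 ≤ β) (hc : 0 ≤ c) (x y : ι)
    (hU : ∀ a, |U x a - U y a| ≤ c) (j : Fin t → J) :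
    |V U q β x j - V U q β y j| ≤ 2 * q * (β * c) := by
  rw [V, V]
  split_ifs with hg
  · rw [← mul_sub, ← Finset.sum_sub_distrib, abs_mul, abs_of_nonneg hβ]
    have h1 := abs_sum_le_ncard hc (fun l => U x (j l) - U y (j l)) (fun l => hU _)
      (ncard_diff_le hg x y)
    push_cast at h1
    calc β * |∑ l, (U x (j l) - U y (j l))| ≤ β * (2 * q * c) := mul_le_mul_of_nonneg_left h1 hβ
      _ = _ := by ring
  · simp only [sub_self, abs_zero]
    positivity

lemma V_upper {r : ℝ} (hr : 1 ≤ r) (U : ι → J → ℝ) (q : ℕ) {β : ℝ} (hβ : 0 ≤ β) (x y : ι) :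
    ∑ j : Fin t → J, |V U q β x j - V U q β y j| ^ r ≤
      β ^ r * (2 * q) ^ r * (t * (Fintype.card J : ℝ) ^ (t - 1)) *
        ∑ a, |U x a - U y a| ^ r := by
  have hr0 : 0 < r := by linarith
  have h1 : ∀ j : Fin t → J, |V U q β x j - V U q β y j| ^ r ≤
      β ^ r * (2 * q) ^ r * ∑ l, |U x (j l) - U y (j l)| ^ r := by
    intro j
    have hnn : 0 ≤ ∑ l, |U x (j l) - U y (j l)| ^ r :=
      Finset.sum_nonneg (fun _ _ => Real.rpow_nonneg (abs_nonneg _) _)
    rw [V, V]
    split_ifs with hg
    · rw [← mul_sub, ← Finset.sum_sub_distrib, abs_mul, abs_of_nonneg hβ,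
        Real.mul_rpow hβ (abs_nonneg _), mul_assoc]
      apply mul_le_mul_of_nonneg_left _ (Real.rpow_nonneg hβ _)
      have h2 := abs_sum_le_ncard (N_nonneg (r := r) (fun l => U x (j l) - U y (j l)))
        (fun l => U x (j l) - U y (j l)) (fun l => abs_le_N hr0 (fun l => U x (j l) - U y (j l)) l)
        (ncard_diff_le hg x y)
      have h3 := Real.rpow_le_rpow (abs_nonneg _) h2 hr0.le
      rw [Real.mul_rpow (by positivity) (N_nonneg _), N_rpow hr0] at h3
      push_cast at h3
      exact h3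
    · simp only [sub_self, abs_zero, Real.zero_rpow hr0.ne']
      positivity
  refine (Finset.sum_le_sum (fun j _ => h1 j)).trans (le_of_eq ?_)
  rw [← Finset.mul_sum, Finset.sum_comm]
  have h4 : ∀ l : Fin t, ∑ j : Fin t → J, |U x (j l) - U y (j l)| ^ r =
      (∑ a, |U x a - U y a| ^ r) * (Fintype.card J : ℝ) ^ (t - 1) := fun l =>
    sum_pi_one l (fun a => |U x a - U y a| ^ r)
  simp_rw [h4]
  rw [Finset.sum_const, Finset.card_univ, Fintype.card_fin, nsmul_eq_mul]
  ring

open scoped Classical in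
lemma V_lower {r : ℝ} (hr : 1 ≤ r) [Nonempty J] (U : ι → J → ℝ) (q : ℕ) {β A : ℝ} (hβ : 0 ≤ β)
    (hA : 1 ≤ A) (hsparse : ∀ x, ((t - 1 : ℕ) : ℝ) * A *
      ((Finset.univ.filter (fun a => U x a ≠ 0)).card : ℝ) ≤ Fintype.card J)
    (hq : 2 / A + 3 * (Fintype.card ι : ℝ) * (A ^ q)⁻¹ ≤ 1 / 2) (x y : ι) :
    β ^ r * (t * (Fintype.card J : ℝ) ^ (t - 1)) * (∑ a, |U x a - U y a| ^ r) / 2 ≤
      ∑ j : Fin t → J, |V U q β x j - V U q β y j| ^ r := by
  have hr0 : 0 < r := by linarith
  have hA0 : 0 < A := by linarith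
  set S := ∑ a, |U x a - U y a| ^ r with hS
  have hS0 : 0 ≤ S := Finset.sum_nonneg (fun _ _ => Real.rpow_nonneg (abs_nonneg _) _)
  set c : ℝ := (Fintype.card J : ℝ) with hc
  have hc0 : 0 < c := by rw [hc]; exact_mod_cast Fintype.card_pos
  set e : J → ℝ := fun a => if U x a = 0 ∧ U y a = 0 then 1 else 0 with he
  set D : J → ℝ := fun a => U x a - U y a with hD
  have he01 : ∀ a, 0 ≤ e a ∧ e a ≤ 1 := by
    intro a; rw [he]; simp only; split_ifs <;> norm_num
  have heD : ∀ a, e a ≠ 0 → D a = 0 := by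
    intro a ha
    rw [he] at ha
    simp only [ne_eq, ite_eq_right_iff, one_ne_zero, imp_false, not_not] at ha
    rw [hD]; simp only [ha.1, ha.2, sub_zero]
  -- pointwise inequality
  have hpt : ∀ j : Fin t → J, ∑ l0, |D (j l0)| ^ r * ∏ l ∈ Finset.univ.erase l0, e (j l) ≤
      |∑ l, D (j l)| ^ r := by
    intro j
    by_cases h : ∃ l0, D (j l0) ≠ 0 ∧ ∀ l, l ≠ l0 → e (j l) ≠ 0
    · obtain ⟨l0, h1, h2⟩ := h
      have h3 : ∀ l, l ≠ l0 → D (j l) = 0 := fun l hl => heD _ (h2 l hl)
      have h4 : ∑ l, D (j l) = D (j l0) := by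
        apply Finset.sum_eq_single l0
        · intro l _ hl; exact h3 l hl
        · intro hcon; exact absurd (Finset.mem_univ _) hcon
      have h5 : ∑ l1, |D (j l1)| ^ r * ∏ l ∈ Finset.univ.erase l1, e (j l) =
          |D (j l0)| ^ r * ∏ l ∈ Finset.univ.erase l0, e (j l) := by
        apply Finset.sum_eq_single l0
        · intro l _ hl; rw [h3 l hl, abs_zero, Real.zero_rpow hr0.ne', zero_mul]
        · intro hcon; exact absurd (Finset.mem_univ _) hcon
      rw [h4, h5]
      have h6 : ∏ l ∈ Finset.univ.erase l0, e (j l) ≤ 1 :=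
        Finset.prod_le_one (fun l _ => (he01 _).1) (fun l _ => (he01 _).2)
      have h7 : 0 ≤ |D (j l0)| ^ r := by positivity
      nlinarith
    · push Not at h
      have h5 : ∑ l1, |D (j l1)| ^ r * ∏ l ∈ Finset.univ.erase l1, e (j l) = 0 := by
        apply Finset.sum_eq_zero
        intro l1 _
        by_cases hD1 : D (j l1) = 0
        · rw [hD1, abs_zero, Real.zero_rpow hr0.ne', zero_mul]
        · obtain ⟨l, hl, hel⟩ := h l1 hD1
          rw [Finset.prod_eq_zero (Finset.mem_erase.2 ⟨hl, Finset.mem_univ _⟩) hel, mul_zero]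
      rw [h5]
      positivity
  -- bad samples
  set ex : ι → J → ℝ := fun x' a => if U x' a ≠ 0 then 1 else 0 with hex
  have hex0 : ∀ x' a, 0 ≤ ex x' a := by
    intro x' a; rw [hex]; simp only; split_ifs <;> norm_num
  have hbad : ∀ (j : Fin t → J) (l0 : Fin t), ¬ Good U q j →
      1 ≤ ∑ x', (A ^ q)⁻¹ * ∏ l ∈ Finset.univ.erase l0, (1 + A * ex x' (j l)) := by
    intro j l0 hj
    rw [Good] at hj
    push Not at hj
    obtain ⟨x', hx'⟩ := hj
    have hterm : 1 ≤ (A ^ q)⁻¹ * ∏ l ∈ Finset.univ.erase l0, (1 + A * ex x' (j l)) := by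
      have hcard : q ≤ ((Finset.univ.erase l0).filter (fun l => U x' (j l) ≠ 0)).card := by
        have h1 : {l | U x' (j l) ≠ 0}.ncard =
            (Finset.univ.filter (fun l => U x' (j l) ≠ 0)).card := by
          rw [Set.ncard_eq_toFinset_card']
          congr 1
          ext l; simp
        rw [h1] at hx'
        have h2 : (Finset.univ.filter (fun l => U x' (j l) ≠ 0)).card ≤
            ((Finset.univ.erase l0).filter (fun l => U x' (j l) ≠ 0)).card + 1 := by
          have h3 : Finset.univ.filter (fun l => U x' (j l) ≠ 0) ⊆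
              insert l0 ((Finset.univ.erase l0).filter (fun l => U x' (j l) ≠ 0)) := by
            intro l hl
            simp only [Finset.mem_filter, Finset.mem_univ, true_and, Finset.mem_insert,
              Finset.mem_erase, ne_eq, and_true] at hl ⊢
            by_cases hll : l = l0
            · exact Or.inl hll
            · exact Or.inr ⟨hll, hl⟩
          exact (Finset.card_le_card h3).trans (Finset.card_insert_le _ _)
        omega
      have h4 : A ^ q ≤ ∏ l ∈ Finset.univ.erase l0, (1 + A * ex x' (j l)) := by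
        calc A ^ q ≤ A ^ ((Finset.univ.erase l0).filter (fun l => U x' (j l) ≠ 0)).card :=
              pow_le_pow_right₀ hA hcard
          _ = ∏ l ∈ (Finset.univ.erase l0).filter (fun l => U x' (j l) ≠ 0), A := by
              rw [Finset.prod_const]
          _ ≤ ∏ l ∈ (Finset.univ.erase l0).filter (fun l => U x' (j l) ≠ 0),
                (1 + A * ex x' (j l)) := by
              apply Finset.prod_le_prod (fun _ _ => hA0.le)
              intro l hl
              have : ex x' (j l) = 1 := by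
                rw [hex]; simp only [if_pos (Finset.mem_filter.1 hl).2]
              rw [this]; linarith
          _ ≤ ∏ l ∈ Finset.univ.erase l0, (1 + A * ex x' (j l)) := by
              apply Finset.prod_le_prod_of_subset_of_one_le (Finset.filter_subset _ _)
              · intro l _
                have := hex0 x' (j l)
                positivity
              · intro l _ _
                have := hex0 x' (j l)
                nlinarith
      rw [inv_mul_eq_div, le_div_iff₀ (by positivity), one_mul]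
      exact h4
    refine hterm.trans ?_
    apply Finset.single_le_sum (f := fun x' => (A ^ q)⁻¹ *
      ∏ l ∈ Finset.univ.erase l0, (1 + A * ex x' (j l))) _ (Finset.mem_univ x')
    intro x'' _
    apply mul_nonneg (by positivity)
    apply Finset.prod_nonneg
    intro l _
    have := hex0 x'' (j l)
    positivity
  -- combine
  have hmain : ∀ j : Fin t → J, β ^ r * (∑ l0, (|D (j l0)| ^ r *
      ∏ l ∈ Finset.univ.erase l0, e (j l) - |D (j l0)| ^ r *
        ∑ x', (A ^ q)⁻¹ * ∏ l ∈ Finset.univ.erase l0, (1 + A * ex x' (j l)))) ≤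
      |V U q β x j - V U q β y j| ^ r := by
    intro j
    have hβr : 0 ≤ β ^ r := Real.rpow_nonneg hβ _
    rw [V, V]
    split_ifs with hg
    · rw [← mul_sub, ← Finset.sum_sub_distrib, abs_mul, abs_of_nonneg hβ,
        Real.mul_rpow hβ (abs_nonneg _)]
      apply mul_le_mul_of_nonneg_left _ hβr
      refine le_trans ?_ (hpt j)
      apply Finset.sum_le_sum
      intro l0 _
      have h1 : 0 ≤ |D (j l0)| ^ r * ∑ x', (A ^ q)⁻¹ *
          ∏ l ∈ Finset.univ.erase l0, (1 + A * ex x' (j l)) := by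
        apply mul_nonneg (by positivity)
        apply Finset.sum_nonneg
        intro x'' _
        apply mul_nonneg (by positivity)
        apply Finset.prod_nonneg
        intro l _
        have := hex0 x'' (j l)
        positivity
      linarith
    · simp only [sub_self, abs_zero, Real.zero_rpow hr0.ne']
      apply mul_nonpos_of_nonneg_of_nonpos hβr
      apply Finset.sum_nonpos
      intro l0 _
      have h1 := hbad j l0 hg
      have h2 : ∏ l ∈ Finset.univ.erase l0, e (j l) ≤ 1 :=
        Finset.prod_le_one (fun l _ => (he01 _).1) (fun l _ => (he01 _).2)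
      have h3 : 0 ≤ |D (j l0)| ^ r := by positivity
      have h4 : |D (j l0)| ^ r * ∏ l ∈ Finset.univ.erase l0, e (j l) ≤ |D (j l0)| ^ r * 1 :=
        mul_le_mul_of_nonneg_left h2 h3
      have h5 := mul_le_mul_of_nonneg_left h1 h3
      linarith
  refine le_trans ?_ (Finset.sum_le_sum (fun j _ => hmain j))
  rw [← Finset.mul_sum, Finset.sum_comm]
  have hcomp : ∀ l0 : Fin t, S * c ^ (t - 1) / 2 ≤ ∑ j : Fin t → J, (|D (j l0)| ^ r *
      ∏ l ∈ Finset.univ.erase l0, e (j l) - |D (j l0)| ^ r *
        ∑ x', (A ^ q)⁻¹ * ∏ l ∈ Finset.univ.erase l0, (1 + A * ex x' (j l))) := by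
    intro l0
    rw [Finset.sum_sub_distrib]
    have h1 : ∑ j : Fin t → J, |D (j l0)| ^ r * ∏ l ∈ Finset.univ.erase l0, e (j l) =
        S * (∑ a, e a) ^ (t - 1) := sum_pi_single l0 (fun a => |D a| ^ r) e
    have h2 : ∑ j : Fin t → J, |D (j l0)| ^ r *
        ∑ x', (A ^ q)⁻¹ * ∏ l ∈ Finset.univ.erase l0, (1 + A * ex x' (j l)) =
        ∑ x', (A ^ q)⁻¹ * (S * (∑ a, (1 + A * ex x' a)) ^ (t - 1)) := by
      have h3 : ∀ j : Fin t → J, |D (j l0)| ^ r *
        ∑ x', (A ^ q)⁻¹ * ∏ l ∈ Finset.univ.erase l0, (1 + A * ex x' (j l)) =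
          ∑ x', (A ^ q)⁻¹ * (|D (j l0)| ^ r *
            ∏ l ∈ Finset.univ.erase l0, (1 + A * ex x' (j l))) := by
        intro j
        rw [Finset.mul_sum]
        apply Finset.sum_congr rfl
        intro x' _
        ring
      simp_rw [h3]
      rw [Finset.sum_comm]
      apply Finset.sum_congr rfl
      intro x' _
      rw [← Finset.mul_sum]
      congr 1
      exact sum_pi_single l0 (fun a => |D a| ^ r) (fun a => 1 + A * ex x' a)
    rw [h1, h2]
    have ht1 : (0:ℝ) ≤ ((t - 1 : ℕ) : ℝ) := Nat.cast_nonneg _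
    -- first term
    have hex_sum : ∀ x', ∑ a, ex x' a = ((Finset.univ.filter (fun a => U x' a ≠ 0)).card : ℝ) := by
      intro x'
      simp only [hex, Finset.sum_boole]
    have h4 : c ^ (t - 1) * (1 - 2 / A) ≤ (∑ a, e a) ^ (t - 1) := by
      have h5 : c - (∑ a, ex x a + ∑ a, ex y a) ≤ ∑ a, e a := by
        have : c = ∑ _a : J, (1:ℝ) := by simp [hc]
        rw [this, ← Finset.sum_add_distrib, ← Finset.sum_sub_distrib]
        apply Finset.sum_le_sum
        intro a _
        rw [he, hex]
        simp only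
        by_cases hx0 : U x a = 0 <;> by_cases hy0 : U y a = 0 <;> simp [hx0, hy0]
      set w := (∑ a, ex x a + ∑ a, ex y a) / c with hw
      have hw0 : 0 ≤ w := by
        rw [hw]
        apply div_nonneg _ hc0.le
        apply add_nonneg <;> exact Finset.sum_nonneg (fun a _ => hex0 _ a)
      have h6 : ((t - 1 : ℕ) : ℝ) * w ≤ 2 / A := by
        rw [hw, hex_sum, hex_sum, le_div_iff₀ hA0, mul_div_assoc', div_mul_eq_mul_div,
          div_le_iff₀ hc0]
        have := hsparse x
        have := hsparse y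
        nlinarith
      by_cases hw2 : w ≤ 1
      · have h7 : c * (1 - w) ≤ ∑ a, e a := by
          refine le_trans (le_of_eq ?_) h5
          rw [hw]; field_simp
        have h8 : 0 ≤ c * (1 - w) := mul_nonneg hc0.le (by linarith)
        calc c ^ (t - 1) * (1 - 2 / A) ≤ c ^ (t - 1) * (1 - ((t - 1 : ℕ) : ℝ) * w) := by
              apply mul_le_mul_of_nonneg_left _ (by positivity)
              linarith
          _ ≤ c ^ (t - 1) * (1 - w) ^ (t - 1) := by
              apply mul_le_mul_of_nonneg_left _ (by positivity)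
              have := one_add_mul_le_pow (a := -w) (by linarith) (t - 1)
              calc 1 - ((t - 1 : ℕ) : ℝ) * w = 1 + ((t - 1 : ℕ) : ℝ) * (-w) := by ring
                _ ≤ (1 + -w) ^ (t - 1) := this
                _ = _ := by ring_nf
          _ = (c * (1 - w)) ^ (t - 1) := (mul_pow _ _ _).symm
          _ ≤ _ := pow_le_pow_left₀ h8 h7 _
      · push Not at hw2
        -- then `t - 1 = 0` or `2 / A ≥ 1`
        rcases Nat.eq_zero_or_pos (t - 1) with h0 | h0
        · rw [h0]; simp; positivity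
        · have h9 : (1:ℝ) ≤ ((t - 1 : ℕ) : ℝ) := by exact_mod_cast h0
          have h10 : 1 ≤ 2 / A := by nlinarith
          have h11 : c ^ (t - 1) * (1 - 2 / A) ≤ 0 :=
            mul_nonpos_of_nonneg_of_nonpos (by positivity) (by linarith)
          have h12 : 0 ≤ ∑ a, e a := Finset.sum_nonneg (fun a _ => (he01 a).1)
          exact h11.trans (by positivity)
    have h5 : ∀ x', (∑ a, (1 + A * ex x' a)) ^ (t - 1) ≤ 3 * c ^ (t - 1) := by
      intro x'
      have h6 : ∑ a, (1 + A * ex x' a) = c * (1 + A * (∑ a, ex x' a) / c) := by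
        rw [Finset.sum_add_distrib, ← Finset.mul_sum]
        simp only [Finset.sum_const, Finset.card_univ, nsmul_eq_mul, mul_one]
        rw [← hc]
        field_simp
      have h7 : 0 ≤ A * (∑ a, ex x' a) / c := by
        apply div_nonneg _ hc0.le
        exact mul_nonneg hA0.le (Finset.sum_nonneg (fun a _ => hex0 _ a))
      rw [h6, mul_pow, mul_comm]
      apply mul_le_mul_of_nonneg_right _ (by positivity)
      have h8 : (1 + A * (∑ a, ex x' a) / c) ^ (t - 1) ≤
          Real.exp (((t - 1 : ℕ) : ℝ) * (A * (∑ a, ex x' a) / c)) := by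
        generalize A * (∑ a, ex x' a) / c = w' at h7 ⊢
        rw [mul_comm ((t - 1 : ℕ) : ℝ) w', Real.exp_mul, Real.rpow_natCast]
        apply pow_le_pow_left₀ (by positivity)
        have := Real.add_one_le_exp w'
        linarith
      have h9 : ((t - 1 : ℕ) : ℝ) * (A * (∑ a, ex x' a) / c) ≤ 1 := by
        rw [hex_sum, mul_div_assoc', div_le_one hc0]
        have := hsparse x'
        nlinarith
      have h10 : Real.exp (((t - 1 : ℕ) : ℝ) * (A * (∑ a, ex x' a) / c)) ≤ Real.exp 1 :=
        Real.exp_le_exp.2 h9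
      have h11 := Real.exp_one_lt_d9
      linarith
    have h6 : ∑ x' : ι, (A ^ q)⁻¹ * (S * (∑ a, (1 + A * ex x' a)) ^ (t - 1)) ≤
        (Fintype.card ι : ℝ) * ((A ^ q)⁻¹ * (S * (3 * c ^ (t - 1)))) := by
      calc _ ≤ ∑ x' : ι, (A ^ q)⁻¹ * (S * (3 * c ^ (t - 1))) := by
            apply Finset.sum_le_sum
            intro x' _
            apply mul_le_mul_of_nonneg_left _ (by positivity)
            exact mul_le_mul_of_nonneg_left (h5 x') hS0
        _ = _ := by rw [Finset.sum_const, Finset.card_univ, nsmul_eq_mul]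
    have h7 : S * (c ^ (t - 1) * (1 - 2 / A)) ≤ S * (∑ a, e a) ^ (t - 1) :=
      mul_le_mul_of_nonneg_left h4 hS0
    have h8 : 0 ≤ S * c ^ (t - 1) := by positivity
    nlinarith [mul_le_mul_of_nonneg_left hq h8]
  calc β ^ r * (t * c ^ (t - 1)) * S / 2 = β ^ r * ∑ l0 : Fin t, S * c ^ (t - 1) / 2 := by
        rw [Finset.sum_const, Finset.card_univ, Fintype.card_fin, nsmul_eq_mul]; ring
    _ ≤ _ := by
        apply mul_le_mul_of_nonneg_left _ (Real.rpow_nonneg hβ _)
        exact Finset.sum_le_sum (fun l0 _ => hcomp l0)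

end

end Vale.Agent.P249.Sub
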