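import Mathlib
import Vale.Agent.P249.Levels
import Vale.Agent.P249.Sparse

/-!
# Summation over the windows
-/

namespace Vale.Agent.P249.Sub

open Finset

lemma geom_sum_le {W : ℕ} (hW : 0 < W) (T : Finset ℤ) :
    ∀ b : ℤ, (∀ k ∈ T, k ≤ b) → ∑ k ∈ T, (2:ℝ) ^ (k * (W:ℤ)) ≤ 2 * 2 ^ (b * (W:ℤ)) := by
  induction T using Finset.induction_on_max with
  | empty => intro b _; rw [Finset.sum_empty]; positivity
  | insert a s hmax ih =>
    intro b hb
    have ha : a ∉ s := fun h => lt_irrefl _ (hmax a h)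
    rw [Finset.sum_insert ha]
    have h1 := ih (a - 1) (fun k hk => by have := hmax k hk; omega)
    have h2 : 2 * (2:ℝ) ^ ((a - 1) * (W:ℤ)) ≤ 2 ^ (a * (W:ℤ)) := by
      have e1 : (2:ℝ) * 2 ^ ((a - 1) * (W:ℤ)) = 2 ^ ((a - 1) * (W:ℤ) + 1) := by
        rw [two_zpow_succ]
      rw [e1]
      apply zpow_le_zpow_right₀ (by norm_num)
      have : (1:ℤ) ≤ W := by exact_mod_cast hW
      nlinarith
    have h3 : (2:ℝ) ^ (a * (W:ℤ)) ≤ 2 ^ (b * (W:ℤ)) := by
      apply zpow_le_zpow_right₀ (by norm_num)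
      exact mul_le_mul_of_nonneg_right (hb a (Finset.mem_insert_self a s)) (by positivity)
    linarith

lemma geom_sum_le' {W : ℕ} (hW : 0 < W) (T : Finset ℤ) {c : ℝ} (hc : 0 ≤ c)
    (h : ∀ k ∈ T, (2:ℝ) ^ (k * (W:ℤ)) ≤ c) : ∑ k ∈ T, (2:ℝ) ^ (k * (W:ℤ)) ≤ 2 * c := by
  rcases T.eq_empty_or_nonempty with rfl | hne
  · simp [hc]
  · have h1 := geom_sum_le hW T (T.max' hne) (fun k hk => T.le_max' k hk)
    have h2 := h _ (T.max'_mem hne)
    linarith

lemma card_mid_le {W : ℕ} (hW : 0 < W) (T : Finset ℤ) (δ : ℝ)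
    (h1 : ∀ k ∈ T, (2:ℝ) ^ (k * (W:ℤ)) < δ) (h2 : ∀ k ∈ T, δ < (2:ℝ) ^ ((k + 4) * (W:ℤ))) :
    T.card ≤ 4 := by
  rcases T.eq_empty_or_nonempty with rfl | hne
  · simp
  · have hsub : T ⊆ Finset.Ico (T.min' hne) (T.min' hne + 4) := by
      intro k hk
      rw [Finset.mem_Ico]
      refine ⟨T.min'_le k hk, ?_⟩
      have h3 := (h1 k hk).trans (h2 _ (T.min'_mem hne))
      rw [zpow_lt_zpow_iff_right₀ (by norm_num)] at h3
      have hW' : (0:ℤ) < W := by exact_mod_cast hW
      exact lt_of_mul_lt_mul_right h3 hW'.le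
    have := Finset.card_le_card hsub
    rw [Int.card_Ico] at this
    omega

section

variable {ι κ : Type*} [Fintype ι] [Fintype κ]
variable {r M : ℝ} (hr : 1 ≤ r) (hM : 3 / 2 ≤ M) (X : ι → κ → ℝ) {W : ℕ} (hW : 0 < W)

/-- Heights of the levels. -/
noncomputable def tau (r M : ℝ) (W : ℕ) (k : ℤ) (i : ℕ) : ℝ :=
  bB r M * 2 ^ ((k + 4 - i) * (W : ℤ))

include hr hM in
lemma tau_pos (k : ℤ) (i : ℕ) : 0 < tau r M W k i := by
  have := bB_pos (r := r) (M := M) (by linarith) (by linarith)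
  rw [tau]; positivity

include hr hM in
lemma tau_anti (k : ℤ) : Antitone (tau r M W k) := by
  have hb := bB_pos (r := r) (M := M) (by linarith) (by linarith)
  intro i j hij
  rw [tau, tau]
  apply mul_le_mul_of_nonneg_left _ hb.le
  apply zpow_le_zpow_right₀ (by norm_num)
  apply mul_le_mul_of_nonneg_right _ (by positivity)
  have : (i:ℤ) ≤ j := by exact_mod_cast hij
  linarith

include hr hM in
lemma th_nonneg (k : ℤ) (L i : ℕ) : 0 ≤ th (tau r M W k) L i := by
  rw [th]
  split_ifs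
  · exact (tau_pos hr hM k (i + 1)).le
  · exact le_rfl

/-- The feature of the window `k` at the level `i`. -/
noncomputable def UU (r M : ℝ) (X : ι → κ → ℝ) (W L i : ℕ) (k : ℤ) :
    ι → Fin W × (ι × Option κ) → ℝ :=
  U r M X W k (tau r M W k i) (th (tau r M W k) L i)

/-- Lipschitz constant of the sum over the windows. -/
noncomputable def cS (r M : ℝ) : ℝ := 7 * bL r M * M + 4 * (bL r M * (1 + 8 * M)) + 4 * bB r M

include hr hM hW in
lemma sumA (hlog : 2 * Real.log (Fintype.card ι) ≤ M * W) (L i : ℕ) (T : Finset ℤ) (x y : ι) :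
    ∑ k ∈ T, N r (fun p => UU r M X W L i k x p - UU r M X W L i k y p) ≤
      cS r M * dist' r X x y := by
  classical
  have hr0 : 0 < r := by linarith
  have hM0 : 0 < M := by linarith
  have hbL := bL_pos hr0 hM0
  have hbB := bB_pos hr0 hM0
  have hd := isMet_dist' hr X
  set δ := dist' r X x y with hδ
  have hδ0 : 0 ≤ δ := hd.nonneg x y
  have hWr : (0:ℝ) < W := by exact_mod_cast hW
  -- split
  rw [← Finset.sum_filter_add_sum_filter_not T (fun k : ℤ => δ ≤ 2 ^ (k * (W:ℤ)))]
  have h1 : ∑ k ∈ T.filter (fun k : ℤ => δ ≤ 2 ^ (k * (W:ℤ))),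
      N r (fun p => UU r M X W L i k x p - UU r M X W L i k y p) ≤ 7 * bL r M * M * δ := by
    have h2 : ∀ k ∈ T.filter (fun k : ℤ => δ ≤ 2 ^ (k * (W:ℤ))),
        N r (fun p => UU r M X W L i k x p - UU r M X W L i k y p) ≤
        14 * bL r M * δ * (1 / W * ∑ j : Fin W, gr (dist' r X) (k * W + ((j : ℕ) : ℤ)) x) :=
      fun k hk => U_small hr hM X hW k _ _ x y (Finset.mem_filter.1 hk).2
    refine (Finset.sum_le_sum h2).trans ?_
    rw [← Finset.mul_sum, ← Finset.mul_sum]
    have h3 := telescope_window (lz (dist' r X) x) (lz_mono hd x) (lz_nonneg hd x) (lz_le hd x) W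
      (T.filter (fun k : ℤ => δ ≤ 2 ^ (k * (W:ℤ))))
    have h4 : ∑ k ∈ T.filter (fun k : ℤ => δ ≤ 2 ^ (k * (W:ℤ))), ∑ j : Fin W,
        gr (dist' r X) (k * W + ((j : ℕ) : ℤ)) x ≤ Real.log (Fintype.card ι) := by
      refine le_trans (le_of_eq ?_) h3
      apply Finset.sum_congr rfl
      intro k _
      exact Fin.sum_univ_eq_sum_range
        (fun j : ℕ => lz (dist' r X) x (k * W + j + 1) - lz (dist' r X) x (k * W + j)) W
    have h5 : 0 ≤ 14 * bL r M * δ := by positivity
    calc _ ≤ 14 * bL r M * δ * (1 / W * Real.log (Fintype.card ι)) := by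
          apply mul_le_mul_of_nonneg_left _ h5
          exact mul_le_mul_of_nonneg_left h4 (by positivity)
      _ ≤ 14 * bL r M * δ * (M / 2) := by
          apply mul_le_mul_of_nonneg_left _ h5
          rw [one_div, inv_mul_le_iff₀ hWr]
          linarith
      _ = _ := by ring
  -- the other part
  set T' := T.filter (fun k : ℤ => ¬ δ ≤ 2 ^ (k * (W:ℤ))) with hT'
  rw [← Finset.sum_filter_add_sum_filter_not T' (fun k : ℤ => 2 ^ ((k + 4) * (W:ℤ)) ≤ δ)]
  have h6 : ∑ k ∈ T'.filter (fun k : ℤ => 2 ^ ((k + 4) * (W:ℤ)) ≤ δ),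
      N r (fun p => UU r M X W L i k x p - UU r M X W L i k y p) ≤ 4 * bB r M * δ := by
    have h7 : ∀ k ∈ T'.filter (fun k : ℤ => 2 ^ ((k + 4) * (W:ℤ)) ≤ δ),
        N r (fun p => UU r M X W L i k x p - UU r M X W L i k y p) ≤
        2 * bB r M * (2 ^ (4 * (W:ℤ)) * 2 ^ (k * (W:ℤ))) := by
      intro k _
      have e1 := U_bound hr hM X hW k (tau_pos hr hM (W := W) k i).le
        (th_nonneg hr hM (W := W) k L i) x
      have e2 := U_bound hr hM X hW k (tau_pos hr hM (W := W) k i).le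
        (th_nonneg hr hM (W := W) k L i) y
      have e3 : (2:ℝ) ^ ((k + 4) * (W:ℤ)) = 2 ^ (4 * (W:ℤ)) * 2 ^ (k * (W:ℤ)) := by
        rw [← zpow_add₀ (by norm_num)]; congr 1; ring
      rw [e3] at e1 e2
      have e4 := N_add_le hr (fun p => UU r M X W L i k x p) (fun p => - UU r M X W L i k y p)
      rw [N_neg] at e4
      simp only [← sub_eq_add_neg] at e4
      refine e4.trans ?_
      rw [UU]
      linarith
    refine (Finset.sum_le_sum h7).trans ?_
    rw [← Finset.mul_sum, ← Finset.mul_sum]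
    have h8 : ∑ k ∈ T'.filter (fun k : ℤ => 2 ^ ((k + 4) * (W:ℤ)) ≤ δ), (2:ℝ) ^ (k * (W:ℤ)) ≤
        2 * (δ / 2 ^ (4 * (W:ℤ))) := by
      apply geom_sum_le' hW _ (by positivity)
      intro k hk
      have h9 := (Finset.mem_filter.1 hk).2
      rw [le_div_iff₀ (by positivity)]
      refine le_trans (le_of_eq ?_) h9
      rw [← zpow_add₀ (by norm_num)]; congr 1; ring
    calc _ ≤ 2 * bB r M * (2 ^ (4 * (W:ℤ)) * (2 * (δ / 2 ^ (4 * (W:ℤ))))) := by
          apply mul_le_mul_of_nonneg_left _ (by positivity)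
          exact mul_le_mul_of_nonneg_left h8 (by positivity)
      _ = _ := by field_simp; ring
  have h10 : ∑ k ∈ T'.filter (fun k : ℤ => ¬ 2 ^ ((k + 4) * (W:ℤ)) ≤ δ),
      N r (fun p => UU r M X W L i k x p - UU r M X W L i k y p) ≤
      4 * (bL r M * (1 + 8 * M)) * δ := by
    have h11 : ∀ k ∈ T'.filter (fun k : ℤ => ¬ 2 ^ ((k + 4) * (W:ℤ)) ≤ δ),
        N r (fun p => UU r M X W L i k x p - UU r M X W L i k y p) ≤
        bL r M * (1 + 8 * M) * δ := fun k _ => U_lip hr hM X hW hlog k _ _ x y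
    refine (Finset.sum_le_sum h11).trans ?_
    rw [Finset.sum_const, nsmul_eq_mul]
    have h12 : (T'.filter (fun k : ℤ => ¬ 2 ^ ((k + 4) * (W:ℤ)) ≤ δ)).card ≤ 4 := by
      apply card_mid_le hW _ δ
      · intro k hk
        have := (Finset.mem_filter.1 (Finset.mem_filter.1 hk).1).2
        exact not_le.1 this
      · intro k hk
        exact not_le.1 (Finset.mem_filter.1 hk).2
    have h13 : ((T'.filter (fun k : ℤ => ¬ 2 ^ ((k + 4) * (W:ℤ)) ≤ δ)).card : ℝ) ≤ 4 := by
      exact_mod_cast h12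
    have h14 : 0 ≤ bL r M * (1 + 8 * M) * δ := by positivity
    nlinarith
  rw [cS]
  linarith

/-- The supremum bound of the sum over the windows. -/
noncomputable def cQ (r M : ℝ) (W q h : ℕ) : ℝ :=
  16 * q * bB r M * 2 ^ (6 * W) + 14 * q * (4 * bB r M * 2 ^ (6 * W) * ((h + 1) * M) + 1)

include hr hM hW in
lemma sumB (hlog : 2 * Real.log (Fintype.card ι) ≤ M * W) (L i : ℕ) (T : Finset ℤ) (x y : ι)
    {t q h : ℕ} {β : ℝ} (hβ : 0 ≤ β)
    (hβτ : ∀ k, β * tau r M W k i ≤ 2 * bB r M * 2 ^ ((k + 6) * (W:ℤ)))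
    {c : ℝ} (hβc : β ≤ c) (hh : (T.card : ℝ) * (c * bL r M) ≤ 2 ^ h)
    (j : Fin t → Fin W × (ι × Option κ)) :
    ∑ k ∈ T, |V (UU r M X W L i k) q β x j - V (UU r M X W L i k) q β y j| ≤
      cQ r M W q h * dist' r X x y := by
  classical
  have hr0 : 0 < r := by linarith
  have hM0 : 0 < M := by linarith
  have hbL := bL_pos hr0 hM0
  have hbB := bB_pos hr0 hM0
  have hd := isMet_dist' hr X
  set d := dist' r X with hdd
  set δ := d x y with hδ
  have hδ0 : 0 ≤ δ := hd.nonneg x y
  have hWr : (0:ℝ) < W := by exact_mod_cast hW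
  have hq0 : (0:ℝ) ≤ q := Nat.cast_nonneg q
  rw [← Finset.sum_filter_add_sum_filter_not T (fun k : ℤ => δ ≤ 2 ^ (k * (W:ℤ)))]
  -- the low part
  have hlow : ∑ k ∈ T.filter (fun k : ℤ => ¬ δ ≤ 2 ^ (k * (W:ℤ))),
      |V (UU r M X W L i k) q β x j - V (UU r M X W L i k) q β y j| ≤
      16 * q * bB r M * 2 ^ (6 * W) * δ := by
    have h1 : ∀ k ∈ T.filter (fun k : ℤ => ¬ δ ≤ 2 ^ (k * (W:ℤ))),
        |V (UU r M X W L i k) q β x j - V (UU r M X W L i k) q β y j| ≤
        8 * q * bB r M * 2 ^ (6 * W) * 2 ^ (k * (W:ℤ)) := by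
      intro k _
      have hτ := (tau_pos hr hM (W := W) k i).le
      have e1 := V_sub_abs (UU r M X W L i k) q hβ (c := 2 * tau r M W k i) (by positivity) x y
        (fun a => by
          have f1 : |UU r M X W L i k x a| ≤ tau r M W k i :=
            U_abs (M := M) hr X hW k hτ (th_nonneg hr hM (W := W) k L i) x a
          have f2 : |UU r M X W L i k y a| ≤ tau r M W k i :=
            U_abs (M := M) hr X hW k hτ (th_nonneg hr hM (W := W) k L i) y a
          have f3 := abs_sub (UU r M X W L i k x a) (UU r M X W L i k y a)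
          linarith) j
      refine e1.trans ?_
      have e2 := hβτ k
      have e3 : (2:ℝ) ^ ((k + 6) * (W:ℤ)) = 2 ^ (6 * W) * 2 ^ (k * (W:ℤ)) := by
        rw [← zpow_natCast, ← zpow_add₀ (by norm_num)]; congr 1; push_cast; ring
      rw [e3] at e2
      calc 2 * q * (β * (2 * tau r M W k i)) = 4 * q * (β * tau r M W k i) := by ring
        _ ≤ 4 * q * (2 * bB r M * (2 ^ (6 * W) * 2 ^ (k * (W:ℤ)))) := by
            apply mul_le_mul_of_nonneg_left e2 (by positivity)
        _ = _ := by ring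
    refine (Finset.sum_le_sum h1).trans ?_
    rw [← Finset.mul_sum]
    have h2 : ∑ k ∈ T.filter (fun k : ℤ => ¬ δ ≤ 2 ^ (k * (W:ℤ))), (2:ℝ) ^ (k * (W:ℤ)) ≤ 2 * δ :=
      geom_sum_le' hW _ hδ0 (fun k hk => (not_le.1 (Finset.mem_filter.1 hk).2).le)
    calc _ ≤ 8 * q * bB r M * 2 ^ (6 * W) * (2 * δ) :=
          mul_le_mul_of_nonneg_left h2 (by positivity)
      _ = _ := by ring
  -- the high part
  have hhigh : ∑ k ∈ T.filter (fun k : ℤ => δ ≤ 2 ^ (k * (W:ℤ))),
      |V (UU r M X W L i k) q β x j - V (UU r M X W L i k) q β y j| ≤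
      14 * q * (4 * bB r M * 2 ^ (6 * W) * ((h + 1) * M) + 1) * δ := by
    set Q3 : ℝ := 4 * bB r M * 2 ^ (6 * W) with hQ3
    have hQ30 : 0 ≤ Q3 := by positivity
    have h1 : ∀ k ∈ T.filter (fun k : ℤ => δ ≤ 2 ^ (k * (W:ℤ))),
        |V (UU r M X W L i k) q β x j - V (UU r M X W L i k) q β y j| ≤
        14 * q * δ * (1 / W * ∑ l : Fin W,
          (Q3 * (2 * (lz d x (k * W + ((l : ℕ) : ℤ)) -
            lz d x (k * W + ((l : ℕ) : ℤ) - (h + 1 : ℕ)))) + c * bL r M / 2 ^ h)) := by
      intro k hk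
      have hk' := (Finset.mem_filter.1 hk).2
      have hτ := (tau_pos hr hM (W := W) k i).le
      set C := 7 * δ * (1 / W * ∑ l : Fin W, ∑ a, sg d ((2:ℝ) ^ (k * W + ((l : ℕ) : ℤ))) x a *
        (min (2 * tau r M W k i) (bL r M * d x a) / 2 ^ (k * W + ((l : ℕ) : ℤ)))) with hC
      have hC0 : 0 ≤ C := by
        rw [hC]
        apply mul_nonneg (by positivity)
        apply mul_nonneg (by positivity)
        apply Finset.sum_nonneg; intro l _
        apply Finset.sum_nonneg; intro a _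
        apply mul_nonneg (sg_pos hd _ _ _).le
        apply div_nonneg _ (by positivity)
        exact le_min (by positivity) (mul_nonneg hbL.le (hd.nonneg _ _))
      have e1 := V_sub_abs (UU r M X W L i k) q hβ hC0 x y
        (fun a => U_slope hr hM X hW k hτ _ x y hk' a) j
      refine e1.trans ?_
      have e2 : β * C ≤ 7 * δ * (1 / W * ∑ l : Fin W,
          (Q3 * (2 * (lz d x (k * W + ((l : ℕ) : ℤ)) -
            lz d x (k * W + ((l : ℕ) : ℤ) - (h + 1 : ℕ)))) + c * bL r M / 2 ^ h)) := by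
        have e3 : β * C = 7 * δ * (1 / W * ∑ l : Fin W, ∑ a,
            sg d ((2:ℝ) ^ (k * W + ((l : ℕ) : ℤ))) x a *
              (β * (min (2 * tau r M W k i) (bL r M * d x a) /
                2 ^ (k * W + ((l : ℕ) : ℤ))))) := by
          rw [hC]
          have : ∀ l : Fin W, ∑ a, sg d ((2:ℝ) ^ (k * W + ((l : ℕ) : ℤ))) x a *
              (β * (min (2 * tau r M W k i) (bL r M * d x a) /
                2 ^ (k * W + ((l : ℕ) : ℤ)))) = β * ∑ a,
              sg d ((2:ℝ) ^ (k * W + ((l : ℕ) : ℤ))) x a *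
              (min (2 * tau r M W k i) (bL r M * d x a) /
                2 ^ (k * W + ((l : ℕ) : ℤ))) := by
            intro l
            rw [Finset.mul_sum]
            apply Finset.sum_congr rfl
            intro a _; ring
          simp_rw [this]
          rw [← Finset.mul_sum]
          ring
        rw [e3]
        apply mul_le_mul_of_nonneg_left _ (by positivity)
        apply mul_le_mul_of_nonneg_left _ (by positivity)
        apply Finset.sum_le_sum
        intro l _
        set s := k * (W:ℤ) + ((l : ℕ) : ℤ) with hs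
        have hρ : (0:ℝ) < 2 ^ s := by positivity
        have hcbL : 0 ≤ c * bL r M := mul_nonneg (hβ.trans hβc) hbL.le
        have h2 : ∀ a, sg d ((2:ℝ) ^ s) x a *
            (β * (min (2 * tau r M W k i) (bL r M * d x a) / 2 ^ s)) ≤
            Q3 * (if (2:ℝ) ^ s / 2 ^ h ≤ d x a then sg d ((2:ℝ) ^ s) x a else 0) +
            sg d ((2:ℝ) ^ s) x a * (c * bL r M / 2 ^ h) := by
          intro a
          have hsg := (sg_pos hd ((2:ℝ) ^ s) x a).le
          have hda := hd.nonneg x a
          split_ifs with hc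
          · have h3 : β * (min (2 * tau r M W k i) (bL r M * d x a) / 2 ^ s) ≤ Q3 := by
              rw [mul_div_assoc', div_le_iff₀ hρ]
              calc β * min (2 * tau r M W k i) (bL r M * d x a) ≤ β * (2 * tau r M W k i) :=
                    mul_le_mul_of_nonneg_left (min_le_left _ _) hβ
                _ = 2 * (β * tau r M W k i) := by ring
                _ ≤ 2 * (2 * bB r M * 2 ^ ((k + 6) * (W:ℤ))) := by linarith [hβτ k]
                _ ≤ 2 * (2 * bB r M * (2 ^ (6 * W) * 2 ^ s)) := by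
                    apply mul_le_mul_of_nonneg_left _ (by norm_num)
                    apply mul_le_mul_of_nonneg_left _ (by positivity)
                    rw [← zpow_natCast, ← zpow_add₀ (by norm_num)]
                    apply zpow_le_zpow_right₀ (by norm_num)
                    rw [hs]
                    push_cast
                    have : (0:ℤ) ≤ ((l : ℕ) : ℤ) := by positivity
                    linarith
                _ = Q3 * 2 ^ s := by rw [hQ3]; ring
            have h4 := mul_le_mul_of_nonneg_left h3 hsg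
            have h5 : 0 ≤ sg d ((2:ℝ) ^ s) x a * (c * bL r M / 2 ^ h) := by positivity
            linarith
          · push Not at hc
            rw [mul_zero, zero_add]
            apply mul_le_mul_of_nonneg_left _ hsg
            rw [mul_div_assoc', div_le_iff₀ hρ]
            calc β * min (2 * tau r M W k i) (bL r M * d x a) ≤ β * (bL r M * d x a) :=
                  mul_le_mul_of_nonneg_left (min_le_right _ _) hβ
              _ ≤ c * (bL r M * d x a) :=
                  mul_le_mul_of_nonneg_right hβc (mul_nonneg hbL.le hda)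
              _ ≤ c * (bL r M * (2 ^ s / 2 ^ h)) := by
                  apply mul_le_mul_of_nonneg_left _ (hβ.trans hβc)
                  exact mul_le_mul_of_nonneg_left hc.le hbL.le
              _ = _ := by field_simp
        refine (Finset.sum_le_sum (fun a _ => h2 a)).trans ?_
        rw [Finset.sum_add_distrib, ← Finset.mul_sum, ← Finset.sum_mul, sum_sg hd, one_mul]
        have h6 := far_mass_lz hd s h x
        have h7 := mul_le_mul_of_nonneg_left h6 hQ30
        linarith
      calc 2 * (q:ℝ) * (β * C) ≤ 2 * q * _ := mul_le_mul_of_nonneg_left e2 (by positivity)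
        _ = _ := by ring
    refine (Finset.sum_le_sum h1).trans ?_
    rw [← Finset.mul_sum]
    have h8 : ∑ k ∈ T.filter (fun k : ℤ => δ ≤ 2 ^ (k * (W:ℤ))), (1 / (W:ℝ) * ∑ l : Fin W,
          (Q3 * (2 * (lz d x (k * W + ((l : ℕ) : ℤ)) -
            lz d x (k * W + ((l : ℕ) : ℤ) - (h + 1 : ℕ)))) + c * bL r M / 2 ^ h)) ≤
        Q3 * ((h + 1) * M) + 1 := by
      have h9 : ∀ k : ℤ, (1 / (W:ℝ) * ∑ l : Fin W,
          (Q3 * (2 * (lz d x (k * W + ((l : ℕ) : ℤ)) -
            lz d x (k * W + ((l : ℕ) : ℤ) - (h + 1 : ℕ)))) + c * bL r M / 2 ^ h)) =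
          Q3 * 2 / W * (∑ l ∈ Finset.range W, (lz d x (k * W + l) -
            lz d x (k * W + l - (h + 1 : ℕ)))) + c * bL r M / 2 ^ h := by
        intro k
        rw [Finset.sum_add_distrib, Finset.sum_const, Finset.card_univ, Fintype.card_fin,
          nsmul_eq_mul, ← Finset.mul_sum, ← Finset.mul_sum,
          Fin.sum_univ_eq_sum_range (fun l : ℕ => lz d x (k * W + (l : ℤ)) -
            lz d x (k * W + (l : ℤ) - (h + 1 : ℕ))) W]
        field_simp
      simp_rw [h9]
      rw [Finset.sum_add_distrib, ← Finset.mul_sum, Finset.sum_const, nsmul_eq_mul]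
      have h10 := telescope_window' (lz d x) (lz_mono hd x) (lz_nonneg hd x) (lz_le hd x) W (h + 1)
        (T.filter (fun k : ℤ => δ ≤ 2 ^ (k * (W:ℤ))))
      have h11 : ((T.filter (fun k : ℤ => δ ≤ 2 ^ (k * (W:ℤ)))).card : ℝ) *
          (c * bL r M / 2 ^ h) ≤ 1 := by
        have h12 : ((T.filter (fun k : ℤ => δ ≤ 2 ^ (k * (W:ℤ)))).card : ℝ) ≤ T.card := by
          exact_mod_cast Finset.card_filter_le _ _
        have hcbL : 0 ≤ c * bL r M := mul_nonneg (hβ.trans hβc) hbL.le
        rw [mul_div_assoc', div_le_one (by positivity)]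
        exact (mul_le_mul_of_nonneg_right h12 hcbL).trans hh
      have h13 : Q3 * 2 / W * (∑ k ∈ T.filter (fun k : ℤ => δ ≤ 2 ^ (k * (W:ℤ))),
          ∑ l ∈ Finset.range W, (lz d x (k * W + l) - lz d x (k * W + l - (h + 1 : ℕ)))) ≤
          Q3 * ((h + 1) * M) := by
        calc _ ≤ Q3 * 2 / W * (((h + 1 : ℕ) : ℝ) * Real.log (Fintype.card ι)) :=
              mul_le_mul_of_nonneg_left h10 (by positivity)
          _ = Q3 * ((h + 1) * ((2 * Real.log (Fintype.card ι)) / W)) := by push_cast; field_simp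
          _ ≤ Q3 * ((h + 1) * M) := by
              apply mul_le_mul_of_nonneg_left _ hQ30
              apply mul_le_mul_of_nonneg_left _ (by positivity)
              rw [div_le_iff₀ hWr]; exact hlog
      linarith
    calc _ ≤ 14 * q * δ * (Q3 * ((h + 1) * M) + 1) :=
          mul_le_mul_of_nonneg_left h8 (by positivity)
      _ = _ := by ring
  rw [cQ]
  linarith

end

end Vale.Agent.P249.Sub
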