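import Mathlib
import Vale.Agent.P249.Multi
import Vale.Agent.P249.Assemble

/-!
# Parametric form of the embedding
-/

namespace Vale.Agent.P249.Sub

open Finset

/-- Number of sampled coordinates at the level `i`. -/
noncomputable def tt (r c : ℝ) (W i : ℕ) : ℕ :=
  max 1 ⌊c / (2 ^ W * ((2:ℝ) ^ ((i + 1) * W)) ^ r)⌋₊

/-- Scaling at the level `i`. -/
noncomputable def bt (r c : ℝ) (W i : ℕ) : ℝ := (c / tt r c W i) ^ (1 / r)

lemma tt_pos (r c : ℝ) (W i : ℕ) : 1 ≤ tt r c W i := le_max_left _ _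

lemma bt_nonneg {r c : ℝ} (hc : 0 < c) (W i : ℕ) : 0 ≤ bt r c W i := by
  rw [bt]; positivity

lemma bt_rpow {r c : ℝ} (hr : 1 ≤ r) (hc : 0 < c) (W i : ℕ) :
    bt r c W i ^ r * tt r c W i = c := by
  have hr0 : 0 < r := by linarith
  have h1 : (0:ℝ) < tt r c W i := by exact_mod_cast tt_pos r c W i
  rw [bt, ← Real.rpow_mul (by positivity), one_div_mul_cancel hr0.ne', Real.rpow_one]
  field_simp

lemma bt_le {r c : ℝ} (hr : 1 ≤ r) (hc : 1 ≤ c) (W i : ℕ) : bt r c W i ≤ c := by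
  have hr0 : 0 < r := by linarith
  have h1 : (1:ℝ) ≤ tt r c W i := by exact_mod_cast tt_pos r c W i
  have h2 : c / tt r c W i ≤ c := div_le_self (by linarith) h1
  calc bt r c W i ≤ c ^ (1 / r) := Real.rpow_le_rpow (by positivity) h2 (by positivity)
    _ ≤ c ^ (1:ℝ) := Real.rpow_le_rpow_of_exponent_le hc (by
        rw [div_le_one hr0]; exact hr)
    _ = c := Real.rpow_one c

lemma tt_div_le {r c : ℝ} (hr : 1 ≤ r) (W i : ℕ) :
    c / tt r c W i ≤ (2 * 2 ^ W * (2:ℝ) ^ ((i + 1) * W)) ^ r := by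
  have hr0 : 0 < r := by linarith
  set D : ℝ := 2 ^ W * ((2:ℝ) ^ ((i + 1) * W)) ^ r with hD
  have hD0 : 0 < D := by positivity
  have h1 : (0:ℝ) < tt r c W i := by exact_mod_cast tt_pos r c W i
  have h2W : (1:ℝ) ≤ 2 * 2 ^ W := by
    have : (1:ℝ) ≤ 2 ^ W := one_le_pow₀ (by norm_num)
    linarith
  have h2 : 2 * D ≤ (2 * 2 ^ W * (2:ℝ) ^ ((i + 1) * W)) ^ r := by
    rw [Real.mul_rpow (by positivity) (by positivity), hD]
    have h3 : 2 * (2:ℝ) ^ W ≤ (2 * 2 ^ W) ^ r := by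
      calc 2 * (2:ℝ) ^ W = (2 * 2 ^ W) ^ (1:ℝ) := (Real.rpow_one _).symm
        _ ≤ _ := Real.rpow_le_rpow_of_exponent_le h2W hr
    calc 2 * (2 ^ W * ((2:ℝ) ^ ((i + 1) * W)) ^ r) =
          (2 * 2 ^ W) * ((2:ℝ) ^ ((i + 1) * W)) ^ r := by ring
      _ ≤ _ := mul_le_mul_of_nonneg_right h3 (by positivity)
  refine le_trans ?_ h2
  rw [div_le_iff₀ h1]
  have h4 : c / D ≤ 2 * tt r c W i := by
    have h5 : c / D < ⌊c / D⌋₊ + 1 := Nat.lt_floor_add_one _
    have h6 : (⌊c / D⌋₊ : ℝ) ≤ tt r c W i := by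
      exact_mod_cast le_max_right _ _
    have h7 : (1:ℝ) ≤ tt r c W i := by exact_mod_cast tt_pos r c W i
    linarith
  rw [div_le_iff₀ hD0] at h4
  linarith

lemma bt_tau {r M c : ℝ} (hr : 1 ≤ r) (hM : 3 / 2 ≤ M) (hc : 0 < c) (W i : ℕ) (k : ℤ) :
    bt r c W i * tau r M W k i ≤ 2 * bB r M * 2 ^ ((k + 6) * (W:ℤ)) := by
  have hr0 : 0 < r := by linarith
  have hM0 : 0 < M := by linarith
  have hbB := bB_pos hr0 hM0
  have h1 : bt r c W i ≤ 2 * 2 ^ W * (2:ℝ) ^ ((i + 1) * W) := by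
    calc bt r c W i ≤ ((2 * 2 ^ W * (2:ℝ) ^ ((i + 1) * W)) ^ r) ^ (1 / r) :=
          Real.rpow_le_rpow (by positivity) (tt_div_le hr W i) (by positivity)
      _ = _ := by
          rw [← Real.rpow_mul (by positivity), mul_one_div_cancel hr0.ne', Real.rpow_one]
  rw [tau]
  have h2 : (0:ℝ) ≤ bB r M * 2 ^ ((k + 4 - i) * (W : ℤ)) := by positivity
  refine (mul_le_mul_of_nonneg_right h1 h2).trans (le_of_eq ?_)
  have h3 : (2:ℝ) ^ ((k + 6) * (W:ℤ)) = 2 ^ W * 2 ^ ((i + 1) * W) * 2 ^ ((k + 4 - i) * (W : ℤ)) := by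
    rw [← zpow_natCast, ← zpow_natCast, ← zpow_add₀ (by norm_num), ← zpow_add₀ (by norm_num)]
    congr 1
    push_cast
    ring
  rw [h3]
  ring

lemma tt_sparse {r c : ℝ} (hc : 0 < c) (W i : ℕ) :
    ((tt r c W i - 1 : ℕ) : ℝ) * 2 ^ W * ((2:ℝ) ^ ((i + 1) * W)) ^ r ≤ c := by
  set D : ℝ := 2 ^ W * ((2:ℝ) ^ ((i + 1) * W)) ^ r with hD
  have hD0 : 0 < D := by positivity
  have h1 : ((tt r c W i - 1 : ℕ) : ℝ) ≤ c / D := by
    by_cases h : ⌊c / D⌋₊ ≤ 1
    · have : tt r c W i = 1 := by rw [tt]; exact max_eq_left h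
      rw [this]
      simp only [le_refl, tsub_eq_zero_of_le, Nat.cast_zero]
      positivity
    · have h0 : 1 ≤ ⌊c / D⌋₊ := by omega
      have h2 : tt r c W i = ⌊c / D⌋₊ := by rw [tt]; exact max_eq_right h0
      rw [h2]
      have h3 : ((⌊c / D⌋₊ - 1 : ℕ) : ℝ) ≤ ⌊c / D⌋₊ := by exact_mod_cast Nat.sub_le _ _
      exact h3.trans (Nat.floor_le (by positivity))
  rw [le_div_iff₀ hD0, hD] at h1
  linarith

lemma tt_last {r c : ℝ} (hr : 1 ≤ r) (hc : 0 < c) {W L : ℕ}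
    (h : c ≤ (2:ℝ) ^ ((L + 1) * W)) : tt r c W L = 1 := by
  rw [tt]
  apply max_eq_left
  have h1 : (1:ℝ) ≤ 2 ^ ((L + 1) * W) := one_le_pow₀ (by norm_num)
  have h2 : (2:ℝ) ^ ((L + 1) * W) ≤ ((2:ℝ) ^ ((L + 1) * W)) ^ r := by
    calc (2:ℝ) ^ ((L + 1) * W) = ((2:ℝ) ^ ((L + 1) * W)) ^ (1:ℝ) := (Real.rpow_one _).symm
      _ ≤ _ := Real.rpow_le_rpow_of_exponent_le h1 hr
  have h3 : (1:ℝ) ≤ 2 ^ W := one_le_pow₀ (by norm_num)
  have h4 : c / (2 ^ W * ((2:ℝ) ^ ((L + 1) * W)) ^ r) ≤ 1 := by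
    rw [div_le_one (by positivity)]
    have h5 : (0:ℝ) ≤ ((2:ℝ) ^ ((L + 1) * W)) ^ r := by positivity
    nlinarith
  have h6 := Nat.floor_le_floor h4
  rwa [Nat.floor_one] at h6

section

variable {ι κ : Type*} [Fintype ι] [Fintype κ]
variable {r M : ℝ} (hr : 1 ≤ r) (hM : 3 / 2 ≤ M) (X : ι → κ → ℝ) {W : ℕ} (hW : 0 < W)

open scoped Classical in
include hr hM hW in
lemma UU_card {L i : ℕ} (hi : i < L) (k : ℤ) (x : ι) :
    ((Finset.univ.filter (fun a => UU r M X W L i k x a ≠ 0)).card : ℝ) ≤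
      ((2:ℝ) ^ ((i + 1) * W)) ^ r := by
  have hr0 : 0 < r := by linarith
  have hM0 : 0 < M := by linarith
  have hbB := bB_pos hr0 hM0
  have hθ : th (tau r M W k) L i = tau r M W k (i + 1) := by rw [th, if_pos hi]
  have h1 := U_card hr hM X hW k (tau_pos hr hM (W := W) k i).le
    (tau_pos hr hM (W := W) k (i + 1)) x
    (Finset.univ.filter (fun a => UU r M X W L i k x a ≠ 0)) (by
      intro p hp
      have := (Finset.mem_filter.1 hp).2
      rwa [UU, hθ] at this)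
  refine h1.trans (le_of_eq ?_)
  congr 1
  rw [tau, div_eq_iff (by positivity)]
  have h2 : (2:ℝ) ^ ((k + 4) * (W:ℤ)) =
      2 ^ ((i + 1) * W) * 2 ^ ((k + 4 - ((i + 1 : ℕ) : ℤ)) * (W:ℤ)) := by
    rw [← zpow_natCast, ← zpow_add₀ (by norm_num)]
    congr 1
    push_cast
    ring
  rw [h2]
  ring

/-- The random scalar feature. -/
noncomputable def FF (r M : ℝ) (X : ι → κ → ℝ) (W L q : ℕ) (T : Finset ℤ) (i t : ℕ) (β : ℝ) (x : ι)
    (ω : (Fin t → Fin W × (ι × Option κ)) × (T → Bool)) : ℝ :=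
  ∑ k : T, bs (ω.2 k) * V (UU r M X W L i k) q β x ω.1

lemma FF_sub (L q : ℕ) (T : Finset ℤ) (i t : ℕ) (β : ℝ) (x y : ι)
    (ω : (Fin t → Fin W × (ι × Option κ)) × (T → Bool)) :
    FF r M X W L q T i t β x ω - FF r M X W L q T i t β y ω =
      ∑ k : T, bs (ω.2 k) * (V (UU r M X W L i k) q β x ω.1 -
        V (UU r M X W L i k) q β y ω.1) := by
  rw [FF, FF, ← Finset.sum_sub_distrib]
  apply Finset.sum_congr rfl
  intro k _
  ring

lemma FF_abs (L q : ℕ) (T : Finset ℤ) (i t : ℕ) (β : ℝ) (x y : ι)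
    (ω : (Fin t → Fin W × (ι × Option κ)) × (T → Bool)) :
    |FF r M X W L q T i t β x ω - FF r M X W L q T i t β y ω| ≤
      ∑ k ∈ T, |V (UU r M X W L i k) q β x ω.1 -
        V (UU r M X W L i k) q β y ω.1| := by
  rw [FF_sub, ← Finset.sum_coe_sort T]
  refine (Finset.abs_sum_le_sum_abs _ _).trans (le_of_eq ?_)
  apply Finset.sum_congr rfl
  intro k _
  rw [abs_mul, abs_bs, one_mul]

lemma card_Om (W t : ℕ) (T : Finset ℤ) :
    (Fintype.card ((Fin t → Fin W × (ι × Option κ)) × (T → Bool)) : ℝ) =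
      (Fintype.card (Fin W × (ι × Option κ)) : ℝ) ^ t *
        (Fintype.card (T → Bool) : ℝ) := by
  rw [Fintype.card_prod, Fintype.card_fun, Fintype.card_fin]
  push_cast
  rfl

include hr hM hW in
lemma FF_upper (hlog : 2 * Real.log (Fintype.card ι) ≤ M * W) (L q : ℕ) (T : Finset ℤ)
    {c : ℝ} (hc : c = Fintype.card (Fin W × (ι × Option κ))) (hc0 : 0 < c) (i : ℕ) {t : ℕ}
    (ht1 : 1 ≤ t) {β : ℝ} (hβ0 : 0 ≤ β) (hβ : β ^ r * t = c) (x y : ι) :
    ∑ ω, |FF r M X W L q T i t β x ω - FF r M X W L q T i t β y ω| ^ r ≤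
      (Fintype.card ((Fin t → Fin W × (ι × Option κ)) × (T → Bool)) : ℝ) *
        (2 * q * cS r M * dist' r X x y) ^ r := by
  have hr0 : 0 < r := by linarith
  have hd0 : 0 ≤ dist' r X x y := (isMet_dist' hr X).nonneg x y
  have hM0 : 0 < M := by linarith
  have hbL := bL_pos hr0 hM0
  have hbB := bB_pos hr0 hM0
  have hcS : 0 ≤ cS r M := by rw [cS]; positivity
  rw [card_Om, ← hc]
  set g : ℤ → (Fin t → Fin W × (ι × Option κ)) → ℝ := fun k j =>
    |V (UU r M X W L i k) q β x j - V (UU r M X W L i k) q β y j| with hg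
  have hg0 : ∀ k j, 0 ≤ g k j := fun k j => abs_nonneg _
  have h1 : ∑ ω, |FF r M X W L q T i t β x ω - FF r M X W L q T i t β y ω| ^ r ≤
      ∑ ω : (Fin t → Fin W × (ι × Option κ)) × (T → Bool), |∑ k ∈ T, g k ω.1| ^ r := by
    apply Finset.sum_le_sum
    intro ω _
    apply Real.rpow_le_rpow (abs_nonneg _) _ hr0.le
    exact (FF_abs X L q T i t β x y ω).trans (le_abs_self _)
  refine h1.trans ?_
  rw [Fintype.sum_prod_type]
  simp only [Finset.sum_const, Finset.card_univ, nsmul_eq_mul]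
  rw [← Finset.mul_sum, mul_comm (c ^ t), mul_assoc]
  apply mul_le_mul_of_nonneg_left _ (Nat.cast_nonneg _)
  -- Minkowski
  have hN : ∀ k, N r (g k) ≤ 2 * q * (c ^ t) ^ (1 / r) *
      N r (fun p => UU r M X W L i k x p - UU r M X W L i k y p) := by
    intro k
    have hNU := N_nonneg (r := r) (fun p => UU r M X W L i k x p - UU r M X W L i k y p)
    apply N_le_of_sum_le hr0 (by positivity)
    have h2 := V_upper (t := t) hr (UU r M X W L i k) q hβ0 x y
    rw [← N_rpow hr0 (fun p => UU r M X W L i k x p - UU r M X W L i k y p), ← hc] at h2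
    have h3 : ∑ j, |g k j| ^ r = ∑ j : Fin t → Fin W × (ι × Option κ),
        |V (UU r M X W L i k) q β x j - V (UU r M X W L i k) q β y j| ^ r := by
      apply Finset.sum_congr rfl
      intro j _
      rw [hg]; simp only; rw [abs_abs]
    rw [h3]
    refine h2.trans (le_of_eq ?_)
    have h5 : c ^ t = c * c ^ (t - 1) := by
      rw [← pow_succ']; congr 1; omega
    have h6 : (2 * (q:ℝ) * (c ^ t) ^ (1 / r)) ^ r = (2 * (q:ℝ)) ^ r * c ^ t := by
      rw [Real.mul_rpow (by positivity) (by positivity), ← Real.rpow_mul (by positivity),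
        one_div_mul_cancel hr0.ne', Real.rpow_one]
    rw [Real.mul_rpow (by positivity) hNU, h6, h5]
    calc _ = (2 * (q:ℝ)) ^ r * ((β ^ r * t) * c ^ (t - 1)) *
        N r (fun p => UU r M X W L i k x p - UU r M X W L i k y p) ^ r := by ring
      _ = _ := by rw [hβ]
  have h6 : N r (fun j => ∑ k ∈ T, g k j) ≤
      (c ^ t) ^ (1 / r) * (2 * q * cS r M * dist' r X x y) := by
    refine (N_sum_le hr T (fun k j => g k j)).trans ?_
    refine (Finset.sum_le_sum (fun k _ => hN k)).trans ?_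
    rw [← Finset.mul_sum]
    have h7 := sumA hr hM X hW hlog L i T x y
    calc _ ≤ 2 * q * (c ^ t) ^ (1 / r) * (cS r M * dist' r X x y) :=
          mul_le_mul_of_nonneg_left h7 (by positivity)
      _ = _ := by ring
  have h8 := sum_le_of_N_le hr0 h6
  refine h8.trans (le_of_eq ?_)
  rw [Real.mul_rpow (by positivity) (by positivity), ← Real.rpow_mul (by positivity),
    one_div_mul_cancel hr0.ne', Real.rpow_one]

include hr hM hW in
lemma FF_lower (L q : ℕ) (T : Finset ℤ)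
    {c : ℝ} (hc : c = Fintype.card (Fin W × (ι × Option κ))) (hc0 : 0 < c)
    (hcL : c ≤ (2:ℝ) ^ ((L + 1) * W))
    (hq : 2 / 2 ^ W + 3 * (Fintype.card ι : ℝ) * (((2:ℝ) ^ W) ^ q)⁻¹ ≤ 1 / 2)
    (x y : ι) (k : ℤ) (hkT : k ∈ T) {i : ℕ} (hi : i ≤ L)
    (hN : dist' r X x y / (16 * (L + 1)) ≤
      N r (fun p => UU r M X W L i k x p - UU r M X W L i k y p)) :
    (Fintype.card ((Fin (tt r c W i) → Fin W × (ι × Option κ)) × (T → Bool)) : ℝ) *
        (1 / (32 * (L + 1)) * dist' r X x y) ^ r ≤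
      ∑ ω, |FF r M X W L q T i (tt r c W i) (bt r c W i) x ω -
        FF r M X W L q T i (tt r c W i) (bt r c W i) y ω| ^ r := by
  classical
  have hr0 : 0 < r := by linarith
  have hd0 : 0 ≤ dist' r X x y := (isMet_dist' hr X).nonneg x y
  have : Nonempty (Fin W × (ι × Option κ)) := by
    rw [← Fintype.card_pos_iff]
    have : (0:ℝ) < Fintype.card (Fin W × (ι × Option κ)) := by rw [← hc]; exact hc0
    exact_mod_cast this
  have hsparse : ∀ x, ((tt r c W i - 1 : ℕ) : ℝ) * 2 ^ W *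
      ((Finset.univ.filter (fun a => UU r M X W L i k x a ≠ 0)).card : ℝ) ≤
      Fintype.card (Fin W × (ι × Option κ)) := by
    intro x
    rw [← hc]
    rcases lt_or_eq_of_le hi with hlt | heq
    · refine le_trans ?_ (tt_sparse (r := r) hc0 W i)
      exact mul_le_mul_of_nonneg_left (UU_card hr hM X hW hlt k x) (by positivity)
    · have : tt r c W i = 1 := by rw [heq]; exact tt_last hr hc0 hcL
      rw [this]
      simp [hc0.le]
  have hβ0 : 0 ≤ bt r c W i := bt_nonneg hc0 W i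
  have hβ : bt r c W i ^ r * tt r c W i = c := bt_rpow hr hc0 W i
  have ht1 : 1 ≤ tt r c W i := tt_pos r c W i
  generalize tt r c W i = t at *
  generalize bt r c W i = β at *
  rw [card_Om, ← hc]
  have h3 := V_lower (t := t) hr (UU r M X W L i k) q hβ0
    (one_le_pow₀ (by norm_num : (1:ℝ) ≤ 2)) hsparse hq x y
  rw [← hc, ← N_rpow hr0 (fun p => UU r M X W L i k x p - UU r M X W L i k y p)] at h3
  have h5 : c ^ t = c * c ^ (t - 1) := by
    rw [← pow_succ']; congr 1; omega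
  have h6 : β ^ r * (t * c ^ (t - 1)) = c ^ t := by
    rw [h5, ← mul_assoc, hβ]
  rw [h6] at h3
  have h7 : (1 / (32 * (L + 1)) * dist' r X x y) ^ r ≤
      N r (fun p => UU r M X W L i k x p - UU r M X W L i k y p) ^ r / 2 := by
    have h8 : 1 / (32 * ((L:ℝ) + 1)) * dist' r X x y =
        (1 / 2) * (dist' r X x y / (16 * (L + 1))) := by
      field_simp; ring
    rw [h8, Real.mul_rpow (by norm_num) (by positivity)]
    have h9 : ((1:ℝ) / 2) ^ r ≤ 1 / 2 := by
      calc ((1:ℝ) / 2) ^ r ≤ ((1:ℝ) / 2) ^ (1:ℝ) :=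
            Real.rpow_le_rpow_of_exponent_ge (by norm_num) (by norm_num) hr
        _ = 1 / 2 := Real.rpow_one _
    have h10 : (dist' r X x y / (16 * (L + 1))) ^ r ≤
        N r (fun p => UU r M X W L i k x p - UU r M X W L i k y p) ^ r :=
      Real.rpow_le_rpow (by positivity) hN hr0.le
    calc _ ≤ 1 / 2 * N r (fun p => UU r M X W L i k x p - UU r M X W L i k y p) ^ r :=
          mul_le_mul h9 h10 (by positivity) (by norm_num)
      _ = _ := by ring
  rw [Fintype.sum_prod_type]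
  have h11 : ∀ j : Fin t → Fin W × (ι × Option κ), (Fintype.card (T → Bool) : ℝ) *
      |V (UU r M X W L i k) q β x j - V (UU r M X W L i k) q β y j| ^ r ≤
      ∑ ε : T → Bool, |FF r M X W L q T i t β x (j, ε) - FF r M X W L q T i t β y (j, ε)| ^ r := by
    intro j
    have := sign_lower (T := T) hr (fun k : T => V (UU r M X W L i k) q β x j -
      V (UU r M X W L i k) q β y j) ⟨k, hkT⟩
    simp only [FF_sub]
    convert this using 1
  refine le_trans ?_ (Finset.sum_le_sum (fun j _ => h11 j))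
  rw [← Finset.mul_sum]
  calc c ^ t * (Fintype.card (T → Bool) : ℝ) * (1 / (32 * (L + 1)) * dist' r X x y) ^ r
      ≤ c ^ t * (Fintype.card (T → Bool) : ℝ) *
        (N r (fun p => UU r M X W L i k x p - UU r M X W L i k y p) ^ r / 2) :=
        mul_le_mul_of_nonneg_left h7 (by positivity)
    _ = (Fintype.card (T → Bool) : ℝ) *
        (c ^ t * N r (fun p => UU r M X W L i k x p - UU r M X W L i k y p) ^ r / 2) := by ring
    _ ≤ _ := mul_le_mul_of_nonneg_left h3 (Nat.cast_nonneg _)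

include hr hM hW in
/-- The embedding with explicit parameters. -/
theorem param (hX : ∀ x y, x ≠ y → 0 < dist' r X x y) {L q h : ℕ}
    (hι : 2 ≤ Fintype.card ι)
    (hlog : 2 * Real.log (Fintype.card ι) ≤ M * W)
    (hbig : 32 * (L + 1) * bL r M * M ≤ 2 ^ W)
    {c : ℝ} (hc : c = Fintype.card (Fin W × (ι × Option κ)))
    (hcL : c ≤ (2:ℝ) ^ ((L + 1) * W))
    (hq : 2 / 2 ^ W + 3 * (Fintype.card ι : ℝ) * (((2:ℝ) ^ W) ^ q)⁻¹ ≤ 1 / 2)
    (hh : (Fintype.card ι : ℝ) ^ 2 * (c * bL r M) ≤ 2 ^ h) (hq1 : 1 ≤ q) {Q : ℝ}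
    (hQ : cQ r M W q h ≤ Q) (hQ1 : 1 ≤ Q) (m : ℕ)
    (hm : 10 * (((L:ℝ) + 1) * (Q * (32 * (L + 1))) ^ r *
      Real.log (2 * (Fintype.card ι : ℝ) ^ 2)) ≤ m) (hm0 : 0 < m) :
    ∃ G : ι → Fin m → ℝ, ∃ s : ℝ, 0 < s ∧ ∀ x y, x ≠ y →
      s * dist' r X x y ≤ N r (fun l => G x l - G y l) ∧
      N r (fun l => G x l - G y l) ≤
        (4 * (L + 1) * (2 * q * cS r M) * (32 * (L + 1))) * s * dist' r X x y := by
  classical
  have hr0 : 0 < r := by linarith
  have hM0 : 0 < M := by linarith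
  have hbL := bL_pos hr0 hM0
  have hbB := bB_pos hr0 hM0
  have hιne : Nonempty ι := Fintype.card_pos_iff.1 (by omega)
  have hWne : Nonempty (Fin W) := ⟨⟨0, hW⟩⟩
  have hJne : Nonempty (Fin W × (ι × Option κ)) := inferInstance
  have hc1 : 1 ≤ c := by
    rw [hc]
    have : 1 ≤ Fintype.card (Fin W × (ι × Option κ)) := Fintype.card_pos
    exact_mod_cast this
  have hc0 : 0 < c := by linarith
  -- the windows
  have hkk : ∀ e : ι × ι, ∃ k : ℤ, e.1 ≠ e.2 →
      2 ^ ((k + 2) * (W : ℤ)) ≤ dist' r X e.1 e.2 ∧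
      dist' r X e.1 e.2 ≤ 2 ^ ((k + 3) * (W : ℤ)) := by
    intro e
    by_cases he : e.1 = e.2
    · exact ⟨0, fun h => absurd he h⟩
    · obtain ⟨n, hn1, hn2⟩ := exists_mem_Ico_zpow (hX _ _ he)
        (one_lt_pow₀ (by norm_num : (1:ℝ) < 2) hW.ne')
      refine ⟨n - 2, fun _ => ⟨?_, ?_⟩⟩
      · refine le_trans (le_of_eq ?_) hn1
        rw [← zpow_natCast, ← zpow_mul]
        congr 1; ring
      · refine hn2.le.trans (le_of_eq ?_)
        rw [← zpow_natCast, ← zpow_mul]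
        congr 1; ring
  choose kk hkk using hkk
  set T : Finset ℤ := Finset.univ.image kk with hT
  have hTcard : (T.card : ℝ) ≤ (Fintype.card ι : ℝ) ^ 2 := by
    have h1 : T.card ≤ Fintype.card (ι × ι) := Finset.card_image_le
    rw [Fintype.card_prod] at h1
    have : (T.card : ℝ) ≤ ((Fintype.card ι * Fintype.card ι : ℕ) : ℝ) := by exact_mod_cast h1
    rw [sq]
    simpa using this
  have hhT : (T.card : ℝ) * (c * bL r M) ≤ 2 ^ h :=
    (mul_le_mul_of_nonneg_right hTcard (by positivity)).trans hh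
  have hcardI : (Fintype.card (Fin (L + 1)) : ℝ) = L + 1 := by
    rw [Fintype.card_fin]; push_cast; ring
  have hCl : (0:ℝ) < 1 / (32 * (L + 1)) := by positivity
  have hQCl : Q / (1 / (32 * ((L:ℝ) + 1))) = Q * (32 * (L + 1)) := by
    field_simp
  have hcS : 0 < cS r M := by rw [cS]; positivity
  have hq1' : (1:ℝ) ≤ q := by exact_mod_cast hq1
  have key := assemble (I := Fin (L + 1))
    (Ω := fun i => (Fin (tt r c W i) → Fin W × (ι × Option κ)) × (T → Bool))
    hr (dist' r X) hX hι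
    (fun i x ω => FF r M X W L q T i (tt r c W i) (bt r c W i) x ω)
    (Q := Q) (Cl := 1 / (32 * (L + 1))) (Cu := 2 * q * cS r M) hCl
    (by
      refine le_trans ?_ hQ1
      rw [div_le_one (by positivity)]
      have : (0:ℝ) ≤ L := Nat.cast_nonneg L
      linarith)
    (by positivity)
    (by
      intro i x y ω _
      refine (FF_abs X L q T i _ _ x y ω).trans ?_
      have h1 := sumB hr hM X hW hlog L i T x y (q := q) (h := h)
        (bt_nonneg (r := r) hc0 W i) (fun k => bt_tau hr hM hc0 W i k) (bt_le hr hc1 W i) hhT ω.1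
      exact h1.trans (mul_le_mul_of_nonneg_right hQ ((isMet_dist' hr X).nonneg x y)))
    (by
      intro i x y _
      exact FF_upper hr hM X hW hlog L q T hc hc0 i (tt_pos _ _ _ _) (bt_nonneg hc0 W i)
        (bt_rpow hr hc0 W i) x y)
    (by
      intro x y hxy
      obtain ⟨h1, h2⟩ := hkk (x, y) hxy
      obtain ⟨i, hi, hN⟩ := U_capture hr hM X hW hlog (kk (x, y)) (tau r M W (kk (x, y)))
        (fun i => (tau_pos hr hM _ i).le) (tau_anti hr hM _)
        (by rw [tau]; apply le_of_eq; simp) L hbig x y h1 h2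
      refine ⟨⟨i, by omega⟩, ?_⟩
      exact FF_lower hr hM X hW L q T hc hc0 hcL hq x y (kk (x, y))
        (Finset.mem_image_of_mem _ (Finset.mem_univ _)) hi hN)
    m
    (by
      rw [hcardI, hQCl]
      exact hm) hm0
  obtain ⟨G, s, hs, hG⟩ := key
  refine ⟨G, s, hs, fun x y hxy => ⟨(hG x y hxy).1, (hG x y hxy).2.trans (le_of_eq ?_)⟩⟩
  rw [hcardI]
  field_simp

end

end Vale.Agent.P249.Sub
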