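import Mathlib
import Vale.Agent.P249.Final

/-!
# Choice of parameters
-/

namespace Vale.Agent.P249.Sub

open Finset Filter

universe u

lemma pow_ceil {x δ : ℝ} (hx : 1 ≤ x) (hδ : 0 ≤ δ) :
    x ^ δ ≤ 2 ^ (⌈δ * Real.logb 2 x⌉₊) ∧ (2:ℝ) ^ (⌈δ * Real.logb 2 x⌉₊) ≤ 2 * x ^ δ := by
  have hx0 : 0 < x := by linarith
  have h0 : 0 ≤ δ * Real.logb 2 x := mul_nonneg hδ (Real.logb_nonneg (by norm_num) hx)
  have h1 : (2:ℝ) ^ (δ * Real.logb 2 x) = x ^ δ := by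
    rw [mul_comm, Real.rpow_mul (by norm_num), Real.rpow_logb (by norm_num) (by norm_num) hx0]
  rw [← h1, ← Real.rpow_natCast]
  constructor
  · exact Real.rpow_le_rpow_of_exponent_le (by norm_num) (Nat.le_ceil _)
  · have h2 : (⌈δ * Real.logb 2 x⌉₊ : ℝ) ≤ δ * Real.logb 2 x + 1 := (Nat.ceil_lt_add_one h0).le
    calc (2:ℝ) ^ (⌈δ * Real.logb 2 x⌉₊ : ℝ) ≤ 2 ^ (δ * Real.logb 2 x + 1) :=
          Real.rpow_le_rpow_of_exponent_le (by norm_num) h2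
      _ = _ := by rw [Real.rpow_add (by norm_num), Real.rpow_one]; ring

lemma cQ_le {r M : ℝ} (hb : 0 < bB r M) (hM0 : 0 < M) (W q h : ℕ) {y K3 : ℝ} (hy : 0 ≤ y)
    (hW2 : (2:ℝ) ^ W ≤ 2 * y) (hh : (h:ℝ) + 1 ≤ K3 * y) :
    cQ r M W q h ≤ (16 * q * bB r M + 56 * q * bB r M * M + 14 * q) * (64 * K3) * y ^ 7 := by
  have h26 : (2:ℝ) ^ (6 * W) ≤ 64 * y ^ 6 := by
    have : (2:ℝ) ^ (6 * W) = (2 ^ W) ^ 6 := by rw [← pow_mul]; congr 1; ring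
    rw [this]
    calc ((2:ℝ) ^ W) ^ 6 ≤ (2 * y) ^ 6 := pow_le_pow_left₀ (by positivity) hW2 6
      _ = _ := by ring
  have h26' : (1:ℝ) ≤ 2 ^ (6 * W) := one_le_pow₀ (by norm_num)
  have hh0 : (0:ℝ) ≤ h := Nat.cast_nonneg h
  have hprod : (1:ℝ) ≤ 2 ^ (6 * W) * (h + 1) := by nlinarith
  have e1 : cQ r M W q h ≤
      (16 * q * bB r M + 56 * q * bB r M * M + 14 * q) * (2 ^ (6 * W) * (h + 1)) := by
    rw [cQ]
    have a1 : 16 * q * bB r M * 2 ^ (6 * W) ≤ 16 * q * bB r M * (2 ^ (6 * W) * (h + 1)) := by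
      apply mul_le_mul_of_nonneg_left _ (by positivity)
      nlinarith
    have a2 : 14 * (q:ℝ) * 1 ≤ 14 * q * (2 ^ (6 * W) * (h + 1)) :=
      mul_le_mul_of_nonneg_left hprod (by positivity)
    have a3 : 14 * q * (4 * bB r M * 2 ^ (6 * W) * ((h + 1) * M) + 1) =
        56 * q * bB r M * M * (2 ^ (6 * W) * (h + 1)) + 14 * q * 1 := by ring
    rw [a3]
    linarith
  refine e1.trans ?_
  calc (16 * q * bB r M + 56 * q * bB r M * M + 14 * q) * (2 ^ (6 * W) * (h + 1)) ≤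
        (16 * q * bB r M + 56 * q * bB r M * M + 14 * q) * ((64 * y ^ 6) * (K3 * y)) := by
        apply mul_le_mul_of_nonneg_left _ (by positivity)
        exact mul_le_mul h26 hh (by positivity) (by positivity)
    _ = _ := by ring

lemma F_le {r x δ ε K2 L : ℝ} (hr : 1 ≤ r) (hx : 2 ≤ x) (hδ0 : 0 < δ) (hδε : 8 * δ * r ≤ ε)
    (hK2 : 0 < K2) (hL : 0 ≤ L) :
    10 * ((L + 1) * (K2 * (x ^ δ) ^ 7 * (32 * (L + 1))) ^ r * Real.log (2 * x ^ 2)) ≤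
      10 * ((L + 1) * (K2 * (32 * (L + 1))) ^ r * (3 / δ)) * x ^ ε := by
  have hr0 : 0 < r := by linarith
  have hx0 : 0 < x := by linarith
  have hx1 : 1 ≤ x := by linarith
  have hlogx : 0 < Real.log x := Real.log_pos (by linarith)
  have hlogxδ : Real.log x ≤ x ^ δ / δ := Real.log_le_rpow_div hx0.le hδ0
  have hlog2x' : Real.log (2 * x ^ 2) ≤ 3 / δ * x ^ δ := by
    rw [Real.log_mul (by norm_num) (by positivity), Real.log_pow]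
    push_cast
    have h1 : Real.log 2 ≤ Real.log x := Real.log_le_log (by norm_num) hx
    calc Real.log 2 + 2 * Real.log x ≤ 3 * Real.log x := by linarith
      _ ≤ 3 * (x ^ δ / δ) := by linarith
      _ = _ := by ring
  have h7 : (x ^ δ) ^ 7 = x ^ (7 * δ) := by
    rw [← Real.rpow_natCast, ← Real.rpow_mul hx0.le]
    congr 1
    push_cast
    ring
  have h3 : (K2 * (x ^ δ) ^ 7 * (32 * (L + 1))) ^ r =
      (K2 * (32 * (L + 1))) ^ r * x ^ (7 * δ * r) := by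
    have : K2 * (x ^ δ) ^ 7 * (32 * (L + 1)) = (K2 * (32 * (L + 1))) * x ^ (7 * δ) := by
      rw [h7]; ring
    rw [this, Real.mul_rpow (by positivity) (by positivity), ← Real.rpow_mul hx0.le]
  rw [h3]
  have h4 : x ^ (7 * δ * r) * x ^ δ ≤ x ^ ε := by
    rw [← Real.rpow_add hx0]
    apply Real.rpow_le_rpow_of_exponent_le hx1
    nlinarith
  calc 10 * ((L + 1) * ((K2 * (32 * (L + 1))) ^ r * x ^ (7 * δ * r)) *
        Real.log (2 * x ^ 2)) ≤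
        10 * ((L + 1) * ((K2 * (32 * (L + 1))) ^ r * x ^ (7 * δ * r)) *
          (3 / δ * x ^ δ)) := by
        apply mul_le_mul_of_nonneg_left _ (by norm_num)
        exact mul_le_mul_of_nonneg_left hlog2x' (by positivity)
    _ = 10 * ((L + 1) * (K2 * (32 * (L + 1))) ^ r * (3 / δ)) * (x ^ (7 * δ * r) * x ^ δ) := by
        ring
    _ ≤ _ := mul_le_mul_of_nonneg_left h4 (by positivity)

lemma h_le {x δ : ℝ} (hx : 2 ≤ x) (hδ0 : 0 < δ) :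
    (⌈(8:ℝ) * Real.logb 2 x⌉₊ : ℝ) + 1 ≤ (8 / (Real.log 2 * δ) + 2) * x ^ δ := by
  have hx0 : 0 < x := by linarith
  have hx1 : 1 ≤ x := by linarith
  have hlog2 : 0 < Real.log 2 := Real.log_pos (by norm_num)
  have hlogb0 : 0 < Real.logb 2 x := Real.logb_pos (by norm_num) (by linarith)
  have hlogxδ : Real.log x ≤ x ^ δ / δ := Real.log_le_rpow_div hx0.le hδ0
  have hxδ1 : 1 ≤ x ^ δ := Real.one_le_rpow hx1 hδ0.le
  have h1 : (⌈(8:ℝ) * Real.logb 2 x⌉₊ : ℝ) ≤ 8 * Real.logb 2 x + 1 :=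
    (Nat.ceil_lt_add_one (by positivity)).le
  have h2 : Real.logb 2 x ≤ 1 / (Real.log 2 * δ) * x ^ δ := by
    rw [Real.logb, div_le_iff₀ hlog2]
    calc Real.log x ≤ x ^ δ / δ := hlogxδ
      _ = _ := by field_simp
  calc _ ≤ 8 * (1 / (Real.log 2 * δ) * x ^ δ) + 2 * x ^ δ := by linarith
    _ = _ := by ring

lemma log_le_W {x δ : ℝ} (hx : 2 ≤ x) (hδ0 : 0 < δ) :
    2 * Real.log x ≤ 2 / δ * (⌈δ * Real.logb 2 x⌉₊ : ℝ) := by
  have hlog2 : 0 < Real.log 2 := Real.log_pos (by norm_num)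
  have hlogx : 0 < Real.log x := Real.log_pos (by linarith)
  have h1 : δ * Real.logb 2 x ≤ (⌈δ * Real.logb 2 x⌉₊ : ℝ) := Nat.le_ceil _
  have h2 : Real.log x ≤ Real.logb 2 x := by
    rw [Real.logb, le_div_iff₀ hlog2]
    have : Real.log 2 ≤ 1 := by
      have := Real.log_two_lt_d9
      linarith
    nlinarith
  calc 2 * Real.log x ≤ 2 * Real.logb 2 x := by linarith
    _ = 2 / δ * (δ * Real.logb 2 x) := by field_simp
    _ ≤ _ := mul_le_mul_of_nonneg_left h1 (by positivity)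

lemma c_le {x δ : ℝ} (hx : 4 ≤ x) (hδ1 : δ ≤ 1) {W m0 : ℕ} (hW2 : (2:ℝ) ^ W ≤ 2 * x ^ δ)
    (hm0 : (m0 : ℝ) ≤ x ^ 2) : (W:ℝ) * (x * (m0 + 1)) ≤ x ^ 5 := by
  have hx0 : 0 < x := by linarith
  have hx1 : 1 ≤ x := by linarith
  have hWx : (W:ℝ) ≤ 2 * x := by
    have h1 : (W:ℝ) ≤ 2 ^ W := by exact_mod_cast (Nat.lt_two_pow_self (n := W)).le
    have h2 : x ^ δ ≤ x := by
      calc x ^ δ ≤ x ^ (1:ℝ) := Real.rpow_le_rpow_of_exponent_le hx1 hδ1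
        _ = x := Real.rpow_one x
    linarith
  have hm01 : (m0:ℝ) + 1 ≤ 2 * x ^ 2 := by nlinarith
  calc (W:ℝ) * (x * (m0 + 1)) ≤ (2 * x) * (x * (2 * x ^ 2)) := by
        apply mul_le_mul hWx _ (by positivity) (by positivity)
        exact mul_le_mul_of_nonneg_left hm01 hx0.le
    _ = 4 * x ^ 4 := by ring
    _ ≤ x * x ^ 4 := mul_le_mul_of_nonneg_right hx (by positivity)
    _ = x ^ 5 := by ring

lemma pow_five_le {x δ : ℝ} (hx : 1 ≤ x) {L W : ℕ} (hL : 5 ≤ δ * (L + 1))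
    (hW1 : x ^ δ ≤ 2 ^ W) : x ^ 5 ≤ (2:ℝ) ^ ((L + 1) * W) := by
  have hx0 : 0 < x := by linarith
  have h1 : x ^ (5:ℝ) ≤ x ^ (δ * ((L:ℝ) + 1)) := Real.rpow_le_rpow_of_exponent_le hx hL
  have h2 : x ^ (5:ℝ) = x ^ 5 := by
    rw [← Real.rpow_natCast]; norm_num
  rw [← h2]
  refine h1.trans ?_
  rw [Real.rpow_mul hx0.le]
  have h3 : (2:ℝ) ^ ((L + 1) * W) = (2 ^ W) ^ (L + 1) := by
    rw [← pow_mul]; congr 1; ring
  have h4 : (x ^ δ) ^ ((L:ℝ) + 1) = (x ^ δ) ^ (L + 1) := by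
    rw [← Real.rpow_natCast]; push_cast; rfl
  rw [h3, h4]
  exact pow_le_pow_left₀ (by positivity) hW1 _

lemma hq_check {x δ : ℝ} (hx : 12 ≤ x) {q W : ℕ} (hq : 2 ≤ δ * q) (hx8 : 8 ≤ x ^ δ)
    (hW1 : x ^ δ ≤ 2 ^ W) : 2 / 2 ^ W + 3 * x * (((2:ℝ) ^ W) ^ q)⁻¹ ≤ 1 / 2 := by
  have hx0 : 0 < x := by linarith
  have hx1 : 1 ≤ x := by linarith
  have h1 : 2 / (2:ℝ) ^ W ≤ 1 / 4 := by
    rw [div_le_div_iff₀ (by positivity) (by norm_num)]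
    linarith
  have h2 : x ^ 2 ≤ ((2:ℝ) ^ W) ^ q := by
    have h3 : x ^ (2:ℝ) ≤ x ^ (δ * (q:ℝ)) := Real.rpow_le_rpow_of_exponent_le hx1 hq
    rw [Real.rpow_two, Real.rpow_mul hx0.le, Real.rpow_natCast] at h3
    exact h3.trans (pow_le_pow_left₀ (by positivity) hW1 _)
  have h4 : 3 * x * (((2:ℝ) ^ W) ^ q)⁻¹ ≤ 1 / 4 := by
    rw [← div_eq_mul_inv, div_le_div_iff₀ (by positivity) (by norm_num)]
    nlinarith
  linarith

/-- One value of `n`. -/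
lemma large_one {r δ ε : ℝ} (hr : 1 ≤ r) (hδ0 : 0 < δ) (hδ1 : δ ≤ 1) (hδε : 8 * δ * r ≤ ε)
    {L q n : ℕ} (hL : 5 ≤ δ * (L + 1)) (hq : 2 ≤ δ * q) (hq1 : 1 ≤ q)
    (hn8 : 8 ≤ (n:ℝ) ^ δ) (hn12 : (12:ℝ) ≤ n)
    (hnbig : 32 * ((L:ℝ) + 1) * bL r (2 / δ) * (2 / δ) ≤ (n:ℝ) ^ δ)
    (hnbL : bL r (2 / δ) ≤ (n:ℝ)) {K2 : ℝ}
    (hK2 : K2 = (16 * q * bB r (2 / δ) + 56 * q * bB r (2 / δ) * (2 / δ) + 14 * q) *
      (64 * (8 / (Real.log 2 * δ) + 2)))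
    (m : ℕ) (hm : m = ⌈10 * (((L:ℝ) + 1) * (K2 * ((n:ℝ) ^ δ) ^ 7 * (32 * (L + 1))) ^ r *
      Real.log (2 * (n:ℝ) ^ 2))⌉₊) :
    (m:ℝ) ≤ (10 * (((L:ℝ) + 1) * (K2 * (32 * (L + 1))) ^ r * (3 / δ)) + 1) * (n:ℝ) ^ ε ∧
      ∀ (ι : Type u) [Fintype ι], Fintype.card ι = n → ∀ m0 : ℕ, (m0 : ℝ) ≤ (n:ℝ) ^ 2 →
      ∀ X : ι → Fin m0 → ℝ, (∀ x y, x ≠ y → 0 < dist' r X x y) →
      ∃ G : ι → Fin m → ℝ, ∃ s : ℝ, 0 < s ∧ ∀ x y, x ≠ y →
        s * dist' r X x y ≤ N r (fun l => G x l - G y l) ∧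
        N r (fun l => G x l - G y l) ≤
          (4 * (L + 1) * (2 * q * cS r (2 / δ)) * (32 * (L + 1))) * s * dist' r X x y := by
  have hr0 : 0 < r := by linarith
  have hM2 : 2 ≤ 2 / δ := by rw [le_div_iff₀ hδ0]; linarith
  have hM32 : 3 / 2 ≤ 2 / δ := by linarith
  have hM0 : 0 < 2 / δ := by linarith
  have hbL := bL_pos hr0 hM0
  have hbB := bB_pos hr0 hM0
  have hq1' : (1:ℝ) ≤ q := by exact_mod_cast hq1
  have hlog2 : 0 < Real.log 2 := Real.log_pos (by norm_num)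
  have hK2pos : 1 ≤ K2 := by
    have h1 : 0 ≤ 16 * q * bB r (2 / δ) := by positivity
    have h2 : 0 ≤ 56 * q * bB r (2 / δ) * (2 / δ) := by positivity
    have h3 : 0 ≤ 8 / (Real.log 2 * δ) := by positivity
    rw [hK2]
    nlinarith
  set x : ℝ := (n:ℝ) with hx
  have hx0 : 0 < x := by linarith
  have hx1 : 1 ≤ x := by linarith
  have hxδ1 : 1 ≤ x ^ δ := by linarith
  set F : ℝ := 10 * (((L:ℝ) + 1) * (K2 * (x ^ δ) ^ 7 * (32 * (L + 1))) ^ r *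
    Real.log (2 * x ^ 2)) with hF
  have hlog2x : 0 < Real.log (2 * x ^ 2) := Real.log_pos (by nlinarith)
  have hF0 : 0 < F := by positivity
  constructor
  · have h1 : (⌈F⌉₊ : ℝ) ≤ F + 1 := (Nat.ceil_lt_add_one hF0.le).le
    have hε : 0 ≤ ε := le_trans (by positivity) hδε
    have hxε : 1 ≤ x ^ ε := Real.one_le_rpow hx1 hε
    have h2 := F_le (L := L) hr (by linarith : (2:ℝ) ≤ x) hδ0 hδε (by linarith : 0 < K2)
      (Nat.cast_nonneg L)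
    rw [hm, add_mul, one_mul]
    linarith
  · intro ι _ hι m0 hm0 X hX
    obtain ⟨hW1, hW2⟩ := pow_ceil hx1 hδ0.le
    have hlogb0 : 0 < Real.logb 2 x := Real.logb_pos (by norm_num) (by linarith)
    have hWpos : 0 < ⌈δ * Real.logb 2 x⌉₊ := Nat.ceil_pos.2 (by positivity)
    have hlogW := log_le_W (by linarith : (2:ℝ) ≤ x) hδ0
    generalize ⌈δ * Real.logb 2 x⌉₊ = W at *
    obtain ⟨hh1, hh2⟩ := pow_ceil hx1 (by norm_num : (0:ℝ) ≤ 8)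
    have hhle := h_le (by linarith : (2:ℝ) ≤ x) hδ0
    generalize ⌈(8:ℝ) * Real.logb 2 x⌉₊ = h at *
    have hcQ := cQ_le hbB hM0 W q h (by linarith : 0 ≤ x ^ δ) hW2 hhle
    rw [← hK2] at hcQ
    have hcι : (Fintype.card ι : ℝ) = x := by rw [hι]
    have hι2 : 2 ≤ Fintype.card ι := by
      rw [hι]
      have : (2:ℝ) ≤ (n:ℝ) := by linarith
      exact_mod_cast this
    have hcJ : (Fintype.card (Fin W × (ι × Option (Fin m0))) : ℝ) = W * (x * (m0 + 1)) := by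
      rw [Fintype.card_prod, Fintype.card_prod, Fintype.card_option, Fintype.card_fin,
        Fintype.card_fin, hι]
      push_cast
      rfl
    have hc5 := c_le (by linarith : (4:ℝ) ≤ x) hδ1 hW2 hm0
    rw [← hcJ] at hc5
    have hQ1 : 1 ≤ K2 * (x ^ δ) ^ 7 := by
      have : (1:ℝ) ≤ (x ^ δ) ^ 7 := one_le_pow₀ hxδ1
      nlinarith
    have h8 : x ^ (8:ℝ) = x ^ 8 := by
      rw [← Real.rpow_natCast]; norm_num
    rw [h8] at hh1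
    have hhh : x ^ 2 * ((Fintype.card (Fin W × (ι × Option (Fin m0))) : ℝ) *
        bL r (2 / δ)) ≤ 2 ^ h := by
      refine le_trans ?_ hh1
      calc x ^ 2 * ((Fintype.card (Fin W × (ι × Option (Fin m0))) : ℝ) * bL r (2 / δ)) ≤
            x ^ 2 * (x ^ 5 * x) := by
            apply mul_le_mul_of_nonneg_left _ (by positivity)
            exact mul_le_mul hc5 hnbL hbL.le (by positivity)
        _ = x ^ 8 := by ring
    subst hm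
    exact param hr hM32 X hWpos hX (L := L) (q := q) (h := h) hι2
      (by rw [hcι]; exact hlogW) (hnbig.trans hW1) rfl
      (hc5.trans (pow_five_le hx1 hL hW1))
      (by rw [hcι]; exact hq_check hn12 hq hn8 hW1)
      (by rw [hcι]; exact hhh)
      hq1 hcQ hQ1 ⌈F⌉₊ (by rw [hcι]; exact Nat.le_ceil _) (Nat.ceil_pos.2 hF0)

/-- Dimension reduction for large sets in `ℓ_p` of polynomial dimension. -/
theorem large {r : ℝ} (hr : 1 ≤ r) {ε : ℝ} (hε : 0 < ε) :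
    ∃ A : ℝ, 1 ≤ A ∧ ∃ C : ℝ, 0 < C ∧ ∀ᶠ n : ℕ in atTop, ∃ m : ℕ, (m:ℝ) ≤ C * (n:ℝ) ^ ε ∧
      ∀ (ι : Type u) [Fintype ι], Fintype.card ι = n → ∀ m0 : ℕ, (m0 : ℝ) ≤ (n:ℝ) ^ 2 →
      ∀ X : ι → Fin m0 → ℝ, (∀ x y, x ≠ y → 0 < dist' r X x y) →
      ∃ G : ι → Fin m → ℝ, ∃ s : ℝ, 0 < s ∧ ∀ x y, x ≠ y →
        s * dist' r X x y ≤ N r (fun l => G x l - G y l) ∧
        N r (fun l => G x l - G y l) ≤ A * s * dist' r X x y := by
  have hr0 : 0 < r := by linarith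
  obtain ⟨δ, hδ0, hδ1, hδε⟩ : ∃ δ : ℝ, 0 < δ ∧ δ ≤ 1 ∧ 8 * δ * r ≤ ε := by
    refine ⟨min 1 (ε / (8 * r)), lt_min one_pos (by positivity), min_le_left _ _, ?_⟩
    have : min 1 (ε / (8 * r)) ≤ ε / (8 * r) := min_le_right _ _
    rw [le_div_iff₀ (by positivity)] at this
    linarith
  obtain ⟨L, hL⟩ : ∃ L : ℕ, 5 ≤ δ * ((L:ℝ) + 1) := by
    refine ⟨⌈5 / δ⌉₊, ?_⟩
    have h1 : 5 / δ ≤ ⌈5 / δ⌉₊ := Nat.le_ceil _
    rw [div_le_iff₀ hδ0] at h1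
    linarith
  obtain ⟨q, hq, hq1⟩ : ∃ q : ℕ, 2 ≤ δ * (q:ℝ) ∧ 1 ≤ q := by
    refine ⟨⌈2 / δ⌉₊, ?_, Nat.ceil_pos.2 (by positivity)⟩
    have h1 : 2 / δ ≤ ⌈2 / δ⌉₊ := Nat.le_ceil _
    rw [div_le_iff₀ hδ0] at h1
    linarith
  have hM0 : 0 < 2 / δ := by positivity
  have hbL := bL_pos hr0 hM0
  have hbB := bB_pos hr0 hM0
  have hlog2 : 0 < Real.log 2 := Real.log_pos (by norm_num)
  obtain ⟨K2, hK2⟩ : ∃ K2 : ℝ, K2 = (16 * q * bB r (2 / δ) + 56 * q * bB r (2 / δ) * (2 / δ) +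
      14 * q) * (64 * (8 / (Real.log 2 * δ) + 2)) := ⟨_, rfl⟩
  have hK2pos : 0 < K2 := by
    have hq1' : (1:ℝ) ≤ q := by exact_mod_cast hq1
    rw [hK2]; positivity
  refine ⟨max 1 (4 * (L + 1) * (2 * q * cS r (2 / δ)) * (32 * (L + 1))), le_max_left _ _,
    10 * (((L:ℝ) + 1) * (K2 * (32 * (L + 1))) ^ r * (3 / δ)) + 1, by positivity, ?_⟩
  have hcast : Tendsto (fun n : ℕ => (n:ℝ)) atTop atTop := tendsto_natCast_atTop_atTop
  have ev1 : ∀ᶠ n : ℕ in atTop,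
      max 8 (32 * ((L:ℝ) + 1) * bL r (2 / δ) * (2 / δ)) ≤ (n:ℝ) ^ δ :=
    ((tendsto_rpow_atTop hδ0).comp hcast).eventually_ge_atTop _
  have ev2 : ∀ᶠ n : ℕ in atTop, max 12 (bL r (2 / δ)) ≤ (n:ℝ) := hcast.eventually_ge_atTop _
  filter_upwards [ev1, ev2] with n hn1 hn2
  obtain ⟨h1, h2⟩ := large_one.{u} hr hδ0 hδ1 hδε hL hq hq1 ((le_max_left _ _).trans hn1)
    ((le_max_left _ _).trans hn2) ((le_max_right _ _).trans hn1) ((le_max_right _ _).trans hn2)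
    hK2 _ rfl
  refine ⟨_, h1, ?_⟩
  intro ι _ hι m0 hm0 X hX
  obtain ⟨G, s, hs, hG⟩ := h2 ι hι m0 hm0 X hX
  refine ⟨G, s, hs, fun a b hab => ⟨(hG a b hab).1, (hG a b hab).2.trans ?_⟩⟩
  apply mul_le_mul_of_nonneg_right _ (hX a b hab).le
  exact mul_le_mul_of_nonneg_right (le_max_right _ _) hs.le

end Vale.Agent.P249.Sub
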