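import Mathlib
import Vale.Agent.P249.Large

/-!
# Dimension reduction in `L_p` to dimension `n ^ ε`
-/

namespace Vale.Agent.P249.Sub

open Finset Filter MeasureTheory
open scoped ENNReal

universe u

lemma norm_toLp_sub {p : ℝ≥0∞} [Fact (1 ≤ p)] (hr0 : 0 < p.toReal) {m : ℕ}
    (a b : Fin m → ℝ) :
    ‖(WithLp.toLp p a : PiLp p (fun _ : Fin m => ℝ)) - WithLp.toLp p b‖ =
      N p.toReal (fun l => a l - b l) := by
  rw [PiLp.norm_eq_sum hr0, N]
  simp [Real.norm_eq_abs]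

/-- `n` points of `L_p` embed into `ℓ_p^m` with `m ≤ C n ^ ε` and distortion at most `D0`. -/
theorem exists_dim_pow (p : ℝ≥0∞) [Fact (1 ≤ p)] (hp : p ≠ ∞) (ε : ℝ) (hε : 0 < ε) :
    ∃ D0 : ℝ, 1 ≤ D0 ∧ ∃ C : ℝ, 0 < C ∧ ∀ n : ℕ, 2 ≤ n → ∃ m : ℕ, (m : ℝ) ≤ C * (n:ℝ) ^ ε ∧
      ∀ (Ω : Type u) [MeasurableSpace Ω] (μ : Measure Ω) (X : Finset (Lp ℝ p μ)), X.card = n →
        ∃ f : Lp ℝ p μ → PiLp p (fun _ : Fin m => ℝ), ∃ s : ℝ, 0 < s ∧ ∀ x ∈ X, ∀ y ∈ X,
          s * ‖x - y‖ ≤ ‖f x - f y‖ ∧ ‖f x - f y‖ ≤ D0 * s * ‖x - y‖ := by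
  classical
  have hp1 : 1 ≤ p := Fact.out
  have hp0 : p ≠ 0 := (lt_of_lt_of_le zero_lt_one hp1).ne'
  have hr1 : 1 ≤ p.toReal := by
    rw [← ENNReal.toReal_one]
    exact ENNReal.toReal_mono hp hp1
  have hr0 : 0 < p.toReal := by linarith
  obtain ⟨C0, hC0, hdim⟩ := Vale.Agent.P249.exists_dim.{u} p hp 2 (by norm_num)
  obtain ⟨A, hA, C1, hC1, hlarge⟩ := large.{u} hr1 hε
  -- the first dimension is at most `n ^ 2` for large `n`
  have ev : ∀ᶠ n : ℕ in atTop, C0 * n * (Real.log n) ^ (p.toReal + 2) ≤ (n:ℝ) ^ 2 := by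
    have h1 := (isLittleO_log_rpow_rpow_atTop (p.toReal + 2) (one_pos)).bound
      (by positivity : (0:ℝ) < 1 / C0)
    have h2 := (tendsto_natCast_atTop_atTop (R := ℝ)).eventually h1
    filter_upwards [h2, eventually_ge_atTop 2] with n hn hn2
    have hnr : (2:ℝ) ≤ n := by exact_mod_cast hn2
    rw [Real.rpow_one, Real.norm_eq_abs, Real.norm_eq_abs, abs_of_pos (by linarith : (0:ℝ) < n)]
      at hn
    have h3 := (le_abs_self _).trans hn
    have hn0 : (0:ℝ) ≤ n := by linarith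
    calc C0 * n * (Real.log n) ^ (p.toReal + 2) ≤ C0 * n * (1 / C0 * n) :=
          mul_le_mul_of_nonneg_left h3 (by positivity)
      _ = (n:ℝ) ^ 2 := by field_simp
  obtain ⟨n0, hn0⟩ := eventually_atTop.1 (hlarge.and ev)
  set n1 : ℕ := max 2 n0 with hn1
  set C2 : ℝ := C0 * n1 * (Real.log n1) ^ (p.toReal + 2) with hC2
  have hn1r : (2:ℝ) ≤ n1 := by exact_mod_cast le_max_left 2 n0
  have hlogn1 : 0 < Real.log n1 := Real.log_pos (by linarith)
  have hC2pos : 0 ≤ C2 := by positivity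
  refine ⟨2 * A, by linarith, C1 + C2, by positivity, ?_⟩
  intro n hn
  have hnr : (2:ℝ) ≤ n := by exact_mod_cast hn
  have hnε : 1 ≤ (n:ℝ) ^ ε := Real.one_le_rpow (by linarith) hε.le
  obtain ⟨m0, hm0, hemb⟩ := hdim n hn
  by_cases hlt : n < n1
  · refine ⟨m0, ?_, ?_⟩
    · have h1 : C0 * n * (Real.log n) ^ (p.toReal + 2) ≤ C2 := by
        have h2 : (n:ℝ) ≤ n1 := by exact_mod_cast hlt.le
        have h3 : Real.log n ≤ Real.log n1 := Real.log_le_log (by linarith) h2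
        have h4 : 0 ≤ Real.log n := Real.log_nonneg (by linarith)
        rw [hC2]
        gcongr
      calc (m0:ℝ) ≤ C2 := hm0.trans h1
        _ ≤ (C1 + C2) * 1 := by linarith
        _ ≤ (C1 + C2) * (n:ℝ) ^ ε := mul_le_mul_of_nonneg_left hnε (by positivity)
    · intro Ω _ μ X hX
      obtain ⟨f, s, hs, hf⟩ := hemb Ω μ X hX
      refine ⟨f, s, hs, fun x hx y hy => ⟨(hf x hx y hy).1, (hf x hx y hy).2.trans ?_⟩⟩
      apply mul_le_mul_of_nonneg_right _ (norm_nonneg _)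
      apply mul_le_mul_of_nonneg_right _ hs.le
      linarith
  · push Not at hlt
    obtain ⟨⟨m, hm, hG⟩, hsq⟩ := hn0 n ((le_max_right 2 n0).trans hlt)
    refine ⟨m, ?_, ?_⟩
    · refine hm.trans ?_
      apply mul_le_mul_of_nonneg_right _ (by linarith)
      linarith
    · intro Ω _ μ X hX
      obtain ⟨f, s, hs, hf⟩ := hemb Ω μ X hX
      have hcard : Fintype.card X = n := by simpa using hX
      have hdist : ∀ x y : X, dist' p.toReal (fun (z : X) (l : Fin m0) => f z l) x y =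
          ‖f x - f y‖ := by
        intro x y
        rw [dist', PiLp.norm_eq_sum hr0, N]
        simp [Real.norm_eq_abs]
      have hpos : ∀ x y : X, x ≠ y → 0 < dist' p.toReal (fun (z : X) (l : Fin m0) => f z l) x y := by
        intro x y hxy
        rw [hdist]
        have h1 := (hf x x.2 y y.2).1
        have h2 : 0 < ‖(x : Lp ℝ p μ) - y‖ :=
          norm_pos_iff.2 (sub_ne_zero.2 (fun h => hxy (Subtype.ext h)))
        exact lt_of_lt_of_le (by positivity) h1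
      obtain ⟨G, s', hs', hG'⟩ := hG X hcard m0 (hm0.trans hsq) _ hpos
      refine ⟨fun z => if h : z ∈ X then WithLp.toLp p (G ⟨z, h⟩) else 0, s' * s, by positivity,
        ?_⟩
      intro x hx y hy
      simp only [dif_pos hx, dif_pos hy]
      rw [norm_toLp_sub hr0]
      by_cases hxy : x = y
      · subst hxy
        simp [N_zero hr0]
      · obtain ⟨h1, h2⟩ := hG' ⟨x, hx⟩ ⟨y, hy⟩ (fun h => hxy (congrArg Subtype.val h))
        rw [hdist] at h1 h2
        simp only at h1 h2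
        obtain ⟨h3, h4⟩ := hf x hx y hy
        constructor
        · calc s' * s * ‖x - y‖ = s' * (s * ‖x - y‖) := by ring
            _ ≤ s' * ‖f x - f y‖ := mul_le_mul_of_nonneg_left h3 hs'.le
            _ ≤ _ := h1
        · calc _ ≤ A * s' * ‖f x - f y‖ := h2
            _ ≤ A * s' * (2 * s * ‖x - y‖) := mul_le_mul_of_nonneg_left h4 (by positivity)
            _ = _ := by ring

end Vale.Agent.P249.Sub
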