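import Mathlib
import Vale.Agent.P249.Large
import Vale.Agent.P249.SubPoly

/-!
# Quantitative form of the dependence on the distortion
-/

namespace Vale.Agent.P249.Sub

open Finset Filter MeasureTheory
open scoped ENNReal

universe u

/-- At most exponential growth on `[1, ∞)`. -/
def EB (f : ℝ → ℝ) : Prop := ∃ K : ℝ, 0 ≤ K ∧ ∀ M : ℝ, 1 ≤ M → |f M| ≤ Real.exp (K * M)

lemma EB.const (c : ℝ) : EB (fun _ => c) := by
  refine ⟨|c|, abs_nonneg c, fun M hM => ?_⟩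
  have h1 := Real.add_one_le_exp (|c| * M)
  have h2 : |c| ≤ |c| * M := le_mul_of_one_le_right (abs_nonneg c) hM
  linarith

lemma EB.id : EB (fun M => M) := by
  refine ⟨1, zero_le_one, fun M hM => ?_⟩
  have h1 := Real.add_one_le_exp (1 * M)
  rw [abs_of_nonneg (by linarith)]
  linarith

lemma EB.add {f g : ℝ → ℝ} (hf : EB f) (hg : EB g) : EB (fun M => f M + g M) := by
  obtain ⟨K1, h1, hf⟩ := hf
  obtain ⟨K2, h2, hg⟩ := hg
  refine ⟨K1 + K2 + 1, by positivity, fun M hM => ?_⟩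
  have hM0 : 0 ≤ M := by linarith
  have e1 : Real.exp (K1 * M) ≤ Real.exp ((K1 + K2) * M) := by
    apply Real.exp_le_exp.2; nlinarith
  have e2 : Real.exp (K2 * M) ≤ Real.exp ((K1 + K2) * M) := by
    apply Real.exp_le_exp.2; nlinarith
  have e3 : 2 ≤ Real.exp M := by
    have := Real.add_one_le_exp M
    linarith
  calc |f M + g M| ≤ |f M| + |g M| := abs_add_le _ _
    _ ≤ Real.exp M * Real.exp ((K1 + K2) * M) := by
        have := hf M hM
        have := hg M hM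
        have := Real.exp_pos ((K1 + K2) * M)
        nlinarith
    _ = Real.exp ((K1 + K2 + 1) * M) := by rw [← Real.exp_add]; congr 1; ring

lemma EB.mul {f g : ℝ → ℝ} (hf : EB f) (hg : EB g) : EB (fun M => f M * g M) := by
  obtain ⟨K1, h1, hf⟩ := hf
  obtain ⟨K2, h2, hg⟩ := hg
  refine ⟨K1 + K2, by positivity, fun M hM => ?_⟩
  rw [abs_mul, add_mul, Real.exp_add]
  exact mul_le_mul (hf M hM) (hg M hM) (abs_nonneg _) (Real.exp_pos _).le

lemma EB.rpow {f : ℝ → ℝ} (hf : EB f) {s : ℝ} (hs : 0 ≤ s) (h0 : ∀ M, 1 ≤ M → 0 ≤ f M) :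
    EB (fun M => f M ^ s) := by
  obtain ⟨K1, h1, hf⟩ := hf
  refine ⟨K1 * s, by positivity, fun M hM => ?_⟩
  have h2 := h0 M hM
  have h3 := hf M hM
  rw [abs_of_nonneg h2] at h3
  rw [abs_of_nonneg (Real.rpow_nonneg h2 s)]
  calc f M ^ s ≤ Real.exp (K1 * M) ^ s := Real.rpow_le_rpow h2 h3 hs
    _ = Real.exp (K1 * s * M) := by rw [← Real.exp_mul]; congr 1; ring

lemma EB.expo : EB (fun M => Real.exp (2 * M + 2)) := by
  refine ⟨4, by norm_num, fun M hM => ?_⟩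
  rw [abs_of_pos (Real.exp_pos _)]
  apply Real.exp_le_exp.2
  linarith

lemma EB.mono {f g : ℝ → ℝ} (hg : EB g) (h : ∀ M, 1 ≤ M → |f M| ≤ g M) : EB f := by
  obtain ⟨K, hK, hg⟩ := hg
  exact ⟨K, hK, fun M hM => (h M hM).trans ((le_abs_self _).trans (hg M hM))⟩

lemma EB.cB {r : ℝ} (hr : 0 < r) : EB (fun M => cB r M) := by
  have h1 : EB (fun M => (2 * r) ^ r * Real.exp (2 * M + 2)) := (EB.const _).mul EB.expo
  have h2 : EB (fun M => 4 * M + 1) := ((EB.const 4).mul EB.id).add (EB.const 1)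
  have h3 : EB (fun M => (4 * M + 1) ^ r) := h2.rpow hr.le (fun M hM => by linarith)
  exact h1.add h3

lemma EB.cL {r : ℝ} (hr : 0 < r) : EB (fun M => cL r M) := by
  have h1 : EB (fun M => 8 ^ r * (2 * r) ^ r * Real.exp (2 * M + 2)) :=
    (EB.const _).mul EB.expo
  have h2 : EB (fun M => 4 * M + 1) := ((EB.const 4).mul EB.id).add (EB.const 1)
  have h3 : EB (fun M => (4 * M + 1) ^ r) := h2.rpow hr.le (fun M hM => by linarith)
  have h4 : EB (fun M => 2 ^ r * (1 + 8 ^ r * (2 * r) ^ r * Real.exp (2 * M + 2))) :=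
    (EB.const _).mul ((EB.const 1).add h1)
  have h5 : EB (fun M => 8 ^ r * (4 * M + 1) ^ r) := (EB.const _).mul h3
  have h6 : EB (fun M => 2 * 2 ^ r * Sub.cB r M) := (EB.const _).mul (EB.cB hr)
  exact (h4.add h5).add h6

lemma EB.bB {r : ℝ} (hr : 0 < r) : EB (fun M => bB r M) :=
  (EB.cB hr).rpow (by positivity) (fun M hM => (cB_pos hr (by linarith)).le)

lemma EB.bL {r : ℝ} (hr : 0 < r) : EB (fun M => bL r M) :=
  (EB.cL hr).rpow (by positivity) (fun M hM => (cL_pos hr (by linarith)).le)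

lemma EB.cS {r : ℝ} (hr : 0 < r) : EB (fun M => cS r M) := by
  have h1 : EB (fun M => 7 * Sub.bL r M * M) := ((EB.const 7).mul (EB.bL hr)).mul EB.id
  have h2 : EB (fun M => 4 * (Sub.bL r M * (1 + 8 * M))) :=
    (EB.const 4).mul ((EB.bL hr).mul ((EB.const 1).add ((EB.const 8).mul EB.id)))
  have h3 : EB (fun M => 4 * Sub.bB r M) := (EB.const 4).mul (EB.bB hr)
  exact (h1.add h2).add h3

/-- The distortion constant as a function of `M = 2 / δ`. -/
lemma EB.dist {r : ℝ} (hr : 0 < r) :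
    EB (fun M => 2 * (1 + 4 * ((⌈5 * M / 2⌉₊ : ℝ) + 1) * (2 * (⌈M⌉₊ : ℝ) * Sub.cS r M) *
      (32 * ((⌈5 * M / 2⌉₊ : ℝ) + 1)))) := by
  have hL : EB (fun M => (⌈5 * M / 2⌉₊ : ℝ) + 1) := by
    have h1 : EB (fun M => 5 / 2 * M + 2) := ((EB.const _).mul EB.id).add (EB.const 2)
    refine h1.mono (fun M hM => ?_)
    rw [abs_of_nonneg (by positivity)]
    have := (Nat.ceil_lt_add_one (by positivity : 0 ≤ 5 * M / 2)).le
    linarith
  have hq : EB (fun M => (⌈M⌉₊ : ℝ)) := by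
    have h1 : EB (fun M => M + 1) := EB.id.add (EB.const 1)
    refine h1.mono (fun M hM => ?_)
    rw [abs_of_nonneg (by positivity)]
    exact (Nat.ceil_lt_add_one (by linarith)).le
  exact (EB.const 2).mul ((EB.const 1).add ((((EB.const 4).mul hL).mul
    (((EB.const 2).mul hq).mul (EB.cS hr))).mul ((EB.const 32).mul hL)))

/-- Dimension reduction for large sets in `ℓ_p`, with explicit distortion. -/
theorem large_quant {r : ℝ} (hr : 1 ≤ r) :
    ∃ K : ℝ, 0 < K ∧ ∀ ε : ℝ, 0 < ε → ε ≤ 1 → ∃ A : ℝ, 1 ≤ A ∧ 2 * A ≤ Real.exp (K / ε) ∧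
      ∃ C : ℝ, 0 < C ∧ ∀ᶠ n : ℕ in atTop, ∃ m : ℕ, (m:ℝ) ≤ C * (n:ℝ) ^ ε ∧
      ∀ (ι : Type u) [Fintype ι], Fintype.card ι = n → ∀ m0 : ℕ, (m0 : ℝ) ≤ (n:ℝ) ^ 2 →
      ∀ X : ι → Fin m0 → ℝ, (∀ x y, x ≠ y → 0 < dist' r X x y) →
      ∃ G : ι → Fin m → ℝ, ∃ s : ℝ, 0 < s ∧ ∀ x y, x ≠ y →
        s * dist' r X x y ≤ N r (fun l => G x l - G y l) ∧
        N r (fun l => G x l - G y l) ≤ A * s * dist' r X x y := by
  have hr0 : 0 < r := by linarith
  obtain ⟨K, hK, hdist⟩ := EB.dist hr0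
  refine ⟨16 * r * K + 1, by positivity, ?_⟩
  intro ε hε hε1
  obtain ⟨δ, hδ⟩ : ∃ δ : ℝ, δ = ε / (8 * r) := ⟨_, rfl⟩
  have hδ0 : 0 < δ := by rw [hδ]; positivity
  have hδ1 : δ ≤ 1 := by
    rw [hδ, div_le_one (by positivity)]; linarith
  have hδε : 8 * δ * r ≤ ε := by
    rw [hδ]; apply le_of_eq; field_simp
  obtain ⟨M, hM⟩ : ∃ M : ℝ, M = 2 / δ := ⟨_, rfl⟩
  have hM2 : 2 ≤ M := by rw [hM, le_div_iff₀ hδ0]; linarith
  obtain ⟨L, hLe⟩ : ∃ L : ℕ, L = ⌈5 * M / 2⌉₊ := ⟨_, rfl⟩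
  have hL : 5 ≤ δ * ((L:ℝ) + 1) := by
    have h1 : 5 * M / 2 ≤ L := by rw [hLe]; exact Nat.le_ceil _
    have h2 : δ * (5 * M / 2) = 5 := by rw [hM]; field_simp
    nlinarith
  obtain ⟨q, hqe⟩ : ∃ q : ℕ, q = ⌈M⌉₊ := ⟨_, rfl⟩
  have hq : 2 ≤ δ * (q:ℝ) := by
    have h1 : M ≤ q := by rw [hqe]; exact Nat.le_ceil _
    have h2 : δ * M = 2 := by rw [hM]; field_simp
    nlinarith
  have hq1 : 1 ≤ q := by rw [hqe]; exact Nat.ceil_pos.2 (by linarith)
  have hM0 : 0 < M := by linarith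
  have hbL := bL_pos hr0 hM0
  have hbB := bB_pos hr0 hM0
  have hcS : 0 < cS r M := by rw [cS]; positivity
  have hlog2 : 0 < Real.log 2 := Real.log_pos (by norm_num)
  obtain ⟨K2, hK2⟩ : ∃ K2 : ℝ, K2 = (16 * q * bB r (2 / δ) + 56 * q * bB r (2 / δ) * (2 / δ) +
      14 * q) * (64 * (8 / (Real.log 2 * δ) + 2)) := ⟨_, rfl⟩
  have hK2pos : 0 < K2 := by
    have hq1' : (1:ℝ) ≤ q := by exact_mod_cast hq1
    rw [← hM] at hK2
    rw [hK2]; positivity
  have hd := hdist M (by linarith)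
  beta_reduce at hd
  rw [← hLe, ← hqe] at hd
  have hA0 : 0 ≤ 4 * ((L:ℝ) + 1) * (2 * q * cS r M) * (32 * (L + 1)) := by positivity
  rw [abs_of_nonneg (by positivity)] at hd
  refine ⟨1 + 4 * ((L:ℝ) + 1) * (2 * q * cS r M) * (32 * (L + 1)), by linarith, ?_,
    10 * (((L:ℝ) + 1) * (K2 * (32 * (L + 1))) ^ r * (3 / δ)) + 1, by positivity, ?_⟩
  · refine hd.trans (Real.exp_le_exp.2 ?_)
    have h1 : K * M = 16 * r * K / ε := by
      rw [hM, hδ]; field_simp; ring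
    rw [h1]
    apply div_le_div_of_nonneg_right _ hε.le
    linarith
  have hcast : Tendsto (fun n : ℕ => (n:ℝ)) atTop atTop := tendsto_natCast_atTop_atTop
  have ev1 : ∀ᶠ n : ℕ in atTop,
      max 8 (32 * ((L:ℝ) + 1) * bL r (2 / δ) * (2 / δ)) ≤ (n:ℝ) ^ δ :=
    ((tendsto_rpow_atTop hδ0).comp hcast).eventually_ge_atTop _
  have ev2 : ∀ᶠ n : ℕ in atTop, max 12 (bL r (2 / δ)) ≤ (n:ℝ) := hcast.eventually_ge_atTop _
  filter_upwards [ev1, ev2] with n hn1 hn2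
  obtain ⟨h1, h2⟩ := large_one.{u} hr hδ0 hδ1 hδε hL hq hq1 ((le_max_left _ _).trans hn1)
    ((le_max_left _ _).trans hn2) ((le_max_right _ _).trans hn1) ((le_max_right _ _).trans hn2)
    hK2 _ rfl
  refine ⟨_, h1, ?_⟩
  intro ι _ hι m0 hm0 X hX
  obtain ⟨G, s, hs, hG⟩ := h2 ι hι m0 hm0 X hX
  rw [← hM] at hG
  refine ⟨G, s, hs, fun a b hab => ⟨(hG a b hab).1, (hG a b hab).2.trans ?_⟩⟩
  apply mul_le_mul_of_nonneg_right _ (hX a b hab).le
  apply mul_le_mul_of_nonneg_right _ hs.le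
  linarith

/-- `n` points of `L_p` embed into `ℓ_p^m` with `m ≤ C n ^ ε` and distortion `exp (K / ε)`. -/
theorem exists_dim_quant (p : ℝ≥0∞) [Fact (1 ≤ p)] (hp : p ≠ ∞) :
    ∃ K : ℝ, 0 < K ∧ ∀ ε : ℝ, 0 < ε → ε ≤ 1 →
      ∃ C : ℝ, 0 < C ∧ ∀ n : ℕ, 2 ≤ n → ∃ m : ℕ, (m : ℝ) ≤ C * (n:ℝ) ^ ε ∧
      ∀ (Ω : Type u) [MeasurableSpace Ω] (μ : Measure Ω) (X : Finset (Lp ℝ p μ)), X.card = n →
        ∃ f : Lp ℝ p μ → PiLp p (fun _ : Fin m => ℝ), ∃ s : ℝ, 0 < s ∧ ∀ x ∈ X, ∀ y ∈ X,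
          s * ‖x - y‖ ≤ ‖f x - f y‖ ∧ ‖f x - f y‖ ≤ Real.exp (K / ε) * s * ‖x - y‖ := by
  classical
  have hp1 : 1 ≤ p := Fact.out
  have hp0 : p ≠ 0 := (lt_of_lt_of_le zero_lt_one hp1).ne'
  have hr1 : 1 ≤ p.toReal := by
    rw [← ENNReal.toReal_one]
    exact ENNReal.toReal_mono hp hp1
  have hr0 : 0 < p.toReal := by linarith
  obtain ⟨K, hK, hlarge⟩ := large_quant.{u} hr1
  refine ⟨K, hK, ?_⟩
  intro ε hε hε1
  obtain ⟨A, hA, hAK, C1, hC1, hlarge⟩ := hlarge ε hε hε1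
  obtain ⟨C0, hC0, hdim⟩ := Vale.Agent.P249.exists_dim.{u} p hp 2 (by norm_num)
  -- the first dimension is at most `n ^ 2` for large `n`
  have ev : ∀ᶠ n : ℕ in atTop, C0 * n * (Real.log n) ^ (p.toReal + 2) ≤ (n:ℝ) ^ 2 := by
    have h1 := (isLittleO_log_rpow_rpow_atTop (p.toReal + 2) (one_pos)).bound
      (by positivity : (0:ℝ) < 1 / C0)
    have h2 := (tendsto_natCast_atTop_atTop (R := ℝ)).eventually h1
    filter_upwards [h2, eventually_ge_atTop 2] with n hn hn2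
    have hnr : (2:ℝ) ≤ n := by exact_mod_cast hn2
    rw [Real.rpow_one, Real.norm_eq_abs, Real.norm_eq_abs, abs_of_pos (by linarith : (0:ℝ) < n)]
      at hn
    have h3 := (le_abs_self _).trans hn
    have hn0 : (0:ℝ) ≤ n := by linarith
    calc C0 * n * (Real.log n) ^ (p.toReal + 2) ≤ C0 * n * (1 / C0 * n) :=
          mul_le_mul_of_nonneg_left h3 (by positivity)
      _ = (n:ℝ) ^ 2 := by field_simp
  obtain ⟨n0, hn0⟩ := eventually_atTop.1 (hlarge.and ev)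
  set n1 : ℕ := max 2 n0 with hn1
  set C2 : ℝ := C0 * n1 * (Real.log n1) ^ (p.toReal + 2) with hC2
  have hn1r : (2:ℝ) ≤ n1 := by exact_mod_cast le_max_left 2 n0
  have hlogn1 : 0 < Real.log n1 := Real.log_pos (by linarith)
  have hC2pos : 0 ≤ C2 := by positivity
  refine ⟨C1 + C2, by positivity, ?_⟩
  intro n hn
  have hnr : (2:ℝ) ≤ n := by exact_mod_cast hn
  have hnε : 1 ≤ (n:ℝ) ^ ε := Real.one_le_rpow (by linarith) hε.le
  obtain ⟨m0, hm0, hemb⟩ := hdim n hn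
  by_cases hlt : n < n1
  · refine ⟨m0, ?_, ?_⟩
    · have h1 : C0 * n * (Real.log n) ^ (p.toReal + 2) ≤ C2 := by
        have h2 : (n:ℝ) ≤ n1 := by exact_mod_cast hlt.le
        have h3 : Real.log n ≤ Real.log n1 := Real.log_le_log (by linarith) h2
        have h4 : 0 ≤ Real.log n := Real.log_nonneg (by linarith)
        rw [hC2]
        gcongr
      calc (m0:ℝ) ≤ C2 := hm0.trans h1
        _ ≤ (C1 + C2) * 1 := by linarith
        _ ≤ (C1 + C2) * (n:ℝ) ^ ε := mul_le_mul_of_nonneg_left hnε (by positivity)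
    · intro Ω _ μ X hX
      obtain ⟨f, s, hs, hf⟩ := hemb Ω μ X hX
      refine ⟨f, s, hs, fun x hx y hy => ⟨(hf x hx y hy).1, (hf x hx y hy).2.trans ?_⟩⟩
      apply mul_le_mul_of_nonneg_right _ (norm_nonneg _)
      apply mul_le_mul_of_nonneg_right _ hs.le
      linarith
  · push Not at hlt
    obtain ⟨⟨m, hm, hG⟩, hsq⟩ := hn0 n ((le_max_right 2 n0).trans hlt)
    refine ⟨m, ?_, ?_⟩
    · refine hm.trans ?_
      apply mul_le_mul_of_nonneg_right _ (by linarith)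
      linarith
    · intro Ω _ μ X hX
      obtain ⟨f, s, hs, hf⟩ := hemb Ω μ X hX
      have hcard : Fintype.card X = n := by simpa using hX
      have hdist : ∀ x y : X, dist' p.toReal (fun (z : X) (l : Fin m0) => f z l) x y =
          ‖f x - f y‖ := by
        intro x y
        rw [dist', PiLp.norm_eq_sum hr0, N]
        simp [Real.norm_eq_abs]
      have hpos : ∀ x y : X, x ≠ y → 0 < dist' p.toReal (fun (z : X) (l : Fin m0) => f z l) x y := by
        intro x y hxy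
        rw [hdist]
        have h1 := (hf x x.2 y y.2).1
        have h2 : 0 < ‖(x : Lp ℝ p μ) - y‖ :=
          norm_pos_iff.2 (sub_ne_zero.2 (fun h => hxy (Subtype.ext h)))
        exact lt_of_lt_of_le (by positivity) h1
      obtain ⟨G, s', hs', hG'⟩ := hG X hcard m0 (hm0.trans hsq) _ hpos
      refine ⟨fun z => if h : z ∈ X then WithLp.toLp p (G ⟨z, h⟩) else 0, s' * s, by positivity,
        ?_⟩
      intro x hx y hy
      simp only [dif_pos hx, dif_pos hy]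
      rw [norm_toLp_sub hr0]
      by_cases hxy : x = y
      · subst hxy
        simp [N_zero hr0]
      · obtain ⟨h1, h2⟩ := hG' ⟨x, hx⟩ ⟨y, hy⟩ (fun h => hxy (congrArg Subtype.val h))
        rw [hdist] at h1 h2
        simp only at h1 h2
        obtain ⟨h3, h4⟩ := hf x hx y hy
        constructor
        · calc s' * s * ‖x - y‖ = s' * (s * ‖x - y‖) := by ring
            _ ≤ s' * ‖f x - f y‖ := mul_le_mul_of_nonneg_left h3 hs'.le
            _ ≤ _ := h1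
        · calc _ ≤ A * s' * ‖f x - f y‖ := h2
            _ ≤ A * s' * (2 * s * ‖x - y‖) := mul_le_mul_of_nonneg_left h4 (by positivity)
            _ = (2 * A) * (s' * s) * ‖x - y‖ := by ring
            _ ≤ _ := by
              apply mul_le_mul_of_nonneg_right _ (norm_nonneg _)
              exact mul_le_mul_of_nonneg_right hAK (by positivity)

/-- `n` points of `L_p` embed into `ℓ_p^m` with `m ≤ C n ^ (K / log D)` and distortion `D`. -/
theorem exists_dim_log (p : ℝ≥0∞) [Fact (1 ≤ p)] (hp : p ≠ ∞) :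
    ∃ K : ℝ, 0 < K ∧ ∀ D : ℝ, 1 < D →
      ∃ C : ℝ, 0 < C ∧ ∀ n : ℕ, 2 ≤ n → ∃ m : ℕ, (m : ℝ) ≤ C * (n:ℝ) ^ (K / Real.log D) ∧
      ∀ (Ω : Type u) [MeasurableSpace Ω] (μ : Measure Ω) (X : Finset (Lp ℝ p μ)), X.card = n →
        ∃ f : Lp ℝ p μ → PiLp p (fun _ : Fin m => ℝ), ∃ s : ℝ, 0 < s ∧ ∀ x ∈ X, ∀ y ∈ X,
          s * ‖x - y‖ ≤ ‖f x - f y‖ ∧ ‖f x - f y‖ ≤ D * s * ‖x - y‖ := by
  have hp1 : 1 ≤ p := Fact.out
  have hr1 : 1 ≤ p.toReal := by
    rw [← ENNReal.toReal_one]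
    exact ENNReal.toReal_mono hp hp1
  have hr0 : 0 < p.toReal := by linarith
  obtain ⟨K, hK, h⟩ := exists_dim_quant.{u} p hp
  refine ⟨K, hK, ?_⟩
  intro D hD
  have hlogD : 0 < Real.log D := Real.log_pos hD
  by_cases hle : K / Real.log D ≤ 1
  · obtain ⟨C, hC, hC'⟩ := h (K / Real.log D) (by positivity) hle
    refine ⟨C, hC, ?_⟩
    have h1 : Real.exp (K / (K / Real.log D)) = D := by
      rw [div_div_cancel₀ hK.ne', Real.exp_log (by linarith)]
    rw [h1] at hC'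
    exact hC'
  · push Not at hle
    obtain ⟨C0, hC0, hdim⟩ := Vale.Agent.P249.exists_dim.{u} p hp D hD
    obtain ⟨η, hη⟩ : ∃ η : ℝ, η = (K / Real.log D - 1) / (p.toReal + 2) := ⟨_, rfl⟩
    have hη0 : 0 < η := by
      rw [hη]
      apply div_pos <;> linarith
    refine ⟨C0 / η ^ (p.toReal + 2), by positivity, ?_⟩
    intro n hn
    obtain ⟨m, hm, hemb⟩ := hdim n hn
    refine ⟨m, hm.trans ?_, hemb⟩
    have hnr : (2:ℝ) ≤ n := by exact_mod_cast hn
    have hn0 : (0:ℝ) < n := by linarith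
    have hlogn : 0 ≤ Real.log n := Real.log_nonneg (by linarith)
    have h1 : Real.log n ≤ (n:ℝ) ^ η / η := Real.log_le_rpow_div hn0.le hη0
    have h2 : (Real.log n) ^ (p.toReal + 2) ≤ (n:ℝ) ^ (K / Real.log D - 1) /
        η ^ (p.toReal + 2) := by
      calc (Real.log n) ^ (p.toReal + 2) ≤ ((n:ℝ) ^ η / η) ^ (p.toReal + 2) :=
            Real.rpow_le_rpow hlogn h1 (by linarith)
        _ = _ := by
            rw [Real.div_rpow (by positivity) hη0.le, ← Real.rpow_mul hn0.le]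
            congr 2
            rw [hη]; field_simp
    calc C0 * n * (Real.log n) ^ (p.toReal + 2) ≤ C0 * n * ((n:ℝ) ^ (K / Real.log D - 1) /
          η ^ (p.toReal + 2)) := mul_le_mul_of_nonneg_left h2 (by positivity)
      _ = C0 / η ^ (p.toReal + 2) * ((n:ℝ) ^ (K / Real.log D - 1) * n) := by ring
      _ = _ := by
          rw [← Real.rpow_add_one hn0.ne']
          congr 2
          ring

end Vale.Agent.P249.Sub
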